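import Vale.Agent.P262.InZ

/-!
Elementary D-optimal designs of displacement bodies.

For an interval we maximise `det (R₀ + (d/m) ∑ yᵢ yᵢᵀ)` over `m = d² + d` displacements `yᵢ`.
-/

namespace Vale.Agent.P262

open Matrix Finset
open scoped RealInnerProductSpace

variable {d : ℕ} {v : ℕ → V d}

/-- Number of points of a design. -/
def dm (d : ℕ) : ℕ := d * d + d

/-- Weight of a point of a design. -/
noncomputable def dc (d : ℕ) : ℝ := (d : ℝ) / (dm d : ℝ)

/-- The set of unit displacements on an interval. -/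
def Zset (v : ℕ → V d) (s e : ℕ) : Set (V d) := {y | InZ v s e 1 y}

lemma InZ.sum {ι : Type*} (t : Finset ι) {s e : ℕ} (c : ι → ℝ) (y : ι → V d)
    (hy : ∀ i ∈ t, InZ v s e 1 (y i)) : InZ v s e (∑ i ∈ t, |c i|) (∑ i ∈ t, c i • y i) := by
  classical
  induction t using Finset.induction_on with
  | empty => simpa using InZ.zero (v := v) (s := s) (e := e) (K := 0) le_rfl
  | insert a t ha ih =>
    rw [Finset.sum_insert ha, Finset.sum_insert ha]
    have h1 := (hy a (Finset.mem_insert_self a t)).smul (c a)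
    rw [mul_one] at h1
    exact h1.add (ih fun i hi => hy i (Finset.mem_insert_of_mem hi))

lemma zero_mem_Zset (s e : ℕ) : (0 : V d) ∈ Zset v s e := InZ.zero zero_le_one

lemma isCompact_Zset (s e : ℕ) : IsCompact (Zset v s e) := by
  let B : Set (ℕ → ℝ) := Set.univ.pi fun i => if i ∈ Finset.Ico s e then Set.Icc (-1) 1 else {0}
  have hB : IsCompact B := isCompact_univ_pi fun i => by
    by_cases hi : i ∈ Finset.Ico s e
    · simp only [if_pos hi]; exact isCompact_Icc
    · simp only [if_neg hi]; exact isCompact_singleton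
  have hcont : ∀ k, Continuous fun w : ℕ → ℝ => disp v s k w := fun k => by
    unfold disp
    exact continuous_finsetSum _ fun i _ => (continuous_apply i).smul continuous_const
  let C : Set (ℕ → ℝ) := B ∩ ⋂ k ∈ Finset.Icc s e, {w | ‖disp v s k w‖ ≤ 1}
  have hC : IsCompact C := hB.inter_right <| isClosed_biInter fun k _ =>
    isClosed_le (hcont k).norm continuous_const
  have : Zset v s e = (fun w => disp v s e w) '' C := by
    ext y
    constructor
    · rintro ⟨w, h1, h2, h3⟩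
      refine ⟨fun i => if i ∈ Finset.Ico s e then w i else 0, ⟨fun i _ => ?_, ?_⟩, ?_⟩
      · by_cases hi : i ∈ Finset.Ico s e
        · simp only [if_pos hi]; exact abs_le.1 (h1 i hi)
        · simp only [if_neg hi]; exact Set.mem_singleton _
      · simp only [Set.mem_iInter]
        intro k hk
        have hk' := Finset.mem_Icc.1 hk
        rw [Set.mem_ofPred_eq, disp_congr (w' := w) fun i hi => if_pos (Finset.mem_Ico.2
          ⟨(Finset.mem_Ico.1 hi).1, (Finset.mem_Ico.1 hi).2.trans_le hk'.2⟩)]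
        exact h2 k hk'.1 hk'.2
      · show disp v s e _ = y
        rw [disp_congr (w' := w) fun i hi => if_pos hi, h3]
    · rintro ⟨w, ⟨hw, hw'⟩, rfl⟩
      refine ⟨w, fun i hi => ?_, fun k a b => ?_, rfl⟩
      · have := hw i (Set.mem_univ i)
        simp only [if_pos hi] at this
        exact abs_le.2 this
      · exact Set.mem_iInter₂.1 hw' k (Finset.mem_Icc.2 ⟨a, b⟩)
  rw [this]
  exact hC.image (hcont e)

/-- The Gram matrix of a design. -/
noncomputable def gramMat (y : Fin (dm d) → V d) : Matrix (Fin d) (Fin d) ℝ :=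
  dc d • ∑ i, vecMulVec (y i).ofLp (y i).ofLp

/-- The operator of a design. -/
noncomputable def gramOp (y : Fin (dm d) → V d) : V d →L[ℝ] V d :=
  dc d • ∑ i, (innerSL ℝ (y i)).smulRight (y i)

lemma dc_pos (hd : 1 ≤ d) : 0 < dc d := by
  unfold dc dm
  have : (0 : ℝ) < d := by exact_mod_cast hd
  positivity

lemma dc_nonneg : 0 ≤ dc d := by unfold dc; positivity

lemma gramOp_apply (y : Fin (dm d) → V d) (t : V d) :
    gramOp y t = ∑ i, (dc d * ⟪y i, t⟫) • y i := by
  simp [gramOp, Finset.smul_sum, smul_smul]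

lemma inner_gramOp (y : Fin (dm d) → V d) (t u : V d) :
    ⟪gramOp y t, u⟫ = dc d * ∑ i, ⟪y i, t⟫ * ⟪y i, u⟫ := by
  simp [gramOp_apply, sum_inner, real_inner_smul_left, Finset.mul_sum, mul_assoc]

lemma inner_gramOp_self_nonneg (y : Fin (dm d) → V d) (t : V d) : 0 ≤ ⟪gramOp y t, t⟫ := by
  rw [inner_gramOp]
  exact mul_nonneg dc_nonneg (Finset.sum_nonneg fun i _ => mul_self_nonneg _)

lemma gramOp_symm (y : Fin (dm d) → V d) (t u : V d) :
    ⟪gramOp y t, u⟫ = ⟪t, gramOp y u⟫ := by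
  rw [real_inner_comm (gramOp y u) t, inner_gramOp, inner_gramOp]
  simp [mul_comm]

lemma inner_eq_dot (x y : V d) : ⟪x, y⟫ = x.ofLp ⬝ᵥ y.ofLp := by
  rw [EuclideanSpace.inner_eq_star_dotProduct, dotProduct_comm]
  simp

lemma dot_gramMat (y : Fin (dm d) → V d) (t : V d) :
    t.ofLp ⬝ᵥ (gramMat y *ᵥ t.ofLp) = ⟪gramOp y t, t⟫ := by
  rw [inner_gramOp]
  rw [gramMat, smul_mulVec, sum_mulVec, dotProduct_smul, dotProduct_sum, smul_eq_mul]
  refine congrArg _ (Finset.sum_congr rfl fun i _ => ?_)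
  rw [vecMulVec_mulVec, op_smul_eq_smul, dotProduct_smul, smul_eq_mul, inner_eq_dot,
    dotProduct_comm t.ofLp]

lemma inner_gramOp_le (hd : 1 ≤ d) {s e : ℕ} (hse : s ≤ e) {y : Fin (dm d) → V d}
    (hy : ∀ i, InZ v s e 1 (y i)) (t : V d) : ⟪gramOp y t, t⟫ ≤ d * ‖t‖ ^ 2 := by
  rw [inner_gramOp]
  have h : ∑ i, ⟪y i, t⟫ * ⟪y i, t⟫ ≤ ∑ _i : Fin (dm d), ‖t‖ ^ 2 :=
    Finset.sum_le_sum fun i _ => by
      have := abs_real_inner_le_norm (y i) t
      have hn := (hy i).norm_le hse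
      have h2 : |⟪y i, t⟫| ≤ ‖t‖ :=
        this.trans (mul_le_of_le_one_left (norm_nonneg t) hn)
      nlinarith [abs_mul_abs_self ⟪y i, t⟫, abs_nonneg ⟪y i, t⟫, norm_nonneg t]
  refine (mul_le_mul_of_nonneg_left h dc_nonneg).trans (le_of_eq ?_)
  have hm : (dm d : ℝ) ≠ 0 := by
    have : 0 < dm d := by unfold dm; nlinarith
    exact_mod_cast this.ne'
  simp [dc]
  field_simp

lemma InZ_gramOp {s e : ℕ} {y : Fin (dm d) → V d}
    (hy : ∀ i, InZ v s e 1 (y i)) (t : V d) :
    InZ v s e (√d * √⟪gramOp y t, t⟫) (gramOp y t) := by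
  have hz := InZ.sum (s := s) (e := e) Finset.univ (fun i => dc d * ⟪y i, t⟫) y fun i _ => hy i
  rw [← gramOp_apply] at hz
  refine hz.mono ?_
  have hcs : (∑ i, |dc d * ⟪y i, t⟫|) ^ 2 ≤
      (dm d : ℝ) * ∑ i, |dc d * ⟪y i, t⟫| ^ 2 := by
    have := sq_sum_le_card_mul_sum_sq (s := (Finset.univ : Finset (Fin (dm d))))
      (f := fun i => |dc d * ⟪y i, t⟫|)
    simpa using this
  have hmd : (dm d : ℝ) * dc d = d := by
    by_cases hd : d = 0
    · subst hd; simp [dm]
    · have : 0 < dm d := by unfold dm; positivity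
      have hm : (dm d : ℝ) ≠ 0 := by exact_mod_cast this.ne'
      unfold dc; field_simp
  rw [← Real.sqrt_mul (Nat.cast_nonneg d), inner_gramOp]
  refine Real.le_sqrt_of_sq_le (hcs.trans (le_of_eq ?_))
  rw [Finset.mul_sum, Finset.mul_sum, Finset.mul_sum]
  refine Finset.sum_congr rfl fun i _ => ?_
  rw [sq_abs]
  linear_combination (dc d * (⟪y i, t⟫ * ⟪y i, t⟫)) * hmd

/-- Matrix of the design with regulariser `Rᴴ R`. -/
noncomputable def regMat (R : Matrix (Fin d) (Fin d) ℝ) (y : Fin (dm d) → V d) :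
    Matrix (Fin d) (Fin d) ℝ := Rᴴ * R + gramMat y

lemma gramMat_posSemidef (y : Fin (dm d) → V d) : (gramMat y).PosSemidef := by
  refine PosSemidef.smul (posSemidef_sum _ fun i _ => ?_) dc_nonneg
  simpa using posSemidef_vecMulVec_self_star (y i).ofLp

lemma regMat_posSemidef (R : Matrix (Fin d) (Fin d) ℝ) (y : Fin (dm d) → V d) :
    (regMat R y).PosSemidef :=
  (posSemidef_conjTranspose_mul_self R).add (gramMat_posSemidef y)

lemma regMat_posDef {R : Matrix (Fin d) (Fin d) ℝ} {y : Fin (dm d) → V d}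
    (h : (regMat R y).det ≠ 0) : (regMat R y).PosDef :=
  (regMat_posSemidef R y).posDef_iff_isUnit.2 ((isUnit_iff_isUnit_det _).2 h.isUnit)

lemma dot_regMat (R : Matrix (Fin d) (Fin d) ℝ) (y : Fin (dm d) → V d) (t : V d) :
    t.ofLp ⬝ᵥ (regMat R y *ᵥ t.ofLp)
      = (R *ᵥ t.ofLp) ⬝ᵥ (R *ᵥ t.ofLp) + ⟪gramOp y t, t⟫ := by
  rw [regMat, add_mulVec, dotProduct_add, dot_gramMat, ← mulVec_mulVec,
    dotProduct_mulVec (A := Rᴴ), vecMul_conjTranspose]
  simp

lemma gramMat_update (y : Fin (dm d) → V d) (i : Fin (dm d)) (z : V d) :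
    gramMat (Function.update y i z) = gramMat y + (dc d • vecMulVec z.ofLp z.ofLp
      - dc d • vecMulVec (y i).ofLp (y i).ofLp) := by
  classical
  simp only [gramMat]
  rw [← Finset.add_sum_erase _ _ (Finset.mem_univ i),
    ← Finset.add_sum_erase _ (fun j => vecMulVec (y j).ofLp (y j).ofLp) (Finset.mem_univ i)]
  have : ∀ j ∈ Finset.univ.erase i,
      vecMulVec (Function.update y i z j).ofLp (Function.update y i z j).ofLp
        = vecMulVec (y j).ofLp (y j).ofLp := fun j hj => by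
    rw [Function.update_of_ne (Finset.ne_of_mem_erase hj)]
  rw [Finset.sum_congr rfl this, Function.update_self, smul_add, smul_add]
  abel

/-- Rank-two determinant update. -/
lemma det_update (N : Matrix (Fin d) (Fin d) ℝ) (hN : IsUnit N.det) (a b : Fin d → ℝ) (c : ℝ)
    (hs : ∀ p q : Fin d → ℝ, p ⬝ᵥ (N⁻¹ *ᵥ q) = q ⬝ᵥ (N⁻¹ *ᵥ p)) :
    (N + (c • vecMulVec a a - c • vecMulVec b b)).det =
      N.det * ((1 + c * (a ⬝ᵥ (N⁻¹ *ᵥ a))) * (1 - c * (b ⬝ᵥ (N⁻¹ *ᵥ b)))
        + (c * (a ⬝ᵥ (N⁻¹ *ᵥ b))) ^ 2) := by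
  let U : Matrix (Fin d) (Fin 2) ℝ := Matrix.of fun j k => ![a j, b j] k
  let W : Matrix (Fin 2) (Fin d) ℝ := Matrix.of fun k j => ![c * a j, -(c * b j)] k
  have hUW : c • vecMulVec a a - c • vecMulVec b b = U * W := by
    ext j k
    simp [U, W, Matrix.mul_apply, Fin.sum_univ_two, vecMulVec_apply]
    ring
  rw [hUW]
  have : N + U * W = N * (1 + (N⁻¹ * U) * W) := by
    rw [Matrix.mul_add, Matrix.mul_one, ← Matrix.mul_assoc, ← Matrix.mul_assoc,
      Matrix.mul_nonsing_inv _ hN, Matrix.one_mul]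
  rw [this, det_mul, det_one_add_mul_comm, det_fin_two]
  have e : ∀ k l : Fin 2, (W * (N⁻¹ * U)) k l = (W k) ⬝ᵥ (N⁻¹ *ᵥ fun j => U j l) := fun k l => rfl
  have u0 : (fun j => U j 0) = a := by ext j; simp [U]
  have u1 : (fun j => U j 1) = b := by ext j; simp [U]
  have w0 : W 0 = c • a := by ext j; simp [W]
  have w1 : W 1 = -(c • b) := by ext j; simp [W]
  simp only [Matrix.add_apply, e, u0, u1, w0, w1, neg_dotProduct, smul_dotProduct, smul_eq_mul,
    hs b a]
  rw [Matrix.one_apply_eq, Matrix.one_apply_eq, Matrix.one_apply_ne (by decide),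
    Matrix.one_apply_ne (by decide)]
  ring

section Opt

variable {R : Matrix (Fin d) (Fin d) ℝ} {S : Set (V d)} {y : Fin (dm d) → V d}

/-- `y` maximises the regularised determinant over tuples from `S`. -/
structure IsOpt (R : Matrix (Fin d) (Fin d) ℝ) (S : Set (V d)) (y : Fin (dm d) → V d) : Prop where
  mem : ∀ i, y i ∈ S
  max : ∀ y', (∀ i, y' i ∈ S) → (regMat R y').det ≤ (regMat R y).det
  det_pos : 0 < (regMat R y).det

lemma exists_max (R : Matrix (Fin d) (Fin d) ℝ) (hS : IsCompact S) (hne : S.Nonempty) :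
    ∃ y : Fin (dm d) → V d, (∀ i, y i ∈ S) ∧
      ∀ y', (∀ i, y' i ∈ S) → (regMat R y').det ≤ (regMat R y).det := by
  obtain ⟨z, hz⟩ := hne
  have hc : Continuous fun y : Fin (dm d) → V d => (regMat R y).det := by
    refine Continuous.matrix_det ?_
    unfold regMat gramMat
    refine continuous_const.add (Continuous.fun_const_smul ?_ (dc d))
    refine continuous_finsetSum _ fun i _ => continuous_matrix fun a b => ?_
    simp only [vecMulVec_apply]
    fun_prop
  obtain ⟨y, hy, hmax⟩ := (isCompact_univ_pi fun _ : Fin (dm d) => hS).exists_isMaxOn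
    ⟨fun _ => z, fun _ _ => hz⟩ hc.continuousOn
  exact ⟨y, fun i => hy i (Set.mem_univ i), fun y' hy' => hmax fun i _ => hy' i⟩

/-- `τ = tr (N⁻¹ Rᴴ R)`. -/
noncomputable def tauR (R : Matrix (Fin d) (Fin d) ℝ) (y : Fin (dm d) → V d) : ℝ :=
  ((regMat R y)⁻¹ * (Rᴴ * R)).trace

lemma trace_inv_gram (N : Matrix (Fin d) (Fin d) ℝ) (y : Fin (dm d) → V d) :
    (N⁻¹ * gramMat y).trace = dc d * ∑ i, (y i).ofLp ⬝ᵥ (N⁻¹ *ᵥ (y i).ofLp) := by
  simp only [gramMat, Matrix.mul_smul, trace_smul, Matrix.mul_sum, trace_sum, mul_vecMulVec,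
    trace_vecMulVec, smul_eq_mul]
  simp [dotProduct_comm]

lemma tauR_nonneg (_h : (regMat R y).det ≠ 0) : 0 ≤ tauR R y := by
  rw [tauR, ← Matrix.mul_assoc, trace_mul_comm, ← Matrix.mul_assoc]
  exact ((regMat_posSemidef R y).inv.mul_mul_conjTranspose_same R).trace_nonneg

lemma tauR_add (h : (regMat R y).det ≠ 0) :
    tauR R y + dc d * ∑ i, (y i).ofLp ⬝ᵥ ((regMat R y)⁻¹ *ᵥ (y i).ofLp) = d := by
  rw [← trace_inv_gram, tauR, ← trace_add, ← Matrix.mul_add]
  rw [show Rᴴ * R + gramMat y = regMat R y from rfl, Matrix.nonsing_inv_mul _ h.isUnit]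
  simp

/-- The equivalence-theorem inequality for the elementary design. -/
lemma IsOpt.quad_le (h : IsOpt R S y) (hd : 1 ≤ d) {z : V d} (hz : z ∈ S) :
    (dm d - d + tauR R y) * (z.ofLp ⬝ᵥ ((regMat R y)⁻¹ *ᵥ z.ofLp))
      ≤ (dm d : ℝ) / d * (d - tauR R y) := by
  classical
  set N := regMat R y with hN
  have hdet : IsUnit N.det := h.det_pos.ne'.isUnit
  have hsym : ∀ p q : Fin d → ℝ, p ⬝ᵥ (N⁻¹ *ᵥ q) = q ⬝ᵥ (N⁻¹ *ᵥ p) := fun p q => by
    have hh : N⁻¹ᵀ = N⁻¹ := by
      have := ((regMat_posSemidef R y).inv).isHermitian.eq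
      simpa [conjTranspose_eq_transpose_of_trivial] using this
    rw [dotProduct_mulVec, ← hh, vecMul_transpose, dotProduct_comm, hh]
  set q := z.ofLp ⬝ᵥ (N⁻¹ *ᵥ z.ofLp) with hq
  let a : Fin (dm d) → ℝ := fun i => (y i).ofLp ⬝ᵥ (N⁻¹ *ᵥ (y i).ofLp)
  have hc := dc_pos hd
  have key : ∀ i, q * (1 - dc d * a i) ≤ a i := fun i => by
    have hle := h.max (Function.update y i z) fun j => by
      by_cases hj : j = i
      · subst hj; simpa using hz
      · simpa [hj] using h.mem j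
    rw [regMat, gramMat_update, ← add_assoc] at hle
    rw [show Rᴴ * R + gramMat y = N from rfl, det_update N hdet _ _ _ hsym] at hle
    have hpos : 0 < N.det := h.det_pos
    have h1 := le_of_mul_le_mul_left (hle.trans_eq (mul_one _).symm) hpos
    have : dc d * (q * (1 - dc d * a i)) ≤ dc d * a i := by
      nlinarith [sq_nonneg (dc d * (z.ofLp ⬝ᵥ (N⁻¹ *ᵥ (y i).ofLp)))]
    exact le_of_mul_le_mul_left this hc
  have hsum := Finset.sum_le_sum (s := Finset.univ) fun i _ => key i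
  rw [← Finset.mul_sum, Finset.sum_sub_distrib, ← Finset.mul_sum] at hsum
  simp only [Finset.sum_const, Finset.card_univ, Fintype.card_fin, nsmul_eq_mul, mul_one] at hsum
  have ht := tauR_add (R := R) (y := y) h.det_pos.ne'
  have hsa : dc d * ∑ i, a i = d - tauR R y := by linarith
  rw [hsa] at hsum
  have : ∑ i, a i = (dm d : ℝ) / d * (d - tauR R y) := by
    rw [← hsa]; unfold dc
    have : (dm d : ℝ) ≠ 0 := by
      have : 0 < dm d := by unfold dm; nlinarith
      exact_mod_cast this.ne'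
    have : (d : ℝ) ≠ 0 := by positivity
    field_simp
  rw [this] at hsum
  linarith

lemma tauR_le (h : (regMat R y).det ≠ 0) : tauR R y ≤ d := by
  have h2 : 0 ≤ ∑ i, (y i).ofLp ⬝ᵥ ((regMat R y)⁻¹ *ᵥ (y i).ofLp) :=
    Finset.sum_nonneg fun i _ => by
      simpa using (regMat_posSemidef R y).inv.dotProduct_mulVec_nonneg (y i).ofLp
  nlinarith [tauR_add h, mul_nonneg (dc_nonneg (d := d)) h2]

lemma IsOpt.quad_le_two (h : IsOpt R S y) (hd : 1 ≤ d) {z : V d} (hz : z ∈ S) :
    z.ofLp ⬝ᵥ ((regMat R y)⁻¹ *ᵥ z.ofLp) ≤ 2 := by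
  have h1 := h.quad_le hd hz
  have h2 := tauR_nonneg (R := R) (y := y) h.det_pos.ne'
  have h3 : 0 ≤ z.ofLp ⬝ᵥ ((regMat R y)⁻¹ *ᵥ z.ofLp) := by
    simpa using (regMat_posSemidef R y).inv.dotProduct_mulVec_nonneg z.ofLp
  have hd' : (1 : ℝ) ≤ d := by exact_mod_cast hd
  have hm : (dm d : ℝ) = d * d + d := by simp [dm]
  rw [hm, show ((d : ℝ) * d + d) / d = d + 1 by field_simp] at h1
  generalize z.ofLp ⬝ᵥ ((regMat R y)⁻¹ *ᵥ z.ofLp) = q at h1 h3 ⊢
  generalize tauR R y = τ at h1 h2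
  by_contra hq
  push Not at hq
  nlinarith [mul_nonneg h2 h3, mul_lt_mul_of_pos_left hq (show (0 : ℝ) < d * d by positivity),
    mul_nonneg (show (0 : ℝ) ≤ d + 1 by positivity) h2,
    mul_le_mul_of_nonneg_left hd' (show (0 : ℝ) ≤ d by positivity)]

/-- `⟪z,t⟫² ≤ 2 tᵀNt`. -/
lemma IsOpt.inner_sq_le (h : IsOpt R S y) (hd : 1 ≤ d) {z : V d} (hz : z ∈ S) (t : V d) :
    ⟪z, t⟫ ^ 2 ≤ 2 * ((R *ᵥ t.ofLp) ⬝ᵥ (R *ᵥ t.ofLp) + ⟪gramOp y t, t⟫) := by
  rw [← dot_regMat]
  set N := regMat R y with hN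
  have hdet : IsUnit N.det := h.det_pos.ne'.isUnit
  set u := N⁻¹ *ᵥ z.ofLp with hu
  have hNu : N *ᵥ u = z.ofLp := by
    rw [hu, mulVec_mulVec, Matrix.mul_nonsing_inv _ hdet, one_mulVec]
  have hNs : ∀ p q : Fin d → ℝ, p ⬝ᵥ (N *ᵥ q) = q ⬝ᵥ (N *ᵥ p) := fun p q => by
    have hh : Nᵀ = N := by
      have := (regMat_posSemidef R y).isHermitian.eq
      simpa [conjTranspose_eq_transpose_of_trivial] using this
    rw [dotProduct_mulVec, ← hh, vecMul_transpose, dotProduct_comm, hh]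
  have hq2 : u ⬝ᵥ (N *ᵥ u) ≤ 2 := by
    rw [hNu, dotProduct_comm]; exact h.quad_le_two hd hz
  have hzt : ⟪z, t⟫ = u ⬝ᵥ (N *ᵥ t.ofLp) := by
    rw [inner_eq_dot, hNs, hNu, dotProduct_comm]
  have h0 : ∀ p : Fin d → ℝ, 0 ≤ p ⬝ᵥ (N *ᵥ p) := fun p => by
    simpa using (regMat_posSemidef R y).dotProduct_mulVec_nonneg p
  have hquad : ∀ s : ℝ, 0 ≤ (u ⬝ᵥ (N *ᵥ u)) * (s * s) + (2 * (u ⬝ᵥ (N *ᵥ t.ofLp))) * s
      + t.ofLp ⬝ᵥ (N *ᵥ t.ofLp) := fun s => by
    have := h0 (s • u + t.ofLp)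
    simp only [mulVec_add, mulVec_smul, dotProduct_add, add_dotProduct, dotProduct_smul,
      smul_dotProduct, smul_eq_mul] at this
    rw [hNs t.ofLp u] at this
    linarith
  have := discrim_le_zero hquad
  rw [discrim] at this
  rw [hzt]
  nlinarith [h0 t.ofLp]

end Opt

/-- A matrix comparison from a trace bound and a determinant bound. -/
lemma posDef_compare (hd : 1 ≤ d) {A B : Matrix (Fin d) (Fin d) ℝ} (hA : A.PosDef)
    (hB : B.PosSemidef) {ρ : ℝ} (hρ : 0 < ρ)
    (htr : (A⁻¹ * B).trace ≤ d + 1) (hdet : ρ * A.det ≤ B.det) (t : Fin d → ℝ) :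
    ρ / 30 * (t ⬝ᵥ (A *ᵥ t)) ≤ t ⬝ᵥ (B *ᵥ t) := by
  classical
  set lam := hA.1.eigenvalues with hlam
  have hlp : ∀ i, 0 < lam i := hA.eigenvalues_pos
  set U : Matrix (Fin d) (Fin d) ℝ := (hA.1.eigenvectorUnitary : Matrix (Fin d) (Fin d) ℝ)
  let Dm : Matrix (Fin d) (Fin d) ℝ := diagonal fun i => (√(lam i))⁻¹
  let P := U * Dm
  have hUU : star U * U = 1 := Unitary.coe_star_mul_self hA.1.eigenvectorUnitary
  have hspec : A = U * diagonal lam * star U := by
    have := hA.1.spectral_theorem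
    rw [Unitary.conjStarAlgAut_apply] at this
    simpa [Function.comp_def] using this
  have hPAP : Pᴴ * A * P = 1 := by
    have : Pᴴ * A * P = Dm * ((star U * U) * diagonal lam * (star U * U)) * Dm := by
      simp only [P, conjTranspose_mul, hspec, star_eq_conjTranspose, Matrix.mul_assoc, Dm,
        diagonal_conjTranspose, star_trivial]
    rw [this, hUU, Matrix.one_mul, Matrix.mul_one, diagonal_mul_diagonal, diagonal_mul_diagonal,
      ← diagonal_one]
    congr 1; funext i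
    have := Real.mul_self_sqrt (hlp i).le
    have h2 : √(lam i) ≠ 0 := Real.sqrt_ne_zero'.2 (hlp i)
    field_simp
    linarith
  have hPu : IsUnit P.det := by
    have := congrArg Matrix.det hPAP
    rw [det_mul, det_mul, det_one] at this
    exact IsUnit.of_mul_eq_one (Pᴴ.det * A.det) (by rw [mul_comm]; exact this)
  have hAinv : A⁻¹ = P * Pᴴ := by
    refine Matrix.inv_eq_left_inv ?_
    have h1 : P * (Pᴴ * A * P) * P⁻¹ = 1 := by
      rw [hPAP, Matrix.mul_one, Matrix.mul_nonsing_inv _ hPu]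
    calc P * Pᴴ * A = P * Pᴴ * A * (P * P⁻¹) := by
          rw [Matrix.mul_nonsing_inv _ hPu, Matrix.mul_one]
      _ = 1 := by rw [← h1]; simp only [Matrix.mul_assoc]
  set C := Pᴴ * B * P with hC
  have hCp : C.PosSemidef := hB.conjTranspose_mul_mul_same P
  set mu := hCp.1.eigenvalues with hmu
  have hmup : ∀ i, 0 ≤ mu i := hCp.eigenvalues_nonneg
  have htrC : ∑ i, mu i ≤ d + 1 := by
    have h1 : C.trace = ∑ i, mu i := by simpa using hCp.1.trace_eq_sum_eigenvalues
    rw [← h1, hC, trace_mul_comm, ← Matrix.mul_assoc, ← hAinv]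
    exact htr
  have hdetC : ρ ≤ ∏ i, mu i := by
    have h1 : C.det = ∏ i, mu i := by simpa using hCp.1.det_eq_prod_eigenvalues
    have h2 := congrArg Matrix.det hPAP
    rw [det_mul, det_mul, det_one] at h2
    rw [← h1, hC, det_mul, det_mul]
    have hPH : Pᴴ.det = P.det := by rw [det_conjTranspose]; simp
    rw [hPH] at h2 ⊢
    nlinarith [mul_le_mul_of_nonneg_left hdet (mul_self_nonneg P.det)]
  have hmin : ∀ i, ρ / 30 ≤ mu i := by
    intro i
    rw [← Finset.mul_prod_erase _ _ (Finset.mem_univ i)] at hdetC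
    have hprod : ∏ j ∈ Finset.univ.erase i, mu j ≤ Real.exp 2 := by
      calc ∏ j ∈ Finset.univ.erase i, mu j ≤ ∏ j ∈ Finset.univ.erase i, Real.exp (mu j - 1) :=
            Finset.prod_le_prod (fun j _ => hmup j) fun j _ => by
              linarith [Real.add_one_le_exp (mu j - 1)]
        _ = Real.exp (∑ j ∈ Finset.univ.erase i, (mu j - 1)) := (Real.exp_sum _ _).symm
        _ ≤ Real.exp 2 := by
            refine Real.exp_le_exp.2 ?_
            rw [Finset.sum_sub_distrib, Finset.sum_const, Finset.card_erase_of_mem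
              (Finset.mem_univ i), Finset.card_univ, Fintype.card_fin, nsmul_eq_mul, mul_one,
              Nat.cast_sub hd]
            have : ∑ j ∈ Finset.univ.erase i, mu j ≤ d + 1 :=
              le_trans (Finset.sum_le_univ_sum_of_nonneg hmup) htrC
            push_cast; linarith
    have he : Real.exp 2 ≤ 30 := by
      have := Real.exp_one_lt_d9
      rw [show (2 : ℝ) = 1 + 1 by norm_num, Real.exp_add]
      nlinarith [Real.exp_pos 1]
    have := hdetC.trans (mul_le_mul_of_nonneg_left (hprod.trans he) (hmup i))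
    linarith
  have hCle : (C - (ρ / 30) • 1).PosSemidef := by
    have hH : C.IsHermitian := hCp.1
    have e : C - (ρ / 30) • 1 = (hH.eigenvectorUnitary : Matrix (Fin d) (Fin d) ℝ) *
        diagonal (fun i => mu i - ρ / 30) *
        star (hH.eigenvectorUnitary : Matrix (Fin d) (Fin d) ℝ) := by
      have h1 := hH.spectral_theorem
      rw [Unitary.conjStarAlgAut_apply] at h1
      conv_lhs => rw [h1]
      rw [← diagonal_sub, Matrix.mul_sub, Matrix.sub_mul]
      congr 1
      rw [show (diagonal fun _ : Fin d => ρ / 30) = (ρ / 30) • (1 : Matrix (Fin d) (Fin d) ℝ) by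
        ext a b; simp [Matrix.one_apply, diagonal_apply]]
      rw [Matrix.mul_smul, Matrix.mul_one, Matrix.smul_mul]
      congr 1
      exact (Unitary.mul_star_self_of_mem hH.eigenvectorUnitary.2).symm
    rw [e, star_eq_conjTranspose]
    exact (PosSemidef.diagonal fun i => sub_nonneg.2 (hmin i)).mul_mul_conjTranspose_same _
  have hq := hCle.dotProduct_mulVec_nonneg (P⁻¹ *ᵥ t)
  have ht : P *ᵥ (P⁻¹ *ᵥ t) = t := by
    rw [mulVec_mulVec, Matrix.mul_nonsing_inv _ hPu, one_mulVec]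
  rw [← hPAP, hC] at hq
  simp only [star_trivial, Matrix.sub_mulVec, smul_mulVec, dotProduct_sub, dotProduct_smul,
    ← mulVec_mulVec, ht, smul_eq_mul] at hq
  have key : ∀ M : Matrix (Fin d) (Fin d) ℝ,
      (P⁻¹ *ᵥ t) ⬝ᵥ (Pᴴ *ᵥ (M *ᵥ t)) = t ⬝ᵥ (M *ᵥ t) := fun M => by
    rw [dotProduct_mulVec (A := Pᴴ), vecMul_conjTranspose]
    simp [ht]
  rw [key, key] at hq
  linarith

/-! ### Regularised designs -/

/-- The regulariser `√ν • 1`. -/
noncomputable def regR (d : ℕ) (ν : ℝ) : Matrix (Fin d) (Fin d) ℝ := √ν • 1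

lemma regR_sq {ν : ℝ} (hν : 0 ≤ ν) : (regR d ν)ᴴ * regR d ν = ν • 1 := by
  simp [regR, smul_smul, Real.mul_self_sqrt hν]

/-- An optimal tuple for the regularised design. -/
noncomputable def regTuple (v : ℕ → V d) (ν : ℝ) (s e : ℕ) : Fin (dm d) → V d :=
  (exists_max (regR d ν) (isCompact_Zset (v := v) s e) ⟨0, zero_mem_Zset s e⟩).choose

/-- The potential of an interval. -/
noncomputable def detPot (v : ℕ → V d) (ν : ℝ) (s e : ℕ) : ℝ :=
  (regMat (regR d ν) (regTuple v ν s e)).det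

/-- The regularised design operator of an interval. -/
noncomputable def regOp (v : ℕ → V d) (ν : ℝ) (s e : ℕ) : V d →L[ℝ] V d :=
  gramOp (regTuple v ν s e)

section Reg

variable {ν : ℝ} (hν : 0 < ν) {s e : ℕ}
include hν

lemma regMat_regR_posDef (y : Fin (dm d) → V d) : (regMat (regR d ν) y).PosDef := by
  rw [regMat, regR_sq hν.le]
  exact (Matrix.PosDef.one.smul hν).add_posSemidef (gramMat_posSemidef y)

lemma regTuple_isOpt : IsOpt (regR d ν) (Zset v s e) (regTuple v ν s e) :=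
  have h := (exists_max (regR d ν) (isCompact_Zset (v := v) s e) ⟨0, zero_mem_Zset s e⟩).choose_spec
  ⟨h.1, h.2, (regMat_regR_posDef hν _).det_pos⟩

lemma regR_dot (t : V d) : (regR d ν *ᵥ t.ofLp) ⬝ᵥ (regR d ν *ᵥ t.ofLp) = ν * ‖t‖ ^ 2 := by
  rw [regR, smul_mulVec, one_mulVec, smul_dotProduct, dotProduct_smul, ← inner_eq_dot,
    real_inner_self_eq_norm_sq, smul_eq_mul, smul_eq_mul, ← mul_assoc, Real.mul_self_sqrt hν.le]

lemma detPot_pos : 0 < detPot v ν s e := (regTuple_isOpt hν).det_pos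

lemma detPot_mono {s' e' : ℕ} (h1 : s ≤ s') (h2 : s' ≤ e') (h3 : e' ≤ e) :
    detPot v ν s' e' ≤ detPot v ν s e :=
  (regTuple_isOpt hν).max _ fun i =>
    InZ.extend h1 h2 h3 zero_le_one ((regTuple_isOpt (v := v) (s := s') (e := e') hν).mem i)

lemma pow_le_detPot : ν ^ d ≤ detPot v ν s e := by
  have := (regTuple_isOpt (v := v) (s := s) (e := e) hν).max (fun _ => 0) fun _ => zero_mem_Zset s e
  have h0 : regMat (regR d ν) (fun _ : Fin (dm d) => (0 : V d)) = ν • 1 := by
    rw [regMat, regR_sq hν.le]; simp [gramMat]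
  rw [h0, det_smul] at this
  simpa [detPot] using this

lemma detPot_le (hd : 1 ≤ d) (hse : s ≤ e) : detPot v ν s e ≤ (ν + d) ^ d := by
  set y := regTuple v ν s e
  have hN := regMat_regR_posDef (d := d) hν y
  have hdet : detPot v ν s e = ∏ i, hN.1.eigenvalues i := by
    show (regMat (regR d ν) y).det = _
    simpa using hN.1.det_eq_prod_eigenvalues
  rw [hdet, show (ν + d) ^ d = ∏ _i : Fin d, (ν + d) by simp]
  refine Finset.prod_le_prod (fun i _ => (hN.eigenvalues_pos i).le) fun i _ => ?_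
  set w : V d := hN.1.eigenvectorBasis i
  have hw : ‖w‖ = 1 := hN.1.eigenvectorBasis.orthonormal.1 i
  have h1 := hN.1.mulVec_eigenvectorBasis i
  have h2 : w.ofLp ⬝ᵥ (regMat (regR d ν) y *ᵥ w.ofLp) = hN.1.eigenvalues i := by
    rw [h1, dotProduct_smul, ← inner_eq_dot, real_inner_self_eq_norm_sq, hw]
    simp
  rw [← h2, dot_regMat, regR_dot hν, hw]
  have := inner_gramOp_le hd hse (regTuple_isOpt (v := v) (s := s) (e := e) hν).mem w
  rw [hw] at this
  linarith

lemma inner_sq_le_regOp (hd : 1 ≤ d) {z : V d} (hz : InZ v s e 1 z) (t : V d) :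
    ⟪z, t⟫ ^ 2 ≤ 2 * (⟪regOp v ν s e t, t⟫ + ν * ‖t‖ ^ 2) := by
  have := (regTuple_isOpt hν).inner_sq_le hd hz t
  rw [regR_dot hν] at this
  rwa [add_comm] at this

/-- Subintervals without potential drop have comparable designs. -/
lemma regOp_compare (hd : 1 ≤ d) {s' e' : ℕ} (h1 : s ≤ s') (h2 : s' ≤ e') (h3 : e' ≤ e)
    {ρ : ℝ} (hρ : 0 < ρ) (h : ρ * detPot v ν s e ≤ detPot v ν s' e') (t : V d) :
    ρ / 30 * (⟪regOp v ν s e t, t⟫ + ν * ‖t‖ ^ 2) ≤ ⟪regOp v ν s' e' t, t⟫ + ν * ‖t‖ ^ 2 := by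
  set y := regTuple v ν s e
  set y' := regTuple v ν s' e'
  have hy := regTuple_isOpt (v := v) (s := s) (e := e) hν
  have hy' := regTuple_isOpt (v := v) (s := s') (e := e') hν
  have hN := regMat_regR_posDef (d := d) hν y
  have htr : ((regMat (regR d ν) y)⁻¹ * regMat (regR d ν) y').trace ≤ d + 1 := by
    rw [regMat.eq_1 (regR d ν) y', Matrix.mul_add, trace_add, trace_inv_gram]
    change tauR (regR d ν) y + _ ≤ _
    have hq : ∀ i, (y' i).ofLp ⬝ᵥ ((regMat (regR d ν) y)⁻¹ *ᵥ (y' i).ofLp) ≤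
        (dm d : ℝ) / d * (d - tauR (regR d ν) y) / (dm d - d + tauR (regR d ν) y) := fun i => by
      have hz : y' i ∈ Zset v s e := InZ.extend h1 h2 h3 zero_le_one (hy'.mem i)
      have := hy.quad_le hd hz
      have hpos : (0 : ℝ) < dm d - d + tauR (regR d ν) y := by
        have := tauR_nonneg (R := regR d ν) (y := y) hy.det_pos.ne'
        have : (1 : ℝ) ≤ d := by exact_mod_cast hd
        have : (dm d : ℝ) = d * d + d := by simp [dm]
        nlinarith
      rw [le_div_iff₀ hpos]; linarith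
    have hsum := Finset.sum_le_sum (s := Finset.univ) fun i _ => hq i
    simp only [Finset.sum_const, Finset.card_univ, Fintype.card_fin, nsmul_eq_mul] at hsum
    refine le_trans (add_le_add le_rfl (mul_le_mul_of_nonneg_left hsum dc_nonneg)) ?_
    have h0 := tauR_nonneg (R := regR d ν) (y := y) hy.det_pos.ne'
    have h1 := tauR_le (R := regR d ν) (y := y) hy.det_pos.ne'
    generalize tauR (regR d ν) y = τ at h0 h1 ⊢
    have hd' : (1 : ℝ) ≤ d := by exact_mod_cast hd
    have hm : (dm d : ℝ) = d * d + d := by simp [dm]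
    have hm0 : (dm d : ℝ) ≠ 0 := by nlinarith
    have hden : (0 : ℝ) < dm d - d + τ := by nlinarith
    have e : dc d * ((dm d : ℝ) * ((dm d : ℝ) / d * (d - τ) / (dm d - d + τ)))
        = (dm d : ℝ) * (d - τ) / (dm d - d + τ) := by
      unfold dc; field_simp
    rw [e, ← le_sub_iff_add_le', div_le_iff₀ hden, hm]
    nlinarith
  have := posDef_compare hd hN (regMat_posSemidef _ y') hρ htr h t.ofLp
  rw [dot_regMat, dot_regMat, regR_dot hν] at this
  simp only [regOp]
  linarith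

lemma inner_regOp_le (hd : 1 ≤ d) (hse : s ≤ e) (t : V d) :
    ⟪regOp v ν s e t, t⟫ ≤ d * ‖t‖ ^ 2 :=
  inner_gramOp_le hd hse (regTuple_isOpt hν).mem t

lemma InZ_regOp (t : V d) :
    InZ v s e (√d * √⟪regOp v ν s e t, t⟫) (regOp v ν s e t) :=
  InZ_gramOp (regTuple_isOpt hν).mem t

end Reg

/-- Pure design of an interval: a displacement-realised ellipsoid equivalent to the body. -/
theorem exists_pureDesign (hd : 1 ≤ d) {s e : ℕ} (hse : s ≤ e) :
    ∃ M : V d →L[ℝ] V d,
      (∀ t u, ⟪M t, u⟫ = ⟪t, M u⟫) ∧ (∀ t, 0 ≤ ⟪M t, t⟫) ∧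
      (∀ t, ⟪M t, t⟫ ≤ d * ‖t‖ ^ 2) ∧
      (∀ t, InZ v s e (√d * √⟪M t, t⟫) (M t)) ∧
      (∀ z t, InZ v s e 1 z → ⟪z, t⟫ ^ 2 ≤ 2 * ⟪M t, t⟫) ∧
      (∀ (ν : ℝ) t, 0 < ν → ⟪M t, t⟫ ≤ 2 * d * (⟪regOp v ν s e t, t⟫ + ν * ‖t‖ ^ 2)) := by
  classical
  set S : Submodule ℝ (V d) := Submodule.span ℝ (Zset v s e) with hS
  set R : Matrix (Fin d) (Fin d) ℝ := (Matrix.toEuclideanCLM (𝕜 := ℝ)).symm Sᗮ.starProjection
  have hR : ∀ t : V d, R *ᵥ t.ofLp = (Sᗮ.starProjection t).ofLp := fun t => by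
    rw [← Matrix.ofLp_toEuclideanCLM]; simp [R]
  obtain ⟨y, hy, hmax⟩ :=
    exists_max R (isCompact_Zset (v := v) s e) ⟨0, zero_mem_Zset s e⟩
  obtain ⟨f, hf, hspan, _⟩ := Submodule.exists_fun_fin_finrank_span_eq ℝ (Zset v s e)
  have hle : Module.finrank ℝ S ≤ dm d := by
    have := Submodule.finrank_le S
    rw [finrank_euclideanSpace_fin] at this
    unfold dm; linarith [Nat.zero_le (d * d)]
  let y' : Fin (dm d) → V d := fun i => if h : (i : ℕ) < Module.finrank ℝ S then f ⟨i, h⟩ else 0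
  have hy' : ∀ i, y' i ∈ Zset v s e := fun i => by
    simp only [y']; split
    · exact hf _
    · exact zero_mem_Zset s e
  have hpd : (regMat R y').PosDef := by
    refine PosDef.of_dotProduct_mulVec_pos (regMat_posSemidef R y').1 fun x hx => ?_
    set t : V d := WithLp.toLp 2 x
    have hnn := inner_gramOp_self_nonneg y' t
    have hval := dot_regMat R y' t
    rw [hR, ← inner_eq_dot (Sᗮ.starProjection t), real_inner_self_eq_norm_sq] at hval
    simp only [star_trivial]
    rcases lt_or_eq_of_le (add_nonneg (sq_nonneg ‖Sᗮ.starProjection t‖) hnn) with hlt | heq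
    · rw [← hval] at hlt; exact hlt
    exfalso
    obtain ⟨h0, h1⟩ := (add_eq_zero_iff_of_nonneg (sq_nonneg _) hnn).1 heq.symm
    have ht : t ∈ S := by
      have : Sᗮ.starProjection t = 0 := norm_eq_zero.1 (pow_eq_zero_iff (two_ne_zero) |>.1 h0)
      have h' : S.starProjection t + Sᗮ.starProjection t = t :=
        S.starProjection_add_starProjection_orthogonal t
      rw [this, add_zero] at h'
      exact h' ▸ S.starProjection_apply_mem t
    have horth : t ∈ Sᗮ := by
      rw [hS, ← hspan, Submodule.mem_orthogonal]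
      intro u hu
      induction hu using Submodule.span_induction with
      | mem u hu =>
        obtain ⟨j, rfl⟩ := hu
        rw [inner_gramOp] at h1
        have hc := dc_pos hd
        have hsum := (mul_eq_zero.1 h1).resolve_left hc.ne'
        have := (Finset.sum_eq_zero_iff_of_nonneg fun i _ => mul_self_nonneg _).1 hsum
          ⟨j, lt_of_lt_of_le j.2 hle⟩ (Finset.mem_univ _)
        have hj : (j : ℕ) < Module.finrank ℝ S := j.2
        simp only [y', dif_pos hj] at this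
        simpa using this
      | zero => simp
      | add a b _ _ ha hb => simp [inner_add_left, ha, hb]
      | smul c a _ ha => simp [real_inner_smul_left, ha]
    have : t = 0 := by
      have := inner_self_eq_zero (𝕜 := ℝ).1 (horth t ht)
      exact this
    exact hx (by simpa [t] using congrArg WithLp.ofLp this)
  have hopt : IsOpt R (Zset v s e) y :=
    ⟨hy, hmax, hpd.det_pos.trans_le (hmax y' hy')⟩
  refine ⟨gramOp y, gramOp_symm y, inner_gramOp_self_nonneg y, inner_gramOp_le hd hse hy,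
    InZ_gramOp hy, fun z t hz => ?_, fun ν t hν => ?_⟩
  · -- only the component of `t` in `S` matters
    set p := S.starProjection t
    have hp : p ∈ S := S.starProjection_apply_mem t
    have hmem : ∀ u ∈ S, ⟪u, t⟫ = ⟪u, p⟫ := fun u hu => by
      have h2 : ⟪u, t - p⟫ = 0 := (S.sub_starProjection_mem_orthogonal t) u hu
      rw [inner_sub_right] at h2; linarith
    have hzS : z ∈ S := Submodule.subset_span hz
    have hMt : ⟪gramOp y t, t⟫ = ⟪gramOp y p, p⟫ := by
      rw [inner_gramOp, inner_gramOp]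
      congr 1
      refine Finset.sum_congr rfl fun i _ => ?_
      rw [hmem _ (Submodule.subset_span (hy i))]
    have h2 := hopt.inner_sq_le hd hz p
    rw [hR, ← inner_eq_dot, real_inner_self_eq_norm_sq,
      show Sᗮ.starProjection p = 0 from
        (Submodule.starProjection_apply_eq_zero_iff _).2 (S.le_orthogonal_orthogonal hp)] at h2
    rw [hmem z hzS, hMt]
    simpa using h2
  · rw [inner_gramOp]
    have hdm : (dm d : ℝ) * dc d = d := by
      have : 0 < dm d := by unfold dm; nlinarith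
      have : (dm d : ℝ) ≠ 0 := by exact_mod_cast this.ne'
      unfold dc; field_simp
    calc dc d * ∑ i, ⟪y i, t⟫ * ⟪y i, t⟫
        ≤ dc d * ∑ _i : Fin (dm d), 2 * (⟪regOp v ν s e t, t⟫ + ν * ‖t‖ ^ 2) := by
          refine mul_le_mul_of_nonneg_left (Finset.sum_le_sum fun i _ => ?_) dc_nonneg
          rw [← pow_two]; exact inner_sq_le_regOp hν hd (hy i) t
      _ = _ := by
          simp only [Finset.sum_const, Finset.card_univ, Fintype.card_fin, nsmul_eq_mul]
          linear_combination (2 * (⟪regOp v ν s e t, t⟫ + ν * ‖t‖ ^ 2)) * hdm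

end Vale.Agent.P262
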