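import Vale.Agent.P262.Chain

/-!
The chains of empty intervals and of single items.
-/

namespace Vale.Agent.P262

open Finset
open scoped RealInnerProductSpace

variable {d : ℕ} {v : ℕ → V d}

lemma exp_le_beta' {t n : ℕ} {x c : ℝ} (_hc0 : 0 ≤ c) (hc : c ≤ DD d)
    (h : (20 + 270 * ((t + 1 - n : ℕ) : ℝ) + 1) * LL d ≤ -x) :
    c * Real.exp x ≤ beta d t n := by
  set j := t + 1 - n
  have e : beta d t n = Real.exp (-((20 + 270 * (j : ℝ)) * LL d)) := by
    rw [Real.exp_neg, show (20 + 270 * (j : ℝ)) = ((20 + 270 * j : ℕ) : ℝ) by push_cast; ring,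
      exp_nat_mul_LL, pow_add, pow_mul, mul_inv, beta, inv_pow]
  have h2 : c ≤ Real.exp (LL d) := by rwa [LL, Real.exp_log DD_pos]
  rw [e]
  calc c * Real.exp x ≤ Real.exp (LL d) * Real.exp x :=
        mul_le_mul_of_nonneg_right h2 (Real.exp_pos x).le
    _ ≤ _ := by rw [← Real.exp_add, Real.exp_le_exp]; linarith

/-- The scale `√(D L)`. -/
noncomputable def sDL (d : ℕ) : ℝ := √(DD d * LL d)

lemma sDL_sq : sDL d ^ 2 = DD d * LL d :=
  Real.sq_sqrt (mul_nonneg DD_pos.le LL_pos.le)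

lemma sDL_ge : 20 ≤ sDL d := by
  unfold sDL
  refine Real.le_sqrt_of_sq_le ?_
  nlinarith [DD_ge (d := d), LL_ge (d := d)]

lemma RR_eq : RR d = 20000 * sDL d := rfl

lemma H0_bounds : 1400 * sDL d ≤ H0 d ∧ H0 d ≤ 1500 * sDL d := by
  have h := sDL_sq (d := d)
  have hp := mul_pos (DD_pos (d := d)) (LL_pos (d := d))
  have h0 : 0 ≤ sDL d := Real.sqrt_nonneg _
  refine ⟨Real.le_sqrt_of_sq_le ?_, (Real.sqrt_le_left (by positivity)).2 ?_⟩ <;> nlinarith

/-- A tail of radius at least `1000 √(D L)` is below every budget. -/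
lemma big_tail {t n k : ℕ} (ht : t ≤ NR d + 1) (hk : k ≤ d) {c x : ℝ} (hc0 : 0 ≤ c) (hc : c ≤ 100)
    (hx : 1000 * sDL d ≤ x) :
    c * Real.exp ((k : ℝ) / 2 - x ^ 2 / 16) ≤ beta d t n := by
  refine exp_le_beta' hc0 (hc.trans DD_ge) ?_
  have hj : ((t + 1 - n : ℕ) : ℝ) ≤ 78 * DD d := by
    have h1 : ((t + 1 - n : ℕ) : ℝ) ≤ ((NR d + 2 : ℕ) : ℝ) := by exact_mod_cast (by omega)
    push_cast [NR_cast] at h1 ⊢
    linarith [DD_ge (d := d)]
  have hk' : (k : ℝ) ≤ DD d := le_trans (by exact_mod_cast hk) natCast_le_DD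
  have h1 : (1000 * sDL d) ^ 2 ≤ x ^ 2 :=
    pow_le_pow_left₀ (by linarith [sDL_ge (d := d)]) hx 2
  rw [mul_pow, sDL_sq] at h1
  have h2 := mul_le_mul_of_nonneg_right hj (LL_pos (d := d)).le
  have h3 := mul_le_mul_of_nonneg_left (LL_ge (d := d)) (DD_pos (d := d)).le
  have h4 : (100 : ℝ) * LL d ≤ DD d * LL d :=
    mul_le_mul_of_nonneg_right DD_ge (LL_pos (d := d)).le
  nlinarith

lemma Owner.WF.B_le {O : Owner d} (h : O.WF v) : O.B ≤ 5700 * sDL d := by
  refine le_of_pow_le_pow_left₀ two_ne_zero (by linarith [sDL_ge (d := d)]) ?_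
  rw [mul_pow, sDL_sq]
  have h1 := h.inv
  have hL := LL_pos (d := d)
  have h2 : 0 ≤ 200000 * LL d *
      ((O.rk + Module.finrank ℝ O.H : ℕ) + (O.trk + O.tk : ℕ) : ℝ) := by positivity
  have h3 : ((NR d + 1 + d : ℕ) : ℝ) ≤ 79 * DD d := by
    push_cast [NR_cast]
    linarith [DD_ge (d := d), natCast_le_DD (d := d)]
  have h4 := mul_le_mul_of_nonneg_left h3 (show 0 ≤ 400000 * LL d by positivity)
  nlinarith [mul_pos (DD_pos (d := d)) hL]

lemma eta_small : (2 * KH d + KP d + 1) * (2 * RR d + 1) * eta d ≤ 1 / 4 := by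
  have h1 : 2 * KH d + KP d + 1 ≤ 4 * DD d ^ 6 := by
    unfold KH KP
    linarith [DD_pow_mono (d := d) (show 4 ≤ 6 by norm_num), one_le_pow₀ (one_le_DD (d := d)) (n := 6)]
  have h2 : 2 * RR d + 1 ≤ 3 * DD d ^ 4 := by
    linarith [RR_le_DD (d := d), one_le_pow₀ (one_le_DD (d := d)) (n := 4)]
  have h3 : 12 * DD d ^ 10 * (DD d ^ 90)⁻¹ ≤ (DD d ^ 1)⁻¹ :=
    const_DD_div_le (k := 1) (by norm_num) (by norm_num)
  have h4 : (DD d ^ 1)⁻¹ ≤ 1 / 4 := by
    rw [pow_one, one_div]; exact inv_anti₀ (by norm_num) (by linarith [DD_ge (d := d)])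
  have h5 : (2 * KH d + KP d + 1) * (2 * RR d + 1) ≤ 12 * DD d ^ 10 := by
    refine (mul_le_mul h1 h2 (by linarith [RR_pos (d := d)])
      (by linarith [pow_pos (DD_pos (d := d)) 6])).trans (le_of_eq ?_)
    ring
  have := mul_le_mul_of_nonneg_right h5 (inv_nonneg.2 (pow_nonneg (DD_pos (d := d)).le 90))
  unfold eta
  linarith

section

variable {O : Owner d} (hO : O.WF v)
include hO

/-- A prefix map barely moves `H^⊥` into `H`. -/
lemma proj_cross_small {bs s : ℕ} {Ψ : V d →L[ℝ] V d} (hcs : O.cs ≤ bs) (hs : s ≤ O.ce)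
    (hΨ : Disp v bs s (KP d) Ψ) (x : V d) (hx : ‖x‖ ≤ 2 * RR d) :
    ‖O.H.starProjection (Ψ (O.Hᗮ.starProjection x))‖ ≤ 1 / 4 := by
  set y := O.Hᗮ.starProjection x with hy
  set w := O.H.starProjection (Ψ y) with hw
  have hwH : w ∈ O.H := O.H.starProjection_apply_mem _
  have hyH : y ∈ O.Hᗮ := O.Hᗮ.starProjection_apply_mem _
  have hKP : 0 ≤ KP d := pow_nonneg DD_pos.le 4
  have h3 : ⟪w, Ψ y - w⟫ = 0 := (O.H.sub_starProjection_mem_orthogonal (Ψ y)) w hwH
  rw [inner_sub_right, real_inner_self_eq_norm_sq] at h3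
  have h4 : ⟪w, Ψ y⟫ = ⟪Ψ.adjoint w - w, y⟫ := by
    rw [inner_sub_left, ContinuousLinearMap.adjoint_inner_left,
      show ⟪w, y⟫ = 0 from hyH w hwH, sub_zero]
  have hy' : O.Hᗮ.starProjection y = y := Submodule.starProjection_eq_self_iff.2 hyH
  have h5 : ⟪Ψ.adjoint w - w, y⟫ = ⟪O.Hᗮ.starProjection (Ψ.adjoint w - w), y⟫ := by
    rw [Submodule.inner_starProjection_left_eq_right, hy']
  have h6 := hO.drift _ _ (mul_nonneg hKP (norm_nonneg w))
    (InZ.extend hcs hΨ.le hs (mul_nonneg hKP (norm_nonneg w)) (hΨ.bwd w))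
  have h7 : ‖y‖ ≤ 2 * RR d := (O.Hᗮ.norm_starProjection_apply_le x).trans hx
  have h8 : ‖w‖ ^ 2 ≤ (KP d * ‖w‖ * eta d) * (2 * RR d) := by
    have he : 0 ≤ eta d := inv_nonneg.2 (pow_nonneg DD_pos.le _)
    rw [show ‖w‖ ^ 2 = ⟪w, Ψ y⟫ by linarith, h4, h5]
    exact (real_inner_le_norm _ _).trans
      (mul_le_mul h6 h7 (norm_nonneg _) (mul_nonneg (mul_nonneg hKP (norm_nonneg w)) he))
  rcases eq_or_lt_of_le (norm_nonneg w) with h0 | h0
  · rw [← h0]; norm_num
  · have h9 : ‖w‖ ≤ KP d * eta d * (2 * RR d) := le_of_mul_le_mul_right (by nlinarith) h0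
    refine h9.trans (le_trans ?_ (eta_small (d := d)))
    have he : 0 ≤ eta d := inv_nonneg.2 (pow_nonneg DD_pos.le _)
    have hKH : 0 ≤ KH d := pow_nonneg DD_pos.le 6
    nlinarith [mul_nonneg hKP he, RR_pos (d := d), mul_nonneg hKH he, mul_nonneg he (RR_pos (d := d)).le,
      mul_nonneg (mul_nonneg hKH he) (RR_pos (d := d)).le]

/-- The part of a walk state orthogonal to `H`. -/
lemma hist_orth {s : ℕ} (hcs : O.cs ≤ s) (hs : s ≤ O.ce) {x : V d} (h : Hist v O s x) :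
    ‖O.Hᗮ.starProjection x‖ ≤ O.B + 1 / 4 := by
  obtain ⟨x₀, hx0, hB, hz⟩ := h
  have hKH : 0 ≤ KH d := pow_nonneg DD_pos.le 6
  have h1 := hO.drift _ _ hKH (InZ.extend le_rfl hcs hs hKH hz)
  have h2 : O.Hᗮ.starProjection x
      = O.Hᗮ.starProjection x₀ + O.Hᗮ.starProjection (x - x₀) := by
    rw [← map_add, add_sub_cancel]
  have h3 := norm_add_le (O.Hᗮ.starProjection x₀) (O.Hᗮ.starProjection (x - x₀))
  have he : 0 ≤ eta d := inv_nonneg.2 (pow_nonneg DD_pos.le _)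
  have hKP : 0 ≤ KP d := pow_nonneg DD_pos.le 4
  have h4 : KH d * eta d ≤ 1 / 4 := by
    refine le_trans ?_ (eta_small (d := d))
    have h5 : KH d * 1 ≤ (2 * KH d + KP d + 1) * (2 * RR d + 1) :=
      mul_le_mul (by linarith) (by linarith [RR_pos (d := d)]) zero_le_one (by linarith)
    have := mul_le_mul_of_nonneg_right h5 he
    linarith
  rw [h2]
  linarith

end

/-- Penalty of a state. -/
noncomputable def penItem (O : Owner d) (c : V d) (x : V d) : ℝ :=
  max (‖x‖ - 4 * RR d) 0 + max (‖O.H.starProjection (x - c)‖ - (H0 d - 1)) 0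

lemma penItem_nonneg (O : Owner d) (c x : V d) : 0 ≤ penItem O c x :=
  add_nonneg (le_max_right _ _) (le_max_right _ _)

lemma adm_penItem (O : Owner d) (c : V d) : Adm (penItem O c) := by
  refine (Adm.norm.pospart _).add (Adm.pospart ?_ _)
  have := (Adm.norm_clm O.H.starProjection).comp_add_right (-c)
  simpa [sub_eq_add_neg] using this

/-- Budget functional of a state. -/
noncomputable def omItem (O : Owner d) (Ψ : V d →L[ℝ] V d) (x : V d) : ℝ :=
  max (‖O.H.starProjection (Ψ (O.H.starProjection x))‖ - (H0 d - 1)) 0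

lemma adm_omItem (O : Owner d) (Ψ : V d →L[ℝ] V d) : Adm (omItem O Ψ) :=
  ((Adm.norm_clm (O.H.starProjection ∘L Ψ ∘L O.H.starProjection))).pospart _

lemma sd_bounds {O : Owner d} (hO : O.WF v) : 1 ≤ O.sd ∧ O.sd ≤ 3 / 2 :=
  ⟨one_le_sig _, sig_le_two (by have := hO.rk_le; have := hO.trk_le; unfold NR at *; omega)⟩

section

variable {O : Owner d} (hO : O.WF v)
include hO

lemma gE_penItem (c : V d) (hc : ‖c‖ ≤ 2 * RR d) :
    gE (fun g => penItem O c (c + O.sd • g)) ≤ beta d O.trk 0 := by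
  obtain ⟨hs1, hs2⟩ := sd_bounds hO
  have hs := sDL_ge (d := d)
  have hH := H0_bounds (d := d)
  have hR := RR_eq (d := d)
  have h1 : gE (fun g => max (‖c + O.sd • g‖ - 4 * RR d) 0) ≤ beta d O.trk 0 / 2 := by
    refine (norm_excess_le (by linarith) (by linarith) hc (by linarith)).trans ?_
    have := big_tail (d := d) (t := O.trk) (n := 0) (c := 4) (x := 2 * RR d - 1) hO.trk_le
      (le_refl d) (by norm_num) (by norm_num) (by linarith)
    linarith
  have h2 : gE (fun g => max (‖O.H.starProjection (c + O.sd • g - c)‖ - (H0 d - 1)) 0)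
      ≤ beta d O.trk 0 / 2 := by
    refine (tail_centred O.H (by linarith) (by linarith) c (by linarith)).trans ?_
    have := big_tail (d := d) (t := O.trk) (n := 0) (c := 4) (x := H0 d - 1) hO.trk_le
      (hO.k_le.trans hO.tk_le) (by norm_num) (by norm_num) (by linarith)
    linarith
  simp only [penItem]
  rw [gE_fadd (f := fun g => max (‖c + O.sd • g‖ - 4 * RR d) 0)
    ((Adm.norm.pospart _).shift c O.sd)]
  · linarith
  · have := (((Adm.norm_clm O.H.starProjection).comp_add_right (-c)).pospart (H0 d - 1)).shift c O.sd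
    simpa only [← sub_eq_add_neg] using this

lemma gE_omItem {Ψ : V d →L[ℝ] V d} (hΨ : ∀ x, ‖Ψ x‖ ≤ ‖x‖) (σ : ℝ) (u : V d) (hσ0 : 0 ≤ σ)
    (hσ : σ ≤ 2) (hu : ‖O.H.starProjection u‖ ≤ 1) :
    gE (fun g => omItem O Ψ (u + σ • g)) ≤ beta d O.trk 0 := by
  have hs := sDL_ge (d := d)
  have hH := H0_bounds (d := d)
  refine le_trans (tail_image O.H (Ψ ∘L O.H.starProjection)
    (fun x => (hΨ _).trans (O.H.norm_starProjection_apply_le x)) hσ0 hσ u
    (((O.H.norm_starProjection_apply_le _).trans (hΨ _)).trans hu) (r := H0 d) (by linarith)) ?_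
  exact big_tail hO.trk_le (hO.k_le.trans hO.tk_le) (by norm_num) (by norm_num) (by linarith)

/-- A good state is inside the final radius. -/
lemma state_bound {bs s : ℕ} {Ψ : V d →L[ℝ] V d} (hcs : O.cs ≤ bs) (hbs : bs ≤ s) (hs : s ≤ O.ce)
    (hΨ : Disp v bs s (KP d) Ψ) {x₀ x : V d} (hx₀ : ‖x₀‖ ≤ 2 * RR d) (hΩ : omItem O Ψ x₀ < 1)
    (hh : Hist v O s x) (hp : penItem O (Ψ x₀) x < 1) : ‖x‖ ≤ RR d - 3 := by
  have h1 := hist_orth hO (hcs.trans hbs) hs hh
  have h2 := proj_cross_small hO hcs hs hΨ x₀ hx₀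
  have h3 : ‖O.H.starProjection (x - Ψ x₀)‖ < H0 d := by
    unfold penItem at hp
    linarith [le_max_left (‖O.H.starProjection (x - Ψ x₀)‖ - (H0 d - 1)) 0,
      le_max_right (‖x‖ - 4 * RR d) 0]
  have h4 : ‖O.H.starProjection (Ψ (O.H.starProjection x₀))‖ < H0 d := by
    unfold omItem at hΩ
    linarith [le_max_left (‖O.H.starProjection (Ψ (O.H.starProjection x₀))‖ - (H0 d - 1)) 0]
  have h5 : ‖O.H.starProjection (Ψ x₀)‖ ≤ H0 d + 1 / 4 := by
    have e : x₀ = O.H.starProjection x₀ + O.Hᗮ.starProjection x₀ :=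
      (O.H.starProjection_add_starProjection_orthogonal x₀).symm
    conv_lhs => rw [e, map_add, map_add]
    exact (norm_add_le _ _).trans (by linarith)
  have h6 : ‖O.H.starProjection x‖ ≤ 2 * H0 d + 1 / 4 := by
    rw [map_sub] at h3
    linarith [norm_sub_norm_le (O.H.starProjection x) (O.H.starProjection (Ψ x₀))]
  have h7 : ‖x‖ ≤ ‖O.H.starProjection x‖ + ‖O.Hᗮ.starProjection x‖ := by
    conv_lhs => rw [← O.H.starProjection_add_starProjection_orthogonal x]
    exact norm_add_le _ _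
  linarith [hO.B_le, (H0_bounds (d := d)).2, sDL_ge (d := d), RR_eq (d := d)]

/-- The chain of an empty interval. -/
theorem chain_empty (l s : ℕ) :
    Chain v O l s s (ContinuousLinearMap.id ℝ (V d)) (beta d O.trk 0) (beta d O.trk 0) := by
  refine ⟨le_rfl, fun bs Ψ hcs hbs hce hΨ => ⟨omItem O Ψ, adm_omItem O Ψ, fun x => le_max_right _ _,
    fun σ u a b c _ => gE_omItem hO hΨ.contr σ u a b c, fun x₀ hx hΩ a _ f hf P hP => ?_⟩⟩
  have hc : ‖Ψ x₀‖ ≤ 2 * RR d := (hΨ.contr x₀).trans hx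
  refine ⟨fun y => f y + P * penItem O (Ψ x₀) y, hf.add ((adm_penItem O _).const_mul hP), ?_,
    fun x => ?_⟩
  · rw [gE_fadd (hf.shift _ _) (((adm_penItem O _).const_mul hP).shift _ _), gE_cmul]
    simp only [ContinuousLinearMap.id_apply]
    exact add_le_add le_rfl (mul_le_mul_of_nonneg_left (gE_penItem hO _ hc) hP)
  refine ⟨a, penItem O (Ψ x₀) x, penItem_nonneg _ _ _, by simp [disp_self], by simp,
    fun k ka kb => ?_, fun hh hlt => ⟨fun i hi => by simp at hi, fun k ka kb => ?_⟩⟩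
  · obtain rfl : k = s := le_antisymm kb ka
    rw [disp_self, add_zero]
    have h1 : ‖x‖ ≤ 4 * RR d + penItem O (Ψ x₀) x := by
      unfold penItem
      linarith [le_max_left (‖x‖ - 4 * RR d) 0,
        le_max_right (‖O.H.starProjection (x - Ψ x₀)‖ - (H0 d - 1)) 0]
    have h2 : 4 * RR d + 1 ≤ Kgr d l := by
      have h3 : 5 * DD d ^ 4 ≤ DD d ^ 10 := const_mul_DD_pow_le (k := 1) (by norm_num) (by norm_num)
      have h4 : (0 : ℝ) ≤ (l : ℝ) / DD d ^ 4 := by have := DD_pos (d := d); positivity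
      unfold Kgr
      linarith [RR_le_DD (d := d), RR_ge (d := d)]
    have := penItem_nonneg O (Ψ x₀) x
    nlinarith [RR_pos (d := d)]
  · obtain rfl : k = s := le_antisymm kb ka
    rw [disp_self, add_zero]
    have := state_bound hO hcs hbs hce hΨ hx hΩ hh hlt
    have h4 : (0 : ℝ) ≤ (l : ℝ) / DD d ^ 4 := by have := DD_pos (d := d); positivity
    unfold Rg
    linarith

/-- The chain of a single item. -/
theorem chain_item {τ : ℝ} (hτ : τ ≤ 1) (h1 : OneStepProp d τ) (hv : ∀ i, ‖v i‖ ≤ τ) (l s : ℕ) :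
    Chain v O l s (s + 1) (ContinuousLinearMap.id ℝ (V d)) (beta d O.trk 0) (beta d O.trk 0) := by
  refine ⟨Nat.le_succ s, fun bs Ψ hcs hbs hce hΨ => ⟨omItem O Ψ, adm_omItem O Ψ,
    fun x => le_max_right _ _, fun σ u a b c _ => gE_omItem hO hΨ.contr σ u a b c,
    fun x₀ hx hΩ a ha f hf P hP => ?_⟩⟩
  obtain ⟨hσ1, hσ2⟩ := sd_bounds hO
  have hσ0 : O.sd ≠ 0 := by linarith
  have hc : ‖Ψ x₀‖ ≤ 2 * RR d := (hΨ.contr x₀).trans hx
  have has : |a s| ≤ 1 / 2 := (ha s (by simp)).trans (alf_le_half l)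
  set F : V d → ℝ := fun z => f (-(a s • v s) + O.sd • z) with hF
  have hFA : Adm F := hf.shift _ _
  have hu : ‖O.sd⁻¹ • v s‖ ≤ τ := by
    rw [norm_smul, Real.norm_eq_abs, abs_of_pos (inv_pos.2 (by linarith))]
    exact (mul_le_of_le_one_left (norm_nonneg _) (inv_le_one_of_one_le₀ hσ1)).trans (hv s)
  obtain ⟨F', hF', hmin, hle⟩ := h1 F hFA _ hu
  have hscale : ∀ w : ℝ, ∀ y : V d,
      F (O.sd⁻¹ • y + w • O.sd⁻¹ • v s) = f (y + (w - a s) • v s) := fun w y => by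
    simp only [hF]
    congr 1
    rw [smul_add, smul_inv_smul₀ hσ0, smul_comm O.sd w, smul_inv_smul₀ hσ0]
    module
  refine ⟨fun y => F' (O.sd⁻¹ • y) + P * penItem O (Ψ x₀) y,
    (by simpa using hF'.comp_clm (sI O.sd⁻¹) : Adm fun y => F' (O.sd⁻¹ • y)).add
      ((adm_penItem O _).const_mul hP), ?_, fun x => ?_⟩
  · have hA : Adm fun g => F' (O.sd⁻¹ • (Ψ x₀ + O.sd • g)) := by
      have := hF'.comp_add (O.sd⁻¹ • Ψ x₀)
      simpa [smul_add, inv_smul_smul₀ hσ0] using this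
    rw [gE_fadd hA (((adm_penItem O _).const_mul hP).shift _ _), gE_cmul]
    simp only [ContinuousLinearMap.id_apply]
    refine add_le_add ?_ (mul_le_mul_of_nonneg_left (gE_penItem hO _ hc) hP)
    have h2 := hle (O.sd⁻¹ • Ψ x₀) (a s) has
    simp only [smul_add, inv_smul_smul₀ hσ0]
    refine h2.trans (le_of_eq ?_)
    congr 1
    funext g
    simp only [hF]
    congr 1
    rw [smul_add, smul_add, smul_inv_smul₀ hσ0, smul_comm O.sd (a s), smul_inv_smul₀ hσ0]
    abel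
  obtain ⟨w0, hw0, hwle⟩ : ∃ w : ℝ, (w = 1 ∨ w = -1) ∧
      f (x + (w - a s) • v s) ≤ F' (O.sd⁻¹ • x) := by
    have h := hmin (O.sd⁻¹ • x)
    have e1 := hscale 1 x
    have e2 := hscale (-1) x
    rw [one_smul] at e1
    rw [neg_one_smul, ← sub_eq_add_neg] at e2
    rcases min_le_iff.1 h with h | h
    · exact ⟨1, Or.inl rfl, e1 ▸ h⟩
    · exact ⟨-1, Or.inr rfl, e2 ▸ h⟩
  have hw1 : |w0| = 1 := by rcases hw0 with h | h <;> simp [h]
  have hst : ∀ k, s ≤ k → k ≤ s + 1 →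
      ‖x + disp v s k ((fun _ => w0) - a)‖ ≤ ‖x‖ + 2 := fun k ka kb => by
    rcases Nat.lt_or_ge k (s + 1) with hk | hk
    · obtain rfl : k = s := by omega
      rw [disp_self, add_zero]; linarith
    · obtain rfl : k = s + 1 := by omega
      rw [disp_succ, Pi.sub_apply]
      refine (norm_add_le _ _).trans ?_
      rw [norm_smul, Real.norm_eq_abs]
      have := abs_sub w0 (a s)
      have h3 := hv s
      nlinarith [abs_nonneg (w0 - a s), norm_nonneg (v s)]
  refine ⟨fun _ => w0, penItem O (Ψ x₀) x, penItem_nonneg _ _ _, ?_, fun i _ => ?_,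
    fun k ka kb => ?_, fun hh hlt => ⟨fun i _ => hw0, fun k ka kb => ?_⟩⟩
  · rw [disp_succ, Pi.sub_apply]
    linarith
  all_goals
    have h2 : 4 * RR d + 3 ≤ Kgr d l := by
      have h3 : 8 * DD d ^ 4 ≤ DD d ^ 10 := const_mul_DD_pow_le (k := 1) (by norm_num) (by norm_num)
      have h4 : (0 : ℝ) ≤ (l : ℝ) / DD d ^ 4 := by have := DD_pos (d := d); positivity
      unfold Kgr
      linarith [RR_le_DD (d := d), RR_ge (d := d)]
    have hpn := penItem_nonneg O (Ψ x₀) x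
  · rw [hw1]
    nlinarith [RR_pos (d := d)]
  · have h1 : ‖x‖ ≤ 4 * RR d + penItem O (Ψ x₀) x := by
      unfold penItem
      linarith [le_max_left (‖x‖ - 4 * RR d) 0,
        le_max_right (‖O.H.starProjection (x - Ψ x₀)‖ - (H0 d - 1)) 0]
    refine (hst k ka kb).trans ?_
    nlinarith [RR_pos (d := d)]
  · have h5 := state_bound hO hcs hbs ((Nat.le_succ s).trans hce) hΨ hx hΩ hh hlt
    refine (hst k ka kb).trans ?_
    have h4 : (0 : ℝ) ≤ (l : ℝ) / DD d ^ 4 := by have := DD_pos (d := d); positivity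
    unfold Rg
    linarith

end

end Vale.Agent.P262
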