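import Vale.Agent.P262.Chain
import Vale.Agent.P262.Item
import Vale.Agent.P262.Design

/-!
The block lemma: from a chain to a good signing of the block whose end is dominated, for one
convex test function, by a slightly inflated Gaussian around the centre.
-/

namespace Vale.Agent.P262

open Finset
open scoped RealInnerProductSpace

variable {d : ℕ} {v : ℕ → V d}

lemma adjoint_sI (σ : ℝ) : (sI σ : V d →L[ℝ] V d).adjoint = sI σ := by
  simp [sI, ContinuousLinearMap.adjoint_id]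

lemma norm_adjoint_sI {σ : ℝ} (hσ : 0 ≤ σ) (t : V d) :
    ‖(sI σ : V d →L[ℝ] V d).adjoint t‖ = σ * ‖t‖ := by
  rw [adjoint_sI, sI_apply, norm_smul, Real.norm_eq_abs, abs_of_nonneg hσ]

/-- Two independent scalar Gaussians are dominated by one. -/
lemma gE_two_scalar {f : V d → ℝ} (hf : Adm f) (c : V d) {ρ τ σ : ℝ} (hρ : 0 ≤ ρ) (hτ : 0 ≤ τ)
    (hσ : 0 ≤ σ) (h : ρ ^ 2 + τ ^ 2 ≤ σ ^ 2) :
    gE (fun g => gE (fun k => f (c + (ρ • g + τ • k)))) ≤ gE (fun g => f (c + σ • g)) := by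
  have h1 := gE_add (sI ρ) (sI τ) (sI √(ρ ^ 2 + τ ^ 2)) (fun t => by
    rw [norm_adjoint_sI hρ, norm_adjoint_sI hτ, norm_adjoint_sI (Real.sqrt_nonneg _), mul_pow,
      mul_pow, mul_pow, Real.sq_sqrt (by positivity)]
    ring) f hf c
  simp only [sI_apply, add_assoc] at h1
  rw [h1]
  have h2 := cx1 (sI √(ρ ^ 2 + τ ^ 2)) σ hσ (fun t => by
    rw [norm_adjoint_sI (Real.sqrt_nonneg _)]
    exact mul_le_mul_of_nonneg_right ((Real.sqrt_le_left hσ).2 h) (norm_nonneg t)) f hf c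
  simpa using h2

/-- Signings of `[s,e)` indexed by Boolean functions. -/
def boolSign (s e : ℕ) (b : Finset.Ico s e → Bool) (i : ℕ) : ℝ :=
  if h : i ∈ Finset.Ico s e then (if b ⟨i, h⟩ then 1 else -1) else 0

lemma signOn_boolSign (s e : ℕ) (b : Finset.Ico s e → Bool) : SignOn s e (boolSign s e b) := by
  intro i hi
  simp only [boolSign, dif_pos hi]
  cases b ⟨i, hi⟩ <;> simp

lemma exists_boolSign {s e : ℕ} {w : ℕ → ℝ} (hw : SignOn s e w) :
    ∃ b, ∀ i ∈ Finset.Ico s e, boolSign s e b i = w i := by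
  classical
  refine ⟨fun i => decide (w i.1 = 1), fun i hi => ?_⟩
  simp only [boolSign, dif_pos hi]
  rcases hw i hi with h | h
  · simp [h]
  · simp [h, show (-1 : ℝ) ≠ 1 by norm_num]

lemma convex_two {f : V d → ℝ} (hf : Adm f) (x y : V d) {a b : ℝ} (ha : 0 ≤ a) (hb : 0 ≤ b)
    (hab : a + b = 1) : f (a • x + b • y) ≤ a * f x + b * f y :=
  hf.convex.2 (Set.mem_univ x) (Set.mem_univ y) ha hb hab

/-- Lower bound at a point reachable by a displacement. -/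
lemma lower_bound {f : V d → ℝ} (hf : Adm f) {s e : ℕ} {c q z1 : V d} {K0 t E : ℝ} (hK0 : 0 < K0)
    (ht : 1 ≤ t) (hEc : f c ≤ E) (hz1 : ∀ z ∈ Zset v s e, f (c + K0 • z1) ≤ f (c + K0 • z))
    (h : InZ v s e (K0 * t) (q - c)) : E - t * (E - f (c + K0 • z1)) ≤ f q := by
  have ht0 : 0 < t := by linarith
  have hzu : (K0 * t)⁻¹ • (q - c) ∈ Zset v s e := by
    have := h.smul (K0 * t)⁻¹
    rwa [abs_of_pos (by positivity), inv_mul_cancel₀ (by positivity)] at this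
  have h6 := hz1 _ hzu
  have h7 := convex_two hf c q (a := 1 - 1 / t) (b := 1 / t)
    (by rw [sub_nonneg, div_le_one ht0]; exact ht) (by positivity) (by ring)
  have h8 : (1 - 1 / t) • c + (1 / t) • q = c + K0 • (K0 * t)⁻¹ • (q - c) := by
    rw [smul_smul, show K0 * (K0 * t)⁻¹ = 1 / t by field_simp]
    module
  rw [h8] at h7
  have h9 : t * f (c + K0 • (K0 * t)⁻¹ • (q - c)) ≤ (t - 1) * f c + f q := by
    refine (mul_le_mul_of_nonneg_left h7 ht0.le).trans (le_of_eq ?_)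
    field_simp
  have h10 := mul_le_mul_of_nonneg_left h6 ht0.le
  have h11 := mul_le_mul_of_nonneg_left hEc (show 0 ≤ t - 1 by linarith)
  linarith

/-- The inflated expectation absorbs the inflation of the worst displacement. -/
lemma absorb {f : V d → ℝ} (hf : Adm f) {m b z0 z1 : V d} {σ δ K0 σ' ε : ℝ} (hσ : 0 ≤ σ)
    (hσ' : 0 ≤ σ') (hδ : 0 ≤ δ) (hK0 : 0 ≤ K0)
    (hb : ∀ h, (gE fun g => f (m + ((0 : V d) + ((1 + δ) * σ) • g))) - ε + ⟪b, h⟫
      ≤ gE fun g => f (m + (h + ((1 + δ) * σ) • g)))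
    (hbz : ⟪b, z0⟫ ≤ ⟪b, z1⟫) (h0 : ‖z0‖ ≤ 1) (h1 : ‖z1‖ ≤ 1)
    (hroom : (16 * (δ * K0)) ^ 2 + ((1 + δ) * σ) ^ 2 ≤ σ' ^ 2) :
    (1 + δ) * (gE fun g => f (m + (δ * K0) • z0 + σ • g))
        - δ * f (m + (δ * K0) • z0 + K0 • z1)
      ≤ gE (fun g => f (m + σ' • g)) + ε / 2 := by
  set c := m + (δ * K0) • z0 with hc
  set F : V d → ℝ := fun h => gE fun g => f (m + (h + ((1 + δ) * σ) • g)) with hF
  have hFA : Adm F := (hf.comp_add m).gE_shift ((1 + δ) * σ)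
  set u := (δ * K0) • (z0 - z1) with hu
  have hsum : (1 + δ) * (gE fun g => f (c + σ • g)) - δ * f (c + K0 • z1) ≤ F u := by
    have h1 : ∀ g, (1 + δ) * f (c + σ • g)
        ≤ f (m + (u + ((1 + δ) * σ) • g)) + δ * f (c + K0 • z1) := fun g => by
      have h := convex_two hf (m + (u + ((1 + δ) * σ) • g)) (c + K0 • z1) (a := 1 / (1 + δ))
        (b := δ / (1 + δ)) (by positivity) (by positivity) (by field_simp)
      have e1 : (1 / (1 + δ)) • (m + (u + ((1 + δ) * σ) • g)) + (δ / (1 + δ)) • (c + K0 • z1)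
          = c + σ • g := by
        rw [hu, hc]
        match_scalars <;> field_simp <;> ring
      rw [e1] at h
      refine (mul_le_mul_of_nonneg_left h (by linarith)).trans (le_of_eq ?_)
      field_simp
    have hA : Adm fun g => f (m + (u + ((1 + δ) * σ) • g)) := (hf.comp_add m).shift _ _
    have := gE_mono ((hf.shift c σ).const_mul (r := 1 + δ) (by linarith))
      (hA.add (Adm.const _)) h1
    rw [gE_cmul, gE_fadd hA (Adm.const _), gE_const] at this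
    linarith
  have hFs : F u ≤ (F ((2 : ℝ) • u) + F (-((2 : ℝ) • u))) / 2 + ε / 2 := by
    have h1 := convex_two hFA (0 : V d) ((2 : ℝ) • u)
      (a := 1 / 2) (b := 1 / 2) (by norm_num) (by norm_num) (by norm_num)
    rw [smul_zero, zero_add, smul_smul, show (1 / 2 : ℝ) * 2 = 1 by norm_num, one_smul] at h1
    have h2 : F 0 - ε + ⟪b, -((2 : ℝ) • u)⟫ ≤ F (-((2 : ℝ) • u)) := hb _
    have h3 : ⟪b, u⟫ ≤ 0 := by
      rw [hu, real_inner_smul_right, inner_sub_right]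
      exact mul_nonpos_of_nonneg_of_nonpos (mul_nonneg hδ hK0) (sub_nonpos.2 hbz)
    rw [inner_neg_right, real_inner_smul_right] at h2
    linarith
  have hun : ‖u‖ ≤ 2 * (δ * K0) := by
    rw [hu, norm_smul, Real.norm_eq_abs, abs_of_nonneg (mul_nonneg hδ hK0)]
    calc δ * K0 * ‖z0 - z1‖ ≤ δ * K0 * 2 :=
          mul_le_mul_of_nonneg_left (by linarith [norm_sub_le z0 z1]) (mul_nonneg hδ hK0)
      _ = _ := by ring
  have htp : (F ((2 : ℝ) • u) + F (-((2 : ℝ) • u))) / 2 ≤ gE (fun g => f (m + σ' • g)) := by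
    have h1 := twoPoint F hFA 0 ((2 : ℝ) • u) (sI (16 * (δ * K0))) fun t => by
      rw [norm_adjoint_sI (by positivity), real_inner_smul_left, abs_mul,
        abs_of_pos (two_pos : (0 : ℝ) < 2)]
      have := abs_real_inner_le_norm u t
      linarith [mul_le_mul_of_nonneg_right hun (norm_nonneg t)]
    simp only [zero_add, zero_sub, sI_apply] at h1
    exact h1.trans (gE_two_scalar hf m (by positivity) (by positivity) hσ' hroom)
  linarith

section estimates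

lemma small_consts {β : ℝ} (hβ0 : 0 ≤ β) (hβ : β ≤ (DD d ^ 80)⁻¹) :
    3 * β * DD d ^ 14 ≤ (DD d ^ 40)⁻¹ ∧ β ≤ 1 / 10 ∧ 3 * β ≤ (DD d ^ 5)⁻¹ ∧
      16 * (3 * β * DD d ^ 14) ≤ (DD d ^ 5)⁻¹ := by
  have h14 := pow_pos (DD_pos (d := d)) 14
  have h1 : 3 * β * DD d ^ 14 ≤ 3 * DD d ^ 14 * (DD d ^ 80)⁻¹ := by
    calc 3 * β * DD d ^ 14 = 3 * DD d ^ 14 * β := by ring
      _ ≤ _ := mul_le_mul_of_nonneg_left hβ (by positivity)
  have h2 : 3 * DD d ^ 14 * (DD d ^ 80)⁻¹ ≤ (DD d ^ 40)⁻¹ :=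
    const_DD_div_le (k := 1) (by norm_num) (by norm_num)
  have h3 : 48 * DD d ^ 14 * (DD d ^ 80)⁻¹ ≤ (DD d ^ 5)⁻¹ :=
    const_DD_div_le (k := 1) (by norm_num) (by norm_num)
  have h4 : 3 * β ≤ 3 * β * DD d ^ 14 :=
    le_mul_of_one_le_right (by positivity) (one_le_pow₀ one_le_DD)
  have h5 : (DD d ^ 40)⁻¹ ≤ (DD d ^ 5)⁻¹ := inv_DD_pow_anti (by norm_num)
  have h6 : (DD d ^ 5)⁻¹ ≤ 1 / 10 := by
    rw [one_div]
    exact inv_anti₀ (by norm_num) (le_trans (by norm_num) ((DD_ge (d := d)).trans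
      (le_self_pow₀ one_le_DD (by norm_num))))
  refine ⟨h1.trans h2, by linarith, by linarith, ?_⟩
  calc 16 * (3 * β * DD d ^ 14) ≤ 16 * (3 * DD d ^ 14 * (DD d ^ 80)⁻¹) := by linarith
    _ = 48 * DD d ^ 14 * (DD d ^ 80)⁻¹ := by ring
    _ ≤ _ := h3

lemma growth_le {l : ℕ} (hl : l ≤ 500 * (d + 100)) :
    Kgr d l + 2 * RR d + 1 + KP d * (2 * RR d) ≤ DD d ^ 14 := by
  have h1 : Kgr d l ≤ DD d ^ 10 + 1 := by
    have := Rg_le (d := d) hl
    unfold Rg at this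
    unfold Kgr
    linarith
  have h2 := RR_le_DD (d := d)
  have h3 : KP d * (2 * RR d) ≤ 2 * DD d ^ 8 := by
    unfold KP
    calc DD d ^ 4 * (2 * RR d) ≤ DD d ^ 4 * (2 * DD d ^ 4) :=
          mul_le_mul_of_nonneg_left (by linarith) (pow_nonneg DD_pos.le 4)
      _ = _ := by ring
  have h4 : DD d ^ 4 ≤ DD d ^ 10 := DD_pow_mono (by norm_num)
  have h5 : DD d ^ 8 ≤ DD d ^ 10 := DD_pow_mono (by norm_num)
  have h6 : (1 : ℝ) ≤ DD d ^ 10 := one_le_pow₀ one_le_DD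
  have h7 : 9 * DD d ^ 10 ≤ DD d ^ 14 := const_mul_DD_pow_le (k := 1) (by norm_num) (by norm_num)
  linarith

lemma shift_room (l : ℕ) {x : ℝ} (hx : x ≤ (DD d ^ 40)⁻¹) :
    alf d (l + 1) + x ≤ alf d l ∧ Rg d l + x ≤ Rg d (l + 1) := by
  have h : (DD d ^ 40)⁻¹ ≤ (DD d ^ 4)⁻¹ := inv_DD_pow_anti (by norm_num)
  have e : ((l + 1 : ℕ) : ℝ) / DD d ^ 4 = (l : ℝ) / DD d ^ 4 + (DD d ^ 4)⁻¹ := by
    push_cast; rw [add_div, one_div]
  unfold alf Rg
  rw [e]
  constructor <;> linarith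

lemma inflate_ok {σ δ ρ : ℝ} (hσ : 1 ≤ σ) (hδ0 : 0 ≤ δ) (hρ0 : 0 ≤ ρ) (hδ : δ ≤ (DD d ^ 5)⁻¹)
    (hρ : ρ ≤ (DD d ^ 5)⁻¹) :
    ρ ^ 2 + ((1 + δ) * σ) ^ 2 ≤ (σ * (1 + (DD d ^ 4)⁻¹)) ^ 2 := by
  set e := (DD d ^ 4)⁻¹ with he
  have h5 : (DD d ^ 5)⁻¹ ≤ e / 100 := by
    rw [he, pow_succ, mul_inv, div_eq_mul_inv]
    exact mul_le_mul_of_nonneg_left (inv_anti₀ (by norm_num) DD_ge)
      (inv_nonneg.2 (pow_nonneg DD_pos.le 4))
  have he1 : e ≤ 1 := inv_le_one_of_one_le₀ (one_le_pow₀ one_le_DD)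
  have he0 : 0 ≤ e := inv_nonneg.2 (pow_nonneg DD_pos.le 4)
  have hd : δ ≤ e / 100 := hδ.trans h5
  have hr : ρ ≤ e / 100 := hρ.trans h5
  have hs2 : 1 ≤ σ ^ 2 := one_le_pow₀ hσ
  have h1 : ρ ^ 2 ≤ (e / 100) * σ ^ 2 := by
    nlinarith [mul_le_mul hr (show ρ ≤ 1 by linarith) hρ0 (by linarith : (0 : ℝ) ≤ e / 100)]
  have h2 : (1 + δ) ^ 2 + e / 100 ≤ (1 + e) ^ 2 := by nlinarith
  nlinarith [mul_le_mul_of_nonneg_right h2 (sq_nonneg σ)]

end estimates

/-- The block lemma. -/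
theorem blockBL {d : ℕ} {v : ℕ → V d} {O : Owner d} (hO : O.WF v) {l s e : ℕ}
    (hl : l + 1 ≤ 500 * (d + 100)) {Φ : V d →L[ℝ] V d} (hD : Disp v s e (KP d) Φ)
    {β₁ β₂ γ : ℝ} (hC : Chain v O l s e Φ β₁ β₂) (hcs : O.cs ≤ s) (hce : e ≤ O.ce)
    (hβ₁ : 0 ≤ β₁) (hγ : 0 ≤ γ) (hsmall : β₁ + γ ≤ (DD d ^ 80)⁻¹) :
    ∃ Ω : V d → ℝ, Adm Ω ∧ (∀ x, 0 ≤ Ω x) ∧
      (∀ (σ : ℝ) (u : V d), 0 ≤ σ → σ ≤ 2 → ‖O.H.starProjection u‖ ≤ 1 → ‖u‖ ≤ 2 * RR d →
        gE (fun g => Ω (u + σ • g)) ≤ β₂) ∧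
      ∀ x, ‖x‖ ≤ 2 * RR d → Ω x < 1 → Hist v O s x → ∀ a : ℕ → ℝ,
        (∀ i ∈ Finset.Ico s e, |a i| ≤ alf d (l + 1)) →
        ∀ Θ : V d → ℝ, Adm Θ → (∀ y, 0 ≤ Θ y) →
          (∀ u, ‖u - Φ x‖ ≤ (DD d ^ 40)⁻¹ → gE (fun g => Θ (u + O.sd • g)) ≤ γ) →
          ∀ f : V d → ℝ, Adm f → ∃ w : ℕ → ℝ, SignOn s e w ∧
            (∀ k, s ≤ k → k ≤ e → ‖x + disp v s k (w - a)‖ ≤ Rg d (l + 1)) ∧
            Θ (x + disp v s e (w - a)) < 1 ∧
            f (x + disp v s e (w - a)) ≤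
              gE (fun g => f (Φ x + (O.sd * (1 + (DD d ^ 4)⁻¹)) • g)) := by
  have hse : s ≤ e := hC.1
  obtain ⟨Ω, hΩA, hΩ0, hΩb, hrest⟩ := hC.2 s (ContinuousLinearMap.id ℝ (V d)) hcs le_rfl hce
    (Disp.id le_rfl (pow_nonneg DD_pos.le 4))
  refine ⟨Ω, hΩA, hΩ0, hΩb, fun x hx hΩx hh a ha Θ hΘ hΘ0 hΘb f hf => ?_⟩
  classical
  set G := gE (fun g => f (Φ x + (O.sd * (1 + (DD d ^ 4)⁻¹)) • g)) with hG
  -- it is enough to lose an arbitrary `ε`
  suffices key : ∀ ε > 0, ∃ w : ℕ → ℝ, SignOn s e w ∧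
      (∀ k, s ≤ k → k ≤ e → ‖x + disp v s k (w - a)‖ ≤ Rg d (l + 1)) ∧
      Θ (x + disp v s e (w - a)) < 1 ∧ f (x + disp v s e (w - a)) ≤ G + ε by
    set T : Finset (Finset.Ico s e → Bool) := Finset.univ.filter fun b =>
      (∀ k, s ≤ k → k ≤ e → ‖x + disp v s k (boolSign s e b - a)‖ ≤ Rg d (l + 1)) ∧
        Θ (x + disp v s e (boolSign s e b - a)) < 1 with hT
    have tr : ∀ {w : ℕ → ℝ} {b}, (∀ i ∈ Finset.Ico s e, boolSign s e b i = w i) → ∀ k, k ≤ e →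
        disp v s k (boolSign s e b - a) = disp v s k (w - a) := fun h k hk =>
      disp_congr fun i hi => by
        simp only [Pi.sub_apply]
        rw [h i (Finset.mem_Ico.2 ⟨(Finset.mem_Ico.1 hi).1, (Finset.mem_Ico.1 hi).2.trans_le hk⟩)]
    have get : ∀ ε > 0, ∃ b ∈ T, f (x + disp v s e (boolSign s e b - a)) ≤ G + ε := fun ε hε => by
      obtain ⟨w, hw, hst, hth, hfw⟩ := key ε hε
      obtain ⟨b, hb⟩ := exists_boolSign hw
      refine ⟨b, Finset.mem_filter.2 ⟨Finset.mem_univ _, fun k ka kb => ?_, ?_⟩, ?_⟩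
      · rw [tr hb k kb]; exact hst k ka kb
      · rw [tr hb e le_rfl]; exact hth
      · rw [tr hb e le_rfl]; exact hfw
    have hTne : T.Nonempty := by
      obtain ⟨b, hb, -⟩ := get 1 one_pos
      exact ⟨b, hb⟩
    obtain ⟨b, hbT, hbmin⟩ := Finset.exists_min_image T
      (fun b => f (x + disp v s e (boolSign s e b - a))) hTne
    refine ⟨boolSign s e b, signOn_boolSign s e b, (Finset.mem_filter.1 hbT).2.1,
      (Finset.mem_filter.1 hbT).2.2, le_of_forall_pos_le_add fun ε hε => ?_⟩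
    obtain ⟨b', hb', hfb'⟩ := get ε hε
    exact (hbmin b' hb').trans hfb'
  intro ε' hε'
  set ε := ε' / 3 with hεdef
  have hε : 0 < ε := by positivity
  obtain ⟨hσ1, hσ2⟩ := sd_bounds hO
  set σ := O.sd
  set β := β₁ + γ with hβdef
  have hβ0 : 0 ≤ β := by positivity
  obtain ⟨hr40, hβ10, hδ5, hρ5⟩ := small_consts hβ0 hsmall
  set δ := 3 * β with hδdef
  have hδ0 : 0 ≤ δ := by positivity
  set K0 := DD d ^ 14 with hK0def
  have hK0 : 0 < K0 := pow_pos DD_pos 14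
  have hr0 : 0 ≤ δ * K0 := by positivity
  -- the affine minorant and the extreme displacement
  have hFA : Adm fun h : V d => gE fun g => f (Φ x + (h + ((1 + δ) * σ) • g)) :=
    (hf.comp_add (Φ x)).gE_shift ((1 + δ) * σ)
  set F : V d → ℝ := fun h => gE fun g => f (Φ x + (h + ((1 + δ) * σ) • g)) with hF
  obtain ⟨b, hb⟩ := exists_minorant hFA hε
  have hbF : ∀ h, F 0 - ε + ⟪b, h⟫ ≤ F h := hb
  have hZne : (Zset v s e).Nonempty := ⟨0, zero_mem_Zset s e⟩
  obtain ⟨z0, hz0m, hz0⟩ := (isCompact_Zset (v := v) s e).exists_isMinOn hZne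
    (f := fun z : V d => ⟪b, z⟫) (by fun_prop)
  obtain ⟨w0, hw0c, hw0p, hw0e⟩ := id hz0m
  set yb := (δ * K0) • z0 with hyb
  set wy := (δ * K0) • w0 with hwy
  have hyb' : disp v s e wy = yb := by rw [hwy, disp_smul, hw0e]
  have hwyp : ∀ k, s ≤ k → k ≤ e → ‖disp v s k wy‖ ≤ δ * K0 := fun k ka kb => by
    rw [hwy, disp_smul, norm_smul, Real.norm_eq_abs, abs_of_nonneg hr0]
    exact mul_le_of_le_one_right hr0 (hw0p k ka kb)
  obtain ⟨hroom1, hroom2⟩ := shift_room (d := d) l hr40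
  have ha'' : ∀ i ∈ Finset.Ico s e, |(a + wy) i| ≤ alf d l := fun i hi => by
    refine ((abs_add_le _ _).trans (add_le_add (ha i hi) ?_)).trans hroom1
    rw [hwy, Pi.smul_apply, smul_eq_mul, abs_mul, abs_of_nonneg hr0]
    exact mul_le_of_le_one_right hr0 (hw0c i hi)
  have hybn : ‖yb‖ ≤ δ * K0 := hyb' ▸ hwyp e hse le_rfl
  set c := Φ x + yb with hc
  have hfc : Adm fun g => f (c + σ • g) := hf.shift c σ
  set E := gE fun g => f (c + σ • g) with hE
  have hEc : f c ≤ E := le_gE' hf c σ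
  -- the worst unit displacement
  obtain ⟨z1, hz1m, hz1⟩ := (isCompact_Zset (v := v) s e).exists_isMinOn hZne
    (f := fun z : V d => f (c + K0 • z))
    (hf.continuous.comp (by fun_prop)).continuousOn
  set Pv := E - f (c + K0 • z1) with hPv
  have hPv0 : 0 ≤ Pv := by
    have : f (c + K0 • z1) ≤ f (c + K0 • (0 : V d)) := hz1 (zero_mem_Zset s e)
    rw [smul_zero, add_zero] at this
    linarith
  set P := 3 * (Pv + ε) with hP
  have hP0 : 0 ≤ P := by positivity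
  -- apply the chain
  have hf' : Adm fun z => f (z + yb) + P * Θ (z + yb) :=
    (hf.comp_add_right yb).add ((hΘ.comp_add_right yb).const_mul hP0)
  obtain ⟨f₀, hf₀, hle, hstep⟩ := hrest x hx hΩx (a + wy) ha'' _ hf' P hP0
  obtain ⟨w, pen, hpen, hfw, hwc, hwp, hgood⟩ := hstep x
  simp only [ContinuousLinearMap.id_apply] at hle
  have hexp : gE (fun g => f (Φ x + σ • g + yb) + P * Θ (Φ x + σ • g + yb)) ≤ E + P * γ := by
    have e1 : (fun g : V d => f (Φ x + σ • g + yb) + P * Θ (Φ x + σ • g + yb))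
        = fun g => f (c + σ • g) + P * Θ (c + σ • g) := by
      funext g; rw [show Φ x + σ • g + yb = c + σ • g by rw [hc]; abel]
    rw [e1, gE_fadd hfc ((hΘ.shift c σ).const_mul hP0), gE_cmul]
    refine add_le_add le_rfl (mul_le_mul_of_nonneg_left (hΘb c ?_) hP0)
    rw [hc, add_sub_cancel_left]
    exact hybn.trans hr40
  have hf0x : f₀ x ≤ E + P * β := by
    have := le_gE' hf₀ x σ
    rw [hβdef, mul_add]
    linarith
  set q := x + disp v s e (w - a) with hq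
  have hdec : ∀ k, disp v s k (w - a) = disp v s k (w - (a + wy)) + disp v s k wy := fun k => by
    rw [← disp_add]; congr 1; abel
  have hqeq : x + disp v s e (w - (a + wy)) + yb = q := by
    rw [hq, hdec e, hyb']; abel
  dsimp only at hfw hle
  rw [hqeq] at hfw
  set pen' := pen + Θ q with hpen'
  have hup : f q ≤ E + P * (β - pen') := by
    have : P * (β - pen') = P * β - P * pen - P * Θ q := by rw [hpen']; ring
    linarith
  -- lower bound on `f q`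
  set t := 1 + pen' with ht
  have ht1 : 1 ≤ t := by have := hΘ0 q; linarith
  have hlow : E - t * Pv ≤ f q := by
    have hgr := growth_le (d := d) (l := l) (by omega)
    have hKP : 0 ≤ KP d * (2 * RR d) := mul_nonneg (pow_nonneg DD_pos.le 4) (by linarith [RR_pos (d := d)])
    have h1 : InZ v s e (KP d * (2 * RR d)) (-(Φ x - x)) :=
      ((hD.fwd x).mono (mul_le_mul_of_nonneg_left hx (pow_nonneg DD_pos.le 4))).neg
    have h2 : InZ v s e (Kgr d l * (1 + pen) + 2 * RR d + 1) (disp v s e (w - (a + wy))) := by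
      refine ⟨w - (a + wy), fun i hi => ?_, fun k ka kb => ?_, rfl⟩
      · refine (abs_sub _ _).trans ?_
        have := hwc i hi
        have := ha'' i hi
        have := alf_le_half (d := d) l
        linarith [RR_pos (d := d)]
      · have h3 := hwp k ka kb
        have h4 : disp v s k (w - (a + wy)) = (x + disp v s k (w - (a + wy))) - x := by abel
        rw [h4]
        linarith [norm_sub_le (x + disp v s k (w - (a + wy))) x]
    have h3 : InZ v s e (K0 * t) (q - c) := by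
      have e1 : q - c = -(Φ x - x) + disp v s e (w - (a + wy)) := by rw [← hqeq, hc]; abel
      rw [e1]
      refine (h1.add h2).mono ?_
      have h4 : 0 ≤ Kgr d l := by
        unfold Kgr; have := DD_pos (d := d); positivity
      have h5 := hΘ0 q
      have h6 := mul_le_mul_of_nonneg_right hgr (show 0 ≤ t by linarith)
      have h7 : 0 ≤ (2 * RR d + 1 + KP d * (2 * RR d)) * pen' :=
        mul_nonneg (by linarith [RR_pos (d := d)]) (by linarith)
      have h8 := mul_nonneg h4 h5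
      rw [ht, hpen'] at h6 ⊢
      rw [hpen'] at h7
      linarith
    exact lower_bound hf hK0 ht1 hEc (fun z hz => hz1 hz) h3
  have hpen1 : pen' < 1 := by
    by_contra hcon
    have h1 : 1 ≤ pen' := not_lt.1 hcon
    have h2 : 3 * (Pv + ε) * (pen' - β) ≤ (1 + pen') * Pv := by
      have : P * (β - pen') = -(3 * (Pv + ε) * (pen' - β)) := by rw [hP]; ring
      linarith
    have h3 := mul_le_mul_of_nonneg_left (show 1 + pen' ≤ 3 * (pen' - β) by linarith) hPv0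
    have h4 := mul_pos hε (show 0 < pen' - β by linarith)
    linarith
  obtain ⟨hsign, hstate⟩ := hgood hh (by have := hΘ0 q; linarith)
  refine ⟨w, hsign, fun k ka kb => ?_, by linarith, ?_⟩
  · rw [hdec k, ← add_assoc]
    refine (norm_add_le _ _).trans ((add_le_add (hstate k ka kb) (hwyp k ka kb)).trans hroom2)
  -- the value at the end
  have hfq : f q ≤ E + δ * Pv + δ * ε := by
    have : 0 ≤ P * pen' := mul_nonneg hP0 (by have := hΘ0 q; linarith)
    have e1 : P * (β - pen') = δ * Pv + δ * ε - P * pen' := by rw [hP, hδdef]; ring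
    linarith
  have habs := absorb hf (m := Φ x) (b := b) (z0 := z0) (z1 := z1) (σ := σ) (δ := δ) (K0 := K0)
    (σ' := σ * (1 + (DD d ^ 4)⁻¹)) (by linarith)
    (mul_nonneg (by linarith) (by have := DD_pos (d := d); positivity)) hδ0 hK0.le hbF (hz0 hz1m)
    (InZ.norm_le hse hz0m) (InZ.norm_le hse hz1m) (inflate_ok hσ1 hδ0 (by positivity) hδ5 hρ5)
  have hδ1 : δ * ε ≤ ε := mul_le_of_le_one_left hε.le (by linarith)
  have hPd : δ * Pv = δ * E - δ * f (c + K0 • z1) := by rw [hPv]; ring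
  linarith

end Vale.Agent.P262
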