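import Vale.Agent.P262.Extra

/-!
Chains: backward functionals with failure penalties, for one owner context.
-/

namespace Vale.Agent.P262

open Finset
open scoped RealInnerProductSpace

variable {d : ℕ} {v : ℕ → V d}

/-- The one-step property (module A) for a given threshold. -/
def OneStepProp (d : ℕ) (τ : ℝ) : Prop :=
  ∀ f : V d → ℝ, Adm f → ∀ u : V d, ‖u‖ ≤ τ →
    ∃ f' : V d → ℝ, Adm f' ∧ (∀ x, min (f (x + u)) (f (x - u)) ≤ f' x) ∧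
      ∀ (c : V d) (a : ℝ), |a| ≤ 1/2 →
        gE (fun g => f' (c + g)) ≤ gE (fun g => f (c + a • u + g))

/-- The context of the innermost enclosing junction. -/
structure Owner (d : ℕ) where
  H : Submodule ℝ (V d)
  B : ℝ
  cs : ℕ
  ce : ℕ
  rk : ℕ
  trk : ℕ
  tk : ℕ

namespace Owner

/-- The standard deviation used below an owner. -/
noncomputable def sd (O : Owner d) : ℝ := sig d (O.rk - 1)

/-- Well-formedness of an owner context. -/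
structure WF (v : ℕ → V d) (O : Owner d) : Prop where
  B_nonneg : 0 ≤ O.B
  rk_le : O.rk ≤ O.trk
  trk_le : O.trk ≤ NR d + 1
  k_le : Module.finrank ℝ O.H ≤ O.tk
  tk_le : O.tk ≤ d
  inv : O.B ^ 2 + 200000 * LL d * ((O.rk + Module.finrank ℝ O.H : ℕ) + (O.trk + O.tk : ℕ) : ℝ)
      ≤ 400000 * LL d * ((NR d + 1 + d : ℕ) : ℝ)
  drift : ∀ K y, 0 ≤ K → InZ v O.cs O.ce K y → ‖O.Hᗮ.starProjection y‖ ≤ K * eta d

end Owner

/-- Signs on an interval. -/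
def SignOn (s e : ℕ) (w : ℕ → ℝ) : Prop := ∀ i ∈ Finset.Ico s e, w i = 1 ∨ w i = -1

/-- A history of an owner's walk up to `p`, ending in the state `x`. -/
def Hist (v : ℕ → V d) (O : Owner d) (p : ℕ) (x : V d) : Prop :=
  ∃ x₀ : V d, ‖x₀‖ ≤ 2 * RR d ∧ ‖O.Hᗮ.starProjection x₀‖ ≤ O.B ∧
    InZ v O.cs p (KH d) (x - x₀)

/-- Forward guarantee of a backward functional. -/
def Step (v : ℕ → V d) (O : Owner d) (l s e : ℕ) (a : ℕ → ℝ) (f : V d → ℝ) (P : ℝ)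
    (f₀ : V d → ℝ) : Prop :=
  ∀ x, ∃ (w : ℕ → ℝ) (pen : ℝ), 0 ≤ pen ∧ f (x + disp v s e (w - a)) + P * pen ≤ f₀ x ∧
    (∀ i ∈ Finset.Ico s e, |w i| ≤ Kgr d l * (1 + pen)) ∧
    (∀ k, s ≤ k → k ≤ e → ‖x + disp v s k (w - a)‖ ≤ Kgr d l * (1 + pen)) ∧
    (Hist v O s x → pen < 1 →
      SignOn s e w ∧ ∀ k, s ≤ k → k ≤ e → ‖x + disp v s k (w - a)‖ ≤ Rg d l)

/-- A chain on `[s,e)` with centre map `Φ` and budgets `β₁`, `β₂`. -/
def Chain (v : ℕ → V d) (O : Owner d) (l s e : ℕ) (Φ : V d →L[ℝ] V d) (β₁ β₂ : ℝ) : Prop :=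
  s ≤ e ∧ ∀ bs (Ψ : V d →L[ℝ] V d), O.cs ≤ bs → bs ≤ s → e ≤ O.ce → Disp v bs s (KP d) Ψ →
    ∃ Ω : V d → ℝ, Adm Ω ∧ (∀ x, 0 ≤ Ω x) ∧
      (∀ (σ : ℝ) (u : V d), 0 ≤ σ → σ ≤ 2 → ‖O.H.starProjection u‖ ≤ 1 → ‖u‖ ≤ 2 * RR d →
        gE (fun g => Ω (u + σ • g)) ≤ β₂) ∧
      ∀ x₀, ‖x₀‖ ≤ 2 * RR d → Ω x₀ < 1 → ∀ a : ℕ → ℝ,
        (∀ i ∈ Finset.Ico s e, |a i| ≤ alf d l) →
        ∀ f : V d → ℝ, Adm f → ∀ P : ℝ, 0 ≤ P →
          ∃ f₀ : V d → ℝ, Adm f₀ ∧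
            gE (fun g => f₀ (Ψ x₀ + O.sd • g))
              ≤ gE (fun g => f (Φ (Ψ x₀) + O.sd • g)) + P * β₁ ∧
            Step v O l s e a f P f₀

lemma Chain.mono {O : Owner d} {l l' s e : ℕ} {Φ : V d →L[ℝ] V d} {β₁ β₂ β₁' β₂' : ℝ}
    (h : Chain v O l s e Φ β₁ β₂) (hl : l ≤ l') (h₁ : β₁ ≤ β₁') (h₂ : β₂ ≤ β₂') :
    Chain v O l' s e Φ β₁' β₂' := by
  refine ⟨h.1, fun bs Ψ a b c hΨ => ?_⟩
  obtain ⟨Ω, hA, h0, hb, hrest⟩ := h.2 bs Ψ a b c hΨ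
  refine ⟨Ω, hA, h0, fun σ u p q r t => (hb σ u p q r t).trans h₂, fun x₀ hx hΩ av hav f hf P hP => ?_⟩
  obtain ⟨f₀, hf₀, hle, hstep⟩ := hrest x₀ hx hΩ av (fun i hi => (hav i hi).trans (alf_mono hl)) f hf P hP
  refine ⟨f₀, hf₀, hle.trans (by nlinarith), fun x => ?_⟩
  obtain ⟨w, pen, hp, h1, h2, h3, h4⟩ := hstep x
  exact ⟨w, pen, hp, h1,
    fun i hi => (h2 i hi).trans (mul_le_mul_of_nonneg_right (Kgr_mono hl) (by linarith)),
    fun k p q => (h3 k p q).trans (mul_le_mul_of_nonneg_right (Kgr_mono hl) (by linarith)),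
    fun hh hlt => ⟨(h4 hh hlt).1, fun k p q => ((h4 hh hlt).2 k p q).trans (Rg_mono hl)⟩⟩

lemma Rg_le_two {l : ℕ} (h : l ≤ 500 * (d + 100)) : Rg d l ≤ 2 * RR d := by
  linarith [Rg_le h, RR_ge (d := d)]

/-- Concatenation of two chains. -/
theorem Chain.concat {O : Owner d} {l s m e : ℕ} (hl : l ≤ 500 * (d + 100))
    {Φ₁ Φ₂ : V d →L[ℝ] V d} {K : ℝ} (hK0 : 0 ≤ K) (hK : K + 2 ≤ KP d)
    (hD : Disp v s m K Φ₁) {b₁ b₂ c₁ c₂ : ℝ}
    (h₁ : Chain v O l s m Φ₁ b₁ b₂) (h₂ : Chain v O l m e Φ₂ c₁ c₂) :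
    Chain v O l s e (Φ₂ ∘L Φ₁) (b₁ + c₁) (b₂ + c₂) := by
  have hsm := h₁.1
  have hme := h₂.1
  refine ⟨hsm.trans hme, fun bs Ψ hcs hbs hce hΨ => ?_⟩
  have hΨ₂ : Disp v bs m (KP d) (Φ₁ ∘L Ψ) :=
    (hΨ.comp hK0 hD).mono (max_le le_rfl hK)
  obtain ⟨Ω₁, hA₁, h01, hb₁, r₁⟩ := h₁.2 bs Ψ hcs hbs (hme.trans hce) hΨ
  obtain ⟨Ω₂, hA₂, h02, hb₂, r₂⟩ := h₂.2 bs (Φ₁ ∘L Ψ) hcs (hbs.trans hsm) hce hΨ₂
  refine ⟨fun x => Ω₁ x + Ω₂ x, hA₁.add hA₂, fun x => add_nonneg (h01 x) (h02 x),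
    fun σ u p q r t => ?_, fun x₀ hx hΩ a ha f hf P hP => ?_⟩
  · rw [gE_fadd (hA₁.shift u σ) (hA₂.shift u σ)]
    exact add_le_add (hb₁ σ u p q r t) (hb₂ σ u p q r t)
  obtain ⟨g₀, hg₀, hgle, hgs⟩ := r₂ x₀ hx (by linarith [h01 x₀]) a
    (fun i hi => ha i (Finset.mem_Ico.2 ⟨hsm.trans (Finset.mem_Ico.1 hi).1, (Finset.mem_Ico.1 hi).2⟩))
    f hf P hP
  obtain ⟨f₀, hf₀, hfle, hfs⟩ := r₁ x₀ hx (by linarith [h02 x₀]) a
    (fun i hi => ha i (Finset.mem_Ico.2 ⟨(Finset.mem_Ico.1 hi).1, (Finset.mem_Ico.1 hi).2.trans_le hme⟩))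
    g₀ hg₀ P hP
  refine ⟨f₀, hf₀, ?_, fun x => ?_⟩
  · simp only [ContinuousLinearMap.comp_apply] at hgle ⊢
    linarith
  obtain ⟨w₁, p₁, hp₁, f1, w1, s1, good1⟩ := hfs x
  obtain ⟨w₂, p₂, hp₂, f2, w2, s2, good2⟩ := hgs (x + disp v s m (w₁ - a))
  set w : ℕ → ℝ := fun i => if i < m then w₁ i else w₂ i with hw
  have e1 : ∀ k, k ≤ m → disp v s k (w - a) = disp v s k (w₁ - a) := fun k hk =>
    disp_congr fun i hi => by
      have : i < m := lt_of_lt_of_le (Finset.mem_Ico.1 hi).2 hk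
      simp [hw, this]
  have e2 : ∀ k, disp v m k (w - a) = disp v m k (w₂ - a) := fun k =>
    disp_congr fun i hi => by
      have : ¬ i < m := not_lt.2 (Finset.mem_Ico.1 hi).1
      simp [hw, this]
  have e3 : ∀ k, m ≤ k → x + disp v s k (w - a)
      = x + disp v s m (w₁ - a) + disp v m k (w₂ - a) := fun k hk => by
    rw [disp_concat hsm hk, e1 m le_rfl, e2 k, add_assoc]
  have hKg : 0 ≤ Kgr d l := by
    unfold Kgr; have := DD_pos (d := d); positivity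
  refine ⟨w, p₁ + p₂, add_nonneg hp₁ hp₂, ?_, fun i hi => ?_, fun k ka kb => ?_, fun hh hlt => ?_⟩
  · rw [e3 e hme]
    linarith
  · rcases lt_or_ge i m with him | him
    · simp only [hw, him, if_true]
      exact (w1 i (Finset.mem_Ico.2 ⟨(Finset.mem_Ico.1 hi).1, him⟩)).trans
        (mul_le_mul_of_nonneg_left (by linarith) hKg)
    · simp only [hw, not_lt.2 him, if_false]
      exact (w2 i (Finset.mem_Ico.2 ⟨him, (Finset.mem_Ico.1 hi).2⟩)).trans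
        (mul_le_mul_of_nonneg_left (by linarith) hKg)
  · rcases le_or_gt k m with hk | hk
    · rw [e1 k hk]
      exact (s1 k ka hk).trans (mul_le_mul_of_nonneg_left (by linarith) hKg)
    · rw [e3 k hk.le]
      exact (s2 k hk.le kb).trans (mul_le_mul_of_nonneg_left (by linarith) hKg)
  · obtain ⟨sg1, st1⟩ := good1 hh (by linarith)
    obtain ⟨x₀', hx0, hB, hz⟩ := hh
    have hR := RR_pos (d := d)
    have hKH : 4 * RR d ≤ KH d ∧ (2 : ℝ) ≤ KH d := by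
      have h1 : 4 * DD d ^ 4 ≤ DD d ^ 6 := const_mul_DD_pow_le (k := 1) (by norm_num) (by norm_num)
      have := RR_le_DD (d := d)
      have := RR_ge (d := d)
      exact ⟨by unfold KH; linarith, by unfold KH; linarith⟩
    have hm : Hist v O m (x + disp v s m (w₁ - a)) := by
      refine ⟨x₀', hx0, hB, ?_⟩
      have := InZ.concat' (hcs.trans hbs) hsm hz (w' := w₁ - a) (fun i hi => ?_) (fun k ka kb => ?_)
      · simpa [sub_add_eq_add_sub] using this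
      · have h1 := ha i (Finset.mem_Ico.2 ⟨(Finset.mem_Ico.1 hi).1,
          (Finset.mem_Ico.1 hi).2.trans_le hme⟩)
        have h2 : |w₁ i| = 1 := by rcases sg1 i hi with h | h <;> simp [h]
        have := abs_sub (w₁ i) (a i)
        have := alf_le_half (d := d) l
        simp only [Pi.sub_apply]
        linarith [hKH.2]
      · have h1 := st1 k ka kb
        have h2 := Rg_le_two hl
        rw [show x - x₀' + disp v s k (w₁ - a) = (x + disp v s k (w₁ - a)) - x₀' by abel]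
        linarith [norm_sub_le (x + disp v s k (w₁ - a)) x₀', hKH.1]
    obtain ⟨sg2, st2⟩ := good2 hm (by linarith)
    refine ⟨fun i hi => ?_, fun k ka kb => ?_⟩
    · rcases lt_or_ge i m with him | him
      · simp only [hw, him, if_true]
        exact sg1 i (Finset.mem_Ico.2 ⟨(Finset.mem_Ico.1 hi).1, him⟩)
      · simp only [hw, not_lt.2 him, if_false]
        exact sg2 i (Finset.mem_Ico.2 ⟨him, (Finset.mem_Ico.1 hi).2⟩)
    · rcases le_or_gt k m with hk | hk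
      · rw [e1 k hk]; exact st1 k ka hk
      · rw [e3 k hk.le]; exact st2 k hk.le kb

/-- Concatenation of `n ≥ 1` chains. -/
theorem Chain.concatMany {O : Owner d} {l : ℕ} (hl : l ≤ 500 * (d + 100)) {K : ℝ} (hK0 : 0 ≤ K)
    (hK : K + 4 ≤ KP d) {p : ℕ → ℕ} {Φs : ℕ → V d →L[ℝ] V d} {b₁ b₂ : ℝ} (i n : ℕ)
    (hD : ∀ j, i ≤ j → j < i + (n + 1) → Disp v (p j) (p (j + 1)) K (Φs j))
    (h : ∀ j, i ≤ j → j < i + (n + 1) → Chain v O l (p j) (p (j + 1)) (Φs j) b₁ b₂) :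
    Chain v O l (p i) (p (i + (n + 1))) (compI Φs i (n + 1)) ((n + 1 : ℕ) * b₁) ((n + 1 : ℕ) * b₂) := by
  induction n with
  | zero => simpa [compI_one] using h i le_rfl (by omega)
  | succ n ih =>
    have h1 := ih (fun j a b => hD j a (by omega)) (fun j a b => h j a (by omega))
    have h2 := h (i + (n + 1)) (by omega) (by omega)
    have hDn := disp_compI (n := n + 1) hK0 fun j a b => hD j a (by omega)
    have := Chain.concat hl (by linarith) (by linarith) hDn h1 h2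
    rw [compI_succ, ← Nat.add_assoc i (n + 1) 1]
    push_cast at this ⊢
    convert this using 1 <;> ring

end Vale.Agent.P262
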