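import Mathlib

/-!
P262, module (D): Chobanyan's transference from signs to rearrangements.

If every ordering of a zero-sum family admits signs with all prefix sums of norm at most `B`,
then some ordering has all partial sums of norm at most `B`.
-/

namespace Vale.Agent.P262

variable {E : Type*} [NormedAddCommGroup E] [NormedSpace ℝ E]

private theorem filter_sum_add {ι : Type*} (v : ι → E) (ε : ι → ℝ) (p : ι → Bool)
    (hpos : ∀ i, p i = true → ε i = 1) (hneg : ∀ i, p i = false → ε i = -1) (l : List ι) :
    (2 : ℝ) • ((l.filter p).map v).sum = (l.map v).sum + (l.map fun i => ε i • v i).sum ∧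
      (2 : ℝ) • ((l.filter (fun i => !p i)).map v).sum
        = (l.map v).sum - (l.map fun i => ε i • v i).sum := by
  induction l with
  | nil => simp
  | cons a l ih =>
    rcases Bool.eq_false_or_eq_true (p a) with h | h
    · simp only [List.filter_cons, h, Bool.not_true, if_true, if_false, List.map_cons,
        List.sum_cons, smul_add, ih.1, ih.2, hpos a h, one_smul, Bool.false_eq_true]
      constructor <;> module
    · simp only [List.filter_cons, h, Bool.not_false, if_true, if_false, List.map_cons,
        List.sum_cons, smul_add, ih.1, ih.2, hneg a h, Bool.false_eq_true]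
      constructor <;> module

/-- One Chobanyan step on lists. -/
private theorem step {ι : Type*} (v : ι → E) (ε : ι → ℝ) (hε : ∀ i, ε i = 1 ∨ ε i = -1)
    (l : List ι) (hsum : (l.map v).sum = 0) (β B : ℝ)
    (hβ : ∀ k, ‖((l.take k).map v).sum‖ ≤ β)
    (hB : ∀ k, ‖((l.take k).map fun i => ε i • v i).sum‖ ≤ B) :
    ∃ l' : List ι, l'.Perm l ∧ ∀ k, ‖((l'.take k).map v).sum‖ ≤ (β + B) / 2 := by
  classical
  set p : ι → Bool := fun i => decide (ε i = 1) with hp
  have hpos : ∀ i, p i = true → ε i = 1 := fun i h => by simpa [hp] using h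
  have hneg : ∀ i, p i = false → ε i = -1 := fun i h =>
    (hε i).resolve_left (by simpa [hp] using h)
  have hhalf : ∀ (x : E), ‖(2 : ℝ) • x‖ ≤ β + B → ‖x‖ ≤ (β + B) / 2 := by
    intro x hx
    rw [norm_smul, Real.norm_eq_abs, abs_two] at hx
    linarith
  have hP : ∀ k, ‖(((l.take k).filter p).map v).sum‖ ≤ (β + B) / 2 := by
    intro k
    apply hhalf
    rw [(filter_sum_add v ε p hpos hneg (l.take k)).1]
    exact (norm_add_le _ _).trans (add_le_add (hβ k) (hB k))
  have hQ : ∀ k, ‖(((l.take k).filter fun i => !p i).map v).sum‖ ≤ (β + B) / 2 := by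
    intro k
    apply hhalf
    rw [(filter_sum_add v ε p hpos hneg (l.take k)).2]
    exact (norm_sub_le _ _).trans (add_le_add (hβ k) (hB k))
  have htot : ((l.filter p).map v).sum + ((l.filter fun i => !p i).map v).sum = 0 := by
    rw [← List.sum_append, ← List.map_append]
    exact (((List.filter_append_perm p l).map v).sum_eq).trans hsum
  refine ⟨l.filter p ++ (l.filter fun i => !p i).reverse, ?_, ?_⟩
  · exact ((List.Perm.refl _).append (List.reverse_perm _)).trans (List.filter_append_perm p l)
  intro k
  rcases le_or_gt k (l.filter p).length with hk | hk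
  · rw [List.take_append_of_le_length hk]
    obtain ⟨l₁, l₂, hl, h₁, -⟩ :=
      List.filter_eq_append_iff.1 (List.take_append_drop k (l.filter p)).symm
    rw [← h₁]
    have : l.take l₁.length = l₁ := by rw [hl]; simp
    rw [← this]
    exact hP _
  · rw [List.take_append, List.take_of_length_le hk.le, List.map_append, List.sum_append,
      List.take_reverse]
    obtain ⟨Q, hQdef⟩ : ∃ Q, Q = l.filter fun i => !p i := ⟨_, rfl⟩
    rw [← hQdef] at htot ⊢
    generalize Q.length - (k - (l.filter p).length) = j
    rw [List.map_reverse, List.sum_reverse]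
    have hsplit : ((Q.take j).map v).sum + ((Q.drop j).map v).sum = (Q.map v).sum := by
      rw [← List.sum_append, ← List.map_append, List.take_append_drop]
    have heq : ((l.filter p).map v).sum + ((Q.drop j).map v).sum = - ((Q.take j).map v).sum := by
      rw [← hsplit] at htot
      rw [eq_neg_iff_add_eq_zero, add_assoc, add_comm ((Q.drop j).map v).sum]
      exact htot
    rw [heq, norm_neg]
    obtain ⟨l₁, l₂, hl, h₁, -⟩ := List.filter_eq_append_iff.1
      (show l.filter (fun i => !p i) = Q.take j ++ Q.drop j by
        rw [← hQdef, List.take_append_drop])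
    rw [← h₁]
    have : l.take l₁.length = l₁ := by rw [hl]; simp
    rw [← this]
    exact hQ _

/-- Chobanyan's transference: prefix-signings in every order give a good order. -/
theorem chobanyan {N : ℕ}
    (v : Fin N → E) (hsum : ∑ i, v i = 0) (B : ℝ)
    (hsign : ∀ π : Equiv.Perm (Fin N), ∃ ε : Fin N → ℝ, (∀ i, ε i = 1 ∨ ε i = -1) ∧
      ∀ k, k ≤ N → ‖∑ i : Fin N with i.val < k, ε i • v (π i)‖ ≤ B) :
    ∃ π : Equiv.Perm (Fin N), ∀ k, k ≤ N → ‖∑ i : Fin N with i.val < k, v (π i)‖ ≤ B := by
  classical
  let pre : Equiv.Perm (Fin N) → ℕ → E := fun π k => ∑ i : Fin N with i.val < k, v (π i)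
  let β : Equiv.Perm (Fin N) → ℝ := fun π =>
    (Finset.range (N + 1)).sup' ⟨0, by simp⟩ (fun k => ‖pre π k‖)
  obtain ⟨π, -, hπ⟩ := Finset.exists_min_image (Finset.univ : Finset (Equiv.Perm (Fin N))) β
    ⟨1, by simp⟩
  refine ⟨π, fun k hk => ?_⟩
  obtain ⟨ε, hε, hεB⟩ := hsign π
  have hle : ∀ j, j ≤ N → ‖pre π j‖ ≤ β π := fun j hj =>
    Finset.le_sup' (f := fun k => ‖pre π k‖) (Finset.mem_range.2 (by omega))
  set l : List (Fin N) := List.ofFn π with hl
  set e : Fin N → ℝ := fun i => ε (π.symm i) with he
  have htake : ∀ (w : Fin N → E) (σ : Equiv.Perm (Fin N)) (j : ℕ),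
      (((List.ofFn σ).take j).map w).sum
        = ∑ i : Fin N with i.val < j, w (σ i) := by
    intro w σ j
    rw [List.map_take, List.map_ofFn, List.sum_take_ofFn]
    rfl
  have hmin : ∀ (w : Fin N → E) (j : ℕ),
      (∑ i : Fin N with i.val < j, w i) = ∑ i : Fin N with i.val < min j N, w i := by
    intro w j
    congr 1
    apply Finset.filter_congr
    intro i _
    simp [i.isLt]
  obtain ⟨l', hperm, hbound⟩ := step v e (fun i => hε _) l
    (by rw [hl, List.map_ofFn, List.sum_ofFn]
        exact (Equiv.sum_comp π v).trans hsum)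
    (β π) B
    (fun j => by
      rw [hl, htake, hmin]
      exact hle _ (Nat.min_le_right _ _))
    (fun j => by
      rw [hl, htake, hmin]
      have := hεB (min j N) (Nat.min_le_right _ _)
      simpa [he] using this)
  have hlen : l'.length = N := by rw [hperm.length_eq, hl, List.length_ofFn]
  have hnd : l'.Nodup := hperm.nodup_iff.2 (by
    rw [hl, List.nodup_ofFn]
    exact π.injective)
  let f : Fin N → Fin N := fun i => l'.get (i.cast hlen.symm)
  have hf : Function.Injective f := by
    intro a b h
    have := List.nodup_iff_injective_get.1 hnd h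
    simpa [Fin.ext_iff] using this
  let π' : Equiv.Perm (Fin N) := Equiv.ofBijective f hf.bijective_of_finite
  have hl' : List.ofFn π' = l' := by
    apply List.ext_getElem
    · simp [hlen]
    · intro n h1 h2
      simp [π', f]
  have hπ' : β π' ≤ (β π + B) / 2 := by
    apply Finset.sup'_le
    intro j _
    have := hbound j
    rwa [← hl', htake] at this
  have h1 : β π ≤ β π' := hπ π' (Finset.mem_univ _)
  have := hle k hk
  linarith

end Vale.Agent.P262
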