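import Mathlib

/-!
Shared definitions for P262 (prefix vector balancing in Euclidean space).
-/

namespace Vale.Agent.P262

open MeasureTheory ProbabilityTheory

/-- Euclidean space of dimension `d`. -/
abbrev V (d : ℕ) : Type := EuclideanSpace ℝ (Fin d)

/-- Gaussian expectation on `V d`. -/
noncomputable def gE {d : ℕ} (f : V d → ℝ) : ℝ := ∫ g, f g ∂(stdGaussian (V d))

/-- Admissible test functions: convex and Lipschitz. -/
structure Adm {d : ℕ} (f : V d → ℝ) : Prop where
  convex : ConvexOn ℝ Set.univ f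
  lipschitz : ∃ L : NNReal, LipschitzWith L f

/-- Weighted sum of `v` over the index interval `[s, k)`. -/
noncomputable def disp {d : ℕ} (v : ℕ → V d) (s k : ℕ) (w : ℕ → ℝ) : V d :=
  ∑ i ∈ Finset.Ico s k, w i • v i

/-- `y` is a displacement of `v` on `[s, e)` with coefficients and prefixes bounded by `K`. -/
def InZ {d : ℕ} (v : ℕ → V d) (s e : ℕ) (K : ℝ) (y : V d) : Prop :=
  ∃ w : ℕ → ℝ, (∀ i ∈ Finset.Ico s e, |w i| ≤ K) ∧
    (∀ k, s ≤ k → k ≤ e → ‖disp v s k w‖ ≤ K) ∧ disp v s e w = y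

/-- A signing. -/
def IsSign (ε : ℕ → ℝ) : Prop := ∀ i, ε i = 1 ∨ ε i = -1

end Vale.Agent.P262
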