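import Vale.Agent.P262.InZ

/-!
Displacement maps and their compositions.
-/

namespace Vale.Agent.P262

open scoped RealInnerProductSpace

variable {d : ℕ} {v : ℕ → V d}

/-- A contraction moving every vector (also under the adjoint) by a displacement on `[s,e)`. -/
structure Disp (v : ℕ → V d) (s e : ℕ) (K : ℝ) (Φ : V d →L[ℝ] V d) : Prop where
  le : s ≤ e
  contr : ∀ x, ‖Φ x‖ ≤ ‖x‖
  fwd : ∀ x, InZ v s e (K * ‖x‖) (Φ x - x)
  bwd : ∀ x, InZ v s e (K * ‖x‖) (Φ.adjoint x - x)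

lemma norm_adjoint_apply_le {Φ : V d →L[ℝ] V d} (h : ∀ x, ‖Φ x‖ ≤ ‖x‖) (x : V d) :
    ‖Φ.adjoint x‖ ≤ ‖x‖ := by
  have h2 : ‖Φ.adjoint‖ ≤ 1 := by
    rw [LinearIsometryEquiv.norm_map]
    exact Φ.opNorm_le_bound zero_le_one fun x => by simpa using h x
  simpa using Φ.adjoint.le_of_opNorm_le h2 x

lemma Disp.contr' {s e : ℕ} {K : ℝ} {Φ : V d →L[ℝ] V d} (h : Disp v s e K Φ) (x : V d) :
    ‖Φ.adjoint x‖ ≤ ‖x‖ := norm_adjoint_apply_le h.contr x

lemma Disp.mono {s e : ℕ} {K K' : ℝ} {Φ : V d →L[ℝ] V d} (h : Disp v s e K Φ) (hK : K ≤ K') :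
    Disp v s e K' Φ :=
  ⟨h.le, h.contr, fun x => (h.fwd x).mono (mul_le_mul_of_nonneg_right hK (norm_nonneg x)),
    fun x => (h.bwd x).mono (mul_le_mul_of_nonneg_right hK (norm_nonneg x))⟩

lemma Disp.id {s e : ℕ} (hse : s ≤ e) {K : ℝ} (hK : 0 ≤ K) :
    Disp v s e K (ContinuousLinearMap.id ℝ (V d)) := by
  have h : ∀ x : V d, InZ v s e (K * ‖x‖) 0 := fun x => InZ.zero (mul_nonneg hK (norm_nonneg x))
  exact ⟨hse, fun x => le_rfl, fun x => by simpa using h x,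
    fun x => by simpa [ContinuousLinearMap.adjoint_id] using h x⟩

lemma Disp.comp {s m e : ℕ} {K₁ K₂ : ℝ} (hK₂ : 0 ≤ K₂) {Φ₁ Φ₂ : V d →L[ℝ] V d}
    (h₁ : Disp v s m K₁ Φ₁) (h₂ : Disp v m e K₂ Φ₂) :
    Disp v s e (max K₁ (K₂ + 2)) (Φ₂ ∘L Φ₁) := by
  refine ⟨h₁.le.trans h₂.le, fun x => (h₂.contr _).trans (h₁.contr x), fun x => ?_, fun x => ?_⟩
  · have a := h₁.fwd x
    have b := (h₂.fwd (Φ₁ x)).mono (mul_le_mul_of_nonneg_left (h₁.contr x) hK₂)
    have := InZ.concat h₁.le h₂.le a b (K := max K₁ (K₂ + 2) * ‖x‖)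
      (mul_le_mul_of_nonneg_right (le_max_left _ _) (norm_nonneg x))
      (mul_le_mul_of_nonneg_right (le_trans (by linarith) (le_max_right _ _)) (norm_nonneg x))
      (by
        have h1 : ‖Φ₁ x - x‖ ≤ 2 * ‖x‖ := by linarith [norm_sub_le (Φ₁ x) x, h₁.contr x]
        have h2 := mul_le_mul_of_nonneg_right (le_max_right K₁ (K₂ + 2)) (norm_nonneg x)
        nlinarith)
    simpa using this
  · have a := h₁.bwd (Φ₂.adjoint x)
    have ha := a.mono (K' := max K₁ (K₂ + 2) * ‖x‖) (by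
      rcases le_total 0 K₁ with hK | hK
      · exact (mul_le_mul_of_nonneg_left (h₂.contr' x) hK).trans
          (mul_le_mul_of_nonneg_right (le_max_left _ _) (norm_nonneg x))
      · exact (mul_nonpos_of_nonpos_of_nonneg hK (norm_nonneg _)).trans
          (mul_nonneg (le_trans (by linarith) (le_max_right _ _)) (norm_nonneg x)))
    have := InZ.concat h₁.le h₂.le ha (h₂.bwd x) le_rfl
      (mul_le_mul_of_nonneg_right (le_trans (by linarith) (le_max_right _ _)) (norm_nonneg x))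
      (by
        have h1 : ‖Φ₁.adjoint (Φ₂.adjoint x) - Φ₂.adjoint x‖ ≤ 2 * ‖x‖ := by
          linarith [norm_sub_le (Φ₁.adjoint (Φ₂.adjoint x)) (Φ₂.adjoint x),
            h₁.contr' (Φ₂.adjoint x), h₂.contr' x]
        have h2 := mul_le_mul_of_nonneg_right (le_max_right K₁ (K₂ + 2)) (norm_nonneg x)
        nlinarith)
    simpa [ContinuousLinearMap.adjoint_comp, sub_add_sub_cancel] using this

/-- Composition of `n` maps, starting with `Φs i`. -/
noncomputable def compI (Φs : ℕ → V d →L[ℝ] V d) (i : ℕ) : ℕ → V d →L[ℝ] V d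
  | 0 => ContinuousLinearMap.id ℝ (V d)
  | n + 1 => Φs (i + n) ∘L compI Φs i n

@[simp] lemma compI_zero (Φs : ℕ → V d →L[ℝ] V d) (i : ℕ) :
    compI Φs i 0 = ContinuousLinearMap.id ℝ (V d) := rfl

lemma compI_succ (Φs : ℕ → V d →L[ℝ] V d) (i n : ℕ) :
    compI Φs i (n + 1) = Φs (i + n) ∘L compI Φs i n := rfl

lemma compI_one (Φs : ℕ → V d →L[ℝ] V d) (i : ℕ) : compI Φs i 1 = Φs i := by
  simp [compI_succ]

lemma compI_add (Φs : ℕ → V d →L[ℝ] V d) (i a b : ℕ) :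
    compI Φs i (a + b) = compI Φs (i + a) b ∘L compI Φs i a := by
  induction b with
  | zero => simp
  | succ b ih => rw [← Nat.add_assoc, compI_succ, compI_succ, ih, ContinuousLinearMap.comp_assoc,
      Nat.add_assoc]

lemma disp_compI {K : ℝ} (hK : 0 ≤ K) {p : ℕ → ℕ} {Φs : ℕ → V d →L[ℝ] V d} {i n : ℕ}
    (h : ∀ j, i ≤ j → j < i + n → Disp v (p j) (p (j + 1)) K (Φs j)) :
    Disp v (p i) (p (i + n)) (K + 2) (compI Φs i n) := by
  induction n with
  | zero => exact Disp.id le_rfl (by linarith)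
  | succ n ih =>
    have h1 := ih fun j a b => h j a (by omega)
    exact (h1.comp hK (h (i + n) (Nat.le_add_right i n) (by omega))).mono (by simp)

end Vale.Agent.P262
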