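import Vale.Agent.P262.Defs

/-!
Numerical parameters of the proof of `σ(d) ≤ C √(d log d)`.
-/

namespace Vale.Agent.P262

/-- The base of all polynomial scales. -/
noncomputable def DD (d : ℕ) : ℝ := (d : ℝ) + 100

/-- `log DD`. -/
noncomputable def LL (d : ℕ) : ℝ := Real.log (DD d)

/-- Bound on ranks. -/
def NR (d : ℕ) : ℕ := 77 * (d + 100)

/-- Regularisation. -/
noncomputable def nu (d : ℕ) : ℝ := ((DD d) ^ 300)⁻¹

/-- Potential drop. -/
noncomputable def rho (d : ℕ) : ℝ := ((DD d) ^ 4)⁻¹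

/-- Drift strength. -/
noncomputable def kap (d : ℕ) : ℝ := ((DD d) ^ 30)⁻¹

/-- Threshold between low and high eigenvalues. -/
noncomputable def th2 (d : ℕ) : ℝ := ((DD d) ^ 200)⁻¹

/-- Lower bound for high eigenvalues. -/
noncomputable def thHi (d : ℕ) : ℝ := ((DD d) ^ 11)⁻¹

/-- Drift out of an owner's subspace. -/
noncomputable def eta (d : ℕ) : ℝ := ((DD d) ^ 90)⁻¹

/-- Killing strength. -/
noncomputable def eta' (d : ℕ) : ℝ := ((DD d) ^ 60)⁻¹

/-- Failure budget. -/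
noncomputable def beta (d t n : ℕ) : ℝ := ((DD d) ^ 20)⁻¹ * (((DD d) ^ 270)⁻¹) ^ (t + 1 - n)

/-- Standard deviation at rank `n`. -/
noncomputable def sig (d n : ℕ) : ℝ := 1 + (n : ℝ) / (DD d) ^ 3

/-- Admissible forcing at level `l`. -/
noncomputable def alf (d l : ℕ) : ℝ := 1 / 2 - (l : ℝ) / (DD d) ^ 4

/-- The final radius. -/
noncomputable def RR (d : ℕ) : ℝ := 20000 * √(DD d * LL d)

/-- Radius bound of states at level `l`. -/
noncomputable def Rg (d l : ℕ) : ℝ := RR d + (l : ℝ) / (DD d) ^ 4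

/-- Coefficient growth at level `l`. -/
noncomputable def Kgr (d l : ℕ) : ℝ := (DD d) ^ 10 + (l : ℝ) / (DD d) ^ 4

/-- Displacement bound at level `l`. -/
noncomputable def Kl (l : ℕ) : ℝ := 10 * (l : ℝ) + 10

/-- Displacement bound of prefix maps. -/
noncomputable def KP (d : ℕ) : ℝ := (DD d) ^ 4

/-- Displacement bound of histories. -/
noncomputable def KH (d : ℕ) : ℝ := (DD d) ^ 6

/-- Radius in the owner subspace. -/
noncomputable def H0 (d : ℕ) : ℝ := √(2000000 * DD d * LL d)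

/-- Radius in a junction subspace. -/
noncomputable def radW (d : ℕ) (x : ℕ) : ℝ := √(20000 * LL d * (x : ℝ))

variable {d : ℕ}

lemma DD_ge : (100 : ℝ) ≤ DD d := by simp [DD]

lemma DD_pos : 0 < DD d := lt_of_lt_of_le (by norm_num) DD_ge

lemma one_le_DD : 1 ≤ DD d := le_trans (by norm_num) DD_ge

lemma natCast_le_DD : (d : ℝ) ≤ DD d := by simp [DD]

lemma DD_pow_mono {a b : ℕ} (h : a ≤ b) : DD d ^ a ≤ DD d ^ b := pow_le_pow_right₀ one_le_DD h

lemma inv_DD_pow_anti {a b : ℕ} (h : a ≤ b) : (DD d ^ b)⁻¹ ≤ (DD d ^ a)⁻¹ :=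
  inv_anti₀ (pow_pos DD_pos a) (DD_pow_mono h)

/-- Absorb a numerical constant into a power of `DD`. -/
lemma const_mul_DD_pow_le {c : ℝ} {k a b : ℕ} (hc : c ≤ (100 : ℝ) ^ k) (h : a + k ≤ b) :
    c * DD d ^ a ≤ DD d ^ b :=
  calc c * DD d ^ a ≤ DD d ^ k * DD d ^ a := by
        refine mul_le_mul_of_nonneg_right (hc.trans ?_) (pow_nonneg DD_pos.le a)
        exact pow_le_pow_left₀ (by norm_num) DD_ge k
    _ = DD d ^ (a + k) := by rw [← pow_add, add_comm]
    _ ≤ DD d ^ b := DD_pow_mono h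

/-- `c·D^a / D^b ≤ 1 / D^e`. -/
lemma const_DD_div_le {c : ℝ} {k a b e : ℕ} (hc : c ≤ (100 : ℝ) ^ k) (h : a + k + e ≤ b) :
    c * DD d ^ a * (DD d ^ b)⁻¹ ≤ (DD d ^ e)⁻¹ := by
  rw [mul_inv_le_iff₀ (pow_pos DD_pos b), inv_mul_eq_div, le_div_iff₀ (pow_pos DD_pos e)]
  calc c * DD d ^ a * DD d ^ e = c * DD d ^ (a + e) := by rw [pow_add]; ring
    _ ≤ DD d ^ b := const_mul_DD_pow_le hc (by omega)

lemma LL_ge : (4 : ℝ) ≤ LL d := by
  rw [LL, Real.le_log_iff_exp_le DD_pos]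
  refine le_trans ?_ DD_ge
  have h := Real.exp_one_lt_d9
  have : Real.exp 4 = Real.exp 1 ^ 4 := by rw [← Real.exp_nat_mul]; norm_num
  rw [this]
  calc Real.exp 1 ^ 4 ≤ (2.7182818286 : ℝ) ^ 4 := by gcongr
    _ ≤ 100 := by norm_num

lemma LL_pos : 0 < LL d := lt_of_lt_of_le (by norm_num) LL_ge

lemma LL_le_DD : LL d ≤ DD d := (Real.log_le_sub_one_of_pos DD_pos).trans (by linarith)

lemma exp_nat_mul_LL (k : ℕ) : Real.exp (k * LL d) = DD d ^ k := by
  rw [Real.exp_nat_mul, LL, Real.exp_log DD_pos]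

lemma NR_cast : (NR d : ℝ) = 77 * DD d := by simp [NR, DD]

lemma beta_nonneg (t n : ℕ) : 0 ≤ beta d t n := by
  unfold beta
  have := DD_pos (d := d)
  positivity

lemma beta_succ {t n : ℕ} (h : n < t + 1) :
    beta d t n = ((DD d) ^ 270)⁻¹ * beta d t (n + 1) := by
  unfold beta
  rw [show t + 1 - n = (t + 1 - (n + 1)) + 1 by omega, pow_succ]
  ring

lemma beta_le_small (t n : ℕ) : beta d t n ≤ (DD d ^ 20)⁻¹ := by
  unfold beta
  refine mul_le_of_le_one_right (inv_nonneg.2 (pow_nonneg DD_pos.le _)) ?_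
  exact pow_le_one₀ (inv_nonneg.2 (pow_nonneg DD_pos.le _))
    (inv_le_one_of_one_le₀ (one_le_pow₀ one_le_DD))

lemma beta_anti {t t' n : ℕ} (h : t ≤ t') : beta d t' n ≤ beta d t n := by
  unfold beta
  refine mul_le_mul_of_nonneg_left ?_ (inv_nonneg.2 (pow_nonneg DD_pos.le _))
  exact pow_le_pow_of_le_one (inv_nonneg.2 (pow_nonneg DD_pos.le _))
    (inv_le_one_of_one_le₀ (one_le_pow₀ one_le_DD)) (by omega)

/-- An exponential is below a budget. -/
lemma exp_le_beta {t n : ℕ} {x : ℝ}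
    (h : (20 + 270 * ((t + 1 - n : ℕ) : ℝ) + 1) * LL d ≤ -x) :
    2 * Real.exp x ≤ beta d t n := by
  set j := t + 1 - n
  have e : beta d t n = Real.exp (-((20 + 270 * (j : ℝ)) * LL d)) := by
    rw [Real.exp_neg, show (20 + 270 * (j : ℝ)) = ((20 + 270 * j : ℕ) : ℝ) by push_cast; ring,
      exp_nat_mul_LL, pow_add, pow_mul, mul_inv, beta, inv_pow]
  have h2 : (2 : ℝ) ≤ Real.exp (LL d) := by linarith [Real.add_one_le_exp (LL d), LL_ge (d := d)]
  rw [e]
  calc 2 * Real.exp x ≤ Real.exp (LL d) * Real.exp x :=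
        mul_le_mul_of_nonneg_right h2 (Real.exp_pos x).le
    _ ≤ _ := by rw [← Real.exp_add, Real.exp_le_exp]; linarith

lemma one_le_sig (n : ℕ) : 1 ≤ sig d n := by
  unfold sig
  have := DD_pos (d := d)
  have : 0 ≤ (n : ℝ) / DD d ^ 3 := by positivity
  linarith

lemma sig_le_two {n : ℕ} (h : n ≤ 500 * (d + 100)) : sig d n ≤ 3 / 2 := by
  unfold sig
  have hn : (n : ℝ) ≤ 500 * DD d := by
    have : (n : ℝ) ≤ ((500 * (d + 100) : ℕ) : ℝ) := by exact_mod_cast h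
    simpa [DD] using this
  have : (n : ℝ) / DD d ^ 3 ≤ 1 / 2 := by
    rw [div_le_iff₀ (pow_pos DD_pos 3)]
    nlinarith [DD_ge (d := d), mul_le_mul_of_nonneg_left
      (mul_le_mul_of_nonneg_left (DD_ge (d := d)) (DD_pos (d := d)).le) (DD_pos (d := d)).le]
  linarith

lemma alf_mono {l l' : ℕ} (h : l ≤ l') : alf d l' ≤ alf d l := by
  unfold alf
  have : (l : ℝ) ≤ l' := by exact_mod_cast h
  have := div_le_div_of_nonneg_right this (pow_nonneg (DD_pos (d := d)).le 4)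
  linarith

lemma alf_le_half (l : ℕ) : alf d l ≤ 1 / 2 := by
  unfold alf
  have := DD_pos (d := d)
  have : 0 ≤ (l : ℝ) / DD d ^ 4 := by positivity
  linarith

lemma Rg_mono {l l' : ℕ} (h : l ≤ l') : Rg d l ≤ Rg d l' := by
  unfold Rg
  have : (l : ℝ) ≤ l' := by exact_mod_cast h
  have := div_le_div_of_nonneg_right this (pow_nonneg (DD_pos (d := d)).le 4)
  linarith

lemma Kgr_mono {l l' : ℕ} (h : l ≤ l') : Kgr d l ≤ Kgr d l' := by
  unfold Kgr
  have : (l : ℝ) ≤ l' := by exact_mod_cast h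
  have := div_le_div_of_nonneg_right this (pow_nonneg (DD_pos (d := d)).le 4)
  linarith

lemma RR_pos : 0 < RR d := by
  unfold RR
  have := DD_pos (d := d); have := LL_pos (d := d)
  positivity

lemma RR_ge : 20000 ≤ RR d := by
  unfold RR
  refine le_mul_of_one_le_right (by norm_num) (Real.one_le_sqrt.2 ?_)
  nlinarith [DD_ge (d := d), LL_ge (d := d)]

lemma RR_le_DD : RR d ≤ DD d ^ 4 := by
  have h1 : √(DD d * LL d) ≤ DD d := by
    rw [Real.sqrt_le_left DD_pos.le, sq]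
    exact mul_le_mul_of_nonneg_left LL_le_DD DD_pos.le
  calc RR d ≤ 20000 * DD d ^ 1 := by
        rw [pow_one]; exact mul_le_mul_of_nonneg_left h1 (by norm_num)
    _ ≤ DD d ^ 4 := const_mul_DD_pow_le (k := 3) (by norm_num) le_rfl

lemma Rg_le {l : ℕ} (h : l ≤ 500 * (d + 100)) : Rg d l ≤ RR d + 1 := by
  unfold Rg
  have hl : (l : ℝ) ≤ 500 * DD d := by
    have : (l : ℝ) ≤ ((500 * (d + 100) : ℕ) : ℝ) := by exact_mod_cast h
    simpa [DD] using this
  have h4 : 500 * DD d ^ 1 ≤ DD d ^ 4 := const_mul_DD_pow_le (k := 3) (by norm_num) le_rfl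
  have : (l : ℝ) / DD d ^ 4 ≤ 1 := by
    rw [div_le_one (pow_pos DD_pos 4)]
    linarith [pow_one (DD d) ▸ h4]
  linarith

lemma alf_ge {l : ℕ} (h : l ≤ 500 * (d + 100)) : 1 / 4 ≤ alf d l := by
  unfold alf
  have hl : (l : ℝ) ≤ 500 * DD d := by
    have : (l : ℝ) ≤ ((500 * (d + 100) : ℕ) : ℝ) := by exact_mod_cast h
    simpa [DD] using this
  have h4 : 2000 * DD d ^ 1 ≤ DD d ^ 4 := const_mul_DD_pow_le (k := 3) (by norm_num) le_rfl
  rw [pow_one] at h4
  have : (l : ℝ) / DD d ^ 4 ≤ 1 / 4 := by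
    rw [div_le_iff₀ (pow_pos DD_pos 4)]
    linarith
  linarith

end Vale.Agent.P262
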