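import Vale.Agent.P262.Gauss
import Vale.Agent.P262.Params
import Vale.Agent.P262.Maps

/-!
Auxiliary facts about admissible functions and Gaussian expectations.
-/

namespace Vale.Agent.P262

open MeasureTheory ProbabilityTheory Finset
open scoped RealInnerProductSpace NNReal

variable {d : ℕ}

namespace Adm

variable {f g : V d → ℝ}

lemma pospart (hf : Adm f) (r : ℝ) : Adm fun x => Max.max (f x - r) 0 := by
  simpa [sub_eq_add_neg] using (hf.add (Adm.const (-r))).max (Adm.const 0)

lemma linear (b : V d) : Adm fun x : V d => ⟪b, x⟫ := by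
  refine ⟨⟨convex_univ, fun x _ y _ s t _ _ _ => ?_⟩, ‖b‖₊, ?_⟩
  · simp [inner_add_right, real_inner_smul_right]
  · exact LipschitzWith.of_dist_le_mul fun x y => by
      rw [Real.dist_eq, ← inner_sub_right, dist_eq_norm]
      exact abs_real_inner_le_norm b (x - y)

lemma finsetSum {ι : Type*} (s : Finset ι) {F : ι → V d → ℝ} (h : ∀ i ∈ s, Adm (F i)) :
    Adm fun x => ∑ i ∈ s, F i x := by
  classical
  induction s using Finset.induction_on with
  | empty => simpa using Adm.const (d := d) 0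
  | insert a t ha ih =>
    simp only [Finset.sum_insert ha]
    exact (h a (Finset.mem_insert_self a t)).add (ih fun i hi => h i (Finset.mem_insert_of_mem hi))

lemma gE_comp (hf : Adm f) (c : V d) (T A : V d →L[ℝ] V d) :
    Adm fun y => gE fun g => f (c + T y + A g) := by
  obtain ⟨L, hL⟩ := hf.lipschitz
  refine ⟨⟨convex_univ, fun x _ y _ a b ha hb hab => ?_⟩, L * ‖T‖₊, ?_⟩
  · have h1 := (hf.comp_affine (c + T x) A).integrable
    have h2 := (hf.comp_affine (c + T y) A).integrable
    simp only [gE, smul_eq_mul]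
    rw [← integral_const_mul, ← integral_const_mul,
      ← integral_add (h1.const_mul a) (h2.const_mul b)]
    refine integral_mono (hf.comp_affine (c + T (a • x + b • y)) A).integrable
      ((h1.const_mul a).add (h2.const_mul b)) fun g => ?_
    have h := hf.convex.2 (Set.mem_univ (c + T x + A g)) (Set.mem_univ (c + T y + A g)) ha hb hab
    have e : a • (c + T x + A g) + b • (c + T y + A g) = c + T (a • x + b • y) + A g := by
      rw [map_add, map_smul, map_smul]
      obtain rfl : b = 1 - a := by linarith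
      module
    rwa [e] at h
  · exact LipschitzWith.of_dist_le_mul fun x y => by
      rw [Real.dist_eq]
      simp only [gE]
      rw [← integral_sub (hf.comp_affine (c + T x) A).integrable
        (hf.comp_affine (c + T y) A).integrable]
      have := norm_integral_le_of_norm_le_const (μ := stdGaussian (V d))
        (f := fun g => f (c + T x + A g) - f (c + T y + A g))
        (C := L * ‖T‖₊ * dist x y) (Filter.Eventually.of_forall fun g => by
          rw [Real.norm_eq_abs, ← Real.dist_eq]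
          refine (hL.dist_le_mul _ _).trans ?_
          rw [dist_add_right, dist_add_left, mul_assoc]
          exact mul_le_mul_of_nonneg_left (T.lipschitz.dist_le_mul x y) L.coe_nonneg)
      simpa using this

end Adm

lemma gE_mono {f g : V d → ℝ} (hf : Adm f) (hg : Adm g) (h : ∀ x, f x ≤ g x) : gE f ≤ gE g :=
  integral_mono hf.integrable hg.integrable h

lemma gE_fadd {f g : V d → ℝ} (hf : Adm f) (hg : Adm g) :
    gE (fun x => f x + g x) = gE f + gE g :=
  integral_add hf.integrable hg.integrable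

lemma gE_const (r : ℝ) : gE (fun _ : V d => r) = r := by simp [gE]

lemma gE_cmul (r : ℝ) (f : V d → ℝ) : gE (fun x => r * f x) = r * gE f := integral_const_mul r f

lemma gE_finsetSum {ι : Type*} (s : Finset ι) {F : ι → V d → ℝ} (h : ∀ i ∈ s, Adm (F i)) :
    gE (fun x => ∑ i ∈ s, F i x) = ∑ i ∈ s, gE (F i) :=
  integral_finsetSum s fun i hi => (h i hi).integrable

lemma gE_linear (b : V d) : gE (fun x => ⟪b, x⟫) = 0 := by
  have h := gE_neg (fun x : V d => ⟪b, x⟫)
  simp only [inner_neg_right] at h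
  simp only [gE, integral_neg] at h ⊢
  linarith

/-- `σ` times the identity. -/
noncomputable def sI (σ : ℝ) : V d →L[ℝ] V d := σ • ContinuousLinearMap.id ℝ (V d)

@[simp] lemma sI_apply (σ : ℝ) (x : V d) : sI σ x = σ • x := by simp [sI]

lemma Adm.shift {f : V d → ℝ} (hf : Adm f) (c : V d) (σ : ℝ) : Adm fun g => f (c + σ • g) := by
  simpa using hf.comp_affine c (sI σ)

lemma Adm.gE_shift {f : V d → ℝ} (hf : Adm f) (σ : ℝ) :
    Adm fun y => gE fun g => f (y + σ • g) := by
  simpa using hf.gE_comp 0 (ContinuousLinearMap.id ℝ (V d)) (sI σ)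

lemma le_gE' {f : V d → ℝ} (hf : Adm f) (c : V d) (σ : ℝ) :
    f c ≤ gE fun g => f (c + σ • g) := by
  simpa using le_gE f hf c (sI σ)

lemma gE_affine (b c : V d) (σ r : ℝ) : gE (fun g => ⟪b, c + σ • g⟫ + r) = ⟪b, c⟫ + r := by
  have h : (fun g : V d => ⟪b, c + σ • g⟫ + r) = fun g => (⟪b, c⟫ + r) + σ * ⟪b, g⟫ := by
    funext g; rw [inner_add_right, real_inner_smul_right]; ring
  rw [h, gE_fadd (Adm.const _) ?_, gE_const, gE_cmul, gE_linear, mul_zero, add_zero]
  have := Adm.linear (σ • b)
  simpa [real_inner_smul_left] using this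

/-- An affine minorant touching a convex Lipschitz function up to `ε`. -/
lemma exists_minorant {F : V d → ℝ} (hF : Adm F) {ε : ℝ} (hε : 0 < ε) :
    ∃ b : V d, ∀ h, F 0 - ε + ⟪b, h⟫ ≤ F h := by
  obtain ⟨l, c, h1, h2⟩ := ConvexOn.exists_affine_le_of_lt (𝕜 := ℝ) (Set.mem_univ (0 : V d))
    (show F 0 - ε < F 0 by linarith) isClosed_univ
    (hF.continuous.lowerSemicontinuous.lowerSemicontinuousOn _) hF.convex
  refine ⟨(InnerProductSpace.toDual ℝ (V d)).symm l, fun h => ?_⟩
  have := h1 ⟨h, Set.mem_univ h⟩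
  simp only [map_zero, zero_add] at h2
  simp only [Pi.add_apply, Set.domRestrict, Function.comp_apply, Function.const_apply,
    RCLike.re_to_real] at this
  rw [InnerProductSpace.toDual_symm_apply, ← h2]
  simpa [add_comm] using this

/-- `gE` of the excess of a projected Gaussian around its centre. -/
lemma tail_centred (W : Submodule ℝ (V d)) {σ : ℝ} (hσ0 : 0 ≤ σ) (hσ : σ ≤ 2) (c : V d) {r : ℝ}
    (hr : 5 ≤ r) :
    gE (fun g => max (‖W.starProjection (c + σ • g - c)‖ - (r - 1)) 0)
      ≤ 2 * Real.exp ((Module.finrank ℝ W : ℝ) / 2 - (r - 1) ^ 2 / 16) := by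
  have := tail W (ContinuousLinearMap.id ℝ (V d)) (fun x => le_rfl) σ hσ0 hσ 0 (r - 1) (by linarith)
  simpa using this

/-- `gE` of the excess of a projected image of a Gaussian, centre with small image. -/
lemma tail_image (W : Submodule ℝ (V d)) (A : V d →L[ℝ] V d) (hA : ∀ x, ‖A x‖ ≤ ‖x‖) {σ : ℝ}
    (hσ0 : 0 ≤ σ) (hσ : σ ≤ 2) (u : V d) (hu : ‖W.starProjection (A u)‖ ≤ 1) {r : ℝ}
    (hr : 6 ≤ r) :
    gE (fun g => max (‖W.starProjection (A (u + σ • g))‖ - (r - 1)) 0)
      ≤ 2 * Real.exp ((Module.finrank ℝ W : ℝ) / 2 - (r - 2) ^ 2 / 16) := by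
  refine le_trans (gE_mono ?_ ?_ fun g => ?_) (tail W A hA σ hσ0 hσ u (r - 2) (by linarith))
  · have := (((Adm.norm_clm (W.starProjection ∘L A)).pospart (r - 1))).shift u σ
    simpa using this
  · have := (((Adm.norm_clm (W.starProjection ∘L A)).pospart
      (‖W.starProjection (A u)‖ + (r - 2)))).shift u σ
    simpa [sub_sub] using this
  · exact max_le_max (by linarith) le_rfl

lemma norm_excess_le {σ : ℝ} (hσ0 : 0 ≤ σ) (hσ : σ ≤ 2) {c : V d} {R : ℝ} (hc : ‖c‖ ≤ 2 * R)
    (hR : 3 ≤ R) :
    gE (fun g => max (‖c + σ • g‖ - 4 * R) 0)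
      ≤ 2 * Real.exp ((d : ℝ) / 2 - (2 * R - 1) ^ 2 / 16) := by
  refine le_trans (gE_mono ?_ ?_ fun g => ?_) (le_trans (tail_centred (⊤ : Submodule ℝ (V d))
    hσ0 hσ 0 (r := 2 * R) (by linarith)) (le_of_eq ?_))
  · exact ((Adm.norm).pospart (4 * R)).shift c σ
  · have := (((Adm.norm).pospart (2 * R - 1))).shift (0 : V d) σ
    simpa [Submodule.starProjection_top] using this
  · simp only [zero_add, sub_zero, Submodule.starProjection_top, ContinuousLinearMap.id_apply]
    exact max_le_max (by linarith [norm_add_le c (σ • g)]) le_rfl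
  · rw [finrank_top, finrank_euclideanSpace_fin]

/-- The adjoint bound of a prefix map gives a smallness of `P_W Φ` on vectors orthogonal to `W`. -/
lemma norm_proj_le_of_adjoint {W : Submodule ℝ (V d)} {Φ : V d →L[ℝ] V d} {η : ℝ}
    (hη0 : 0 ≤ η)
    (hη : ∀ h ∈ W, ‖Φ.adjoint h‖ ≤ η * ‖h‖) (x : V d) :
    ‖W.starProjection (Φ x)‖ ≤ η * ‖x‖ := by
  set w := W.starProjection (Φ x) with hw
  have hwW : w ∈ W := W.starProjection_apply_mem _
  rcases eq_or_ne w 0 with h0 | h0
  · rw [h0, norm_zero]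
    exact mul_nonneg hη0 (norm_nonneg x)
  have h1 : ‖w‖ ^ 2 = ⟪Φ.adjoint w, x⟫ := by
    rw [ContinuousLinearMap.adjoint_inner_left]
    have h3 : ⟪w, Φ x - w⟫ = 0 := (W.sub_starProjection_mem_orthogonal (Φ x)) w hwW
    rw [inner_sub_right, real_inner_self_eq_norm_sq] at h3
    linarith
  have h2 : ‖w‖ ^ 2 ≤ η * ‖w‖ * ‖x‖ :=
    h1 ▸ (real_inner_le_norm _ _).trans (mul_le_mul_of_nonneg_right (hη w hwW) (norm_nonneg x))
  have := norm_pos_iff.2 h0
  exact le_of_mul_le_mul_right (by nlinarith) this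

end Vale.Agent.P262
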