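import Mathlib
import Vale.Agent.P262.Defs

/-!
P262, module (G): Gaussian toolkit for convex Lipschitz test functions.

* closure properties and integrability of admissible functions;
* the convex order on centred Gaussians (`dom`, `cx1`, `cx2`, `le_gE`, `twoPoint`);
* an exponential tail bound for the norm of a projected Gaussian (`tail`).
-/

namespace Vale.Agent.P262

open MeasureTheory ProbabilityTheory
open scoped InnerProductSpace NNReal ENNReal

/-! ### Closure properties -/

namespace Adm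

variable {d : ℕ} {f g : V d → ℝ}

lemma continuous (hf : Adm f) : Continuous f :=
  hf.lipschitz.choose_spec.continuous

lemma comp_affine (hf : Adm f) (c : V d) (A : V d →L[ℝ] V d) :
    Adm fun x => f (c + A x) := by
  obtain ⟨L, hL⟩ := hf.lipschitz
  refine ⟨⟨convex_univ, fun x _ y _ a b ha hb hab => ?_⟩, L * ‖A‖₊, ?_⟩
  · have h := hf.convex.2 (Set.mem_univ (c + A x)) (Set.mem_univ (c + A y)) ha hb hab
    have e : a • (c + A x) + b • (c + A y) = c + A (a • x + b • y) := by
      rw [map_add, map_smul, map_smul, smul_add, smul_add, add_add_add_comm, ← add_smul, hab,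
        one_smul]
    rwa [e] at h
  · exact LipschitzWith.of_dist_le_mul fun x y => by
      refine (hL.dist_le_mul _ _).trans ?_
      rw [dist_add_left, NNReal.coe_mul, mul_assoc]
      gcongr
      exact A.lipschitz.dist_le_mul x y

lemma comp_add (hf : Adm f) (c : V d) : Adm fun x => f (c + x) := by
  simpa using hf.comp_affine c (ContinuousLinearMap.id ℝ (V d))

lemma comp_add_right (hf : Adm f) (c : V d) : Adm fun x => f (x + c) := by
  simpa [add_comm] using hf.comp_add c

lemma comp_clm (hf : Adm f) (A : V d →L[ℝ] V d) : Adm fun x => f (A x) := by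
  simpa using hf.comp_affine 0 A

lemma const (r : ℝ) : Adm fun _ : V d => r :=
  ⟨convexOn_const r convex_univ, 0, LipschitzWith.const r⟩

lemma add (hf : Adm f) (hg : Adm g) : Adm fun x => f x + g x := by
  obtain ⟨L, hL⟩ := hf.lipschitz
  obtain ⟨M, hM⟩ := hg.lipschitz
  exact ⟨hf.convex.add hg.convex, L + M, hL.add hM⟩

lemma const_mul (hf : Adm f) {r : ℝ} (hr : 0 ≤ r) : Adm fun x => r * f x := by
  obtain ⟨L, hL⟩ := hf.lipschitz
  refine ⟨?_, r.toNNReal * L, LipschitzWith.of_dist_le_mul fun x y => ?_⟩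
  · simpa [smul_eq_mul] using hf.convex.smul hr
  · rw [Real.dist_eq, ← mul_sub, abs_mul, abs_of_nonneg hr, ← Real.dist_eq, NNReal.coe_mul,
      Real.coe_toNNReal r hr, mul_assoc]
    exact mul_le_mul_of_nonneg_left (hL.dist_le_mul x y) hr

lemma max (hf : Adm f) (hg : Adm g) : Adm fun x => max (f x) (g x) := by
  obtain ⟨L, hL⟩ := hf.lipschitz
  obtain ⟨M, hM⟩ := hg.lipschitz
  exact ⟨hf.convex.sup hg.convex, Max.max L M, hL.max hM⟩

lemma norm : Adm fun x : V d => ‖x‖ :=
  ⟨convexOn_univ_norm, 1, lipschitzWith_one_norm⟩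

lemma norm_clm (P : V d →L[ℝ] V d) : Adm fun x : V d => ‖P x‖ :=
  (Adm.norm).comp_clm P

end Adm

theorem Adm.integrable {d : ℕ} {f : V d → ℝ} (hf : Adm f) :
    Integrable f (stdGaussian (V d)) := by
  obtain ⟨L, hL⟩ := hf.lipschitz
  have hid : Integrable (fun x : V d => x) (stdGaussian (V d)) := IsGaussian.integrable_id
  refine ((integrable_const (|f 0|)).add (hid.norm.const_mul (L : ℝ))).mono'
    hL.continuous.aestronglyMeasurable (Filter.Eventually.of_forall fun x => ?_)
  have h := hL.dist_le_mul x 0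
  rw [Real.dist_eq, dist_zero_right] at h
  simp only [Real.norm_eq_abs, Pi.add_apply]
  have := abs_sub_abs_le_abs_sub (f x) (f 0)
  linarith

/-! ### Laws of linear images -/

section Law

variable {E : Type*} [NormedAddCommGroup E] [InnerProductSpace ℝ E] [FiniteDimensional ℝ E]
  [MeasurableSpace E] [BorelSpace E]

lemma map_inner_stdGaussian (a : E) :
    (stdGaussian E).map (fun x => ⟪a, x⟫_ℝ) = gaussianReal 0 (‖a‖₊ ^ 2) := by
  apply Measure.ext_of_charFun
  funext t
  rw [charFun_gaussianReal, charFun_apply,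
    integral_map (by fun_prop) (by fun_prop)]
  have : ∀ x : E, (⟪⟪a, x⟫_ℝ, t⟫_ℝ : ℝ) = ⟪x, t • a⟫_ℝ := fun x => by
    simp [real_inner_smul_right, real_inner_comm x a]
  simp_rw [this]
  rw [← charFun_apply, charFun_stdGaussian]
  congr 1
  simp [norm_smul, mul_pow]
  rw [← Complex.ofReal_pow |t|, sq_abs, Complex.ofReal_pow]
  ring

lemma lintegral_exp_inner (a : E) :
    ∫⁻ x, ENNReal.ofReal (Real.exp ⟪a, x⟫_ℝ) ∂(stdGaussian E)
      = ENNReal.ofReal (Real.exp (‖a‖ ^ 2 / 2)) := by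
  have h1 : ∫⁻ x, ENNReal.ofReal (Real.exp ⟪a, x⟫_ℝ) ∂(stdGaussian E)
      = ∫⁻ s, ENNReal.ofReal (Real.exp s) ∂((stdGaussian E).map (fun x => ⟪a, x⟫_ℝ)) := by
    rw [lintegral_map (by fun_prop) (by fun_prop)]
  rw [h1, map_inner_stdGaussian,
    ← ofReal_integral_eq_lintegral_ofReal
      (by simpa using integrable_exp_mul_gaussianReal (μ := 0) (v := ‖a‖₊ ^ 2) 1)
      (Filter.Eventually.of_forall fun s => (Real.exp_pos s).le)]
  congr 1
  have := congrFun (mgf_id_gaussianReal (μ := 0) (v := ‖a‖₊ ^ 2)) 1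
  simpa [mgf] using this

lemma integral_exp_sq_div_four : ∫ s, Real.exp (s ^ 2 / 4) ∂(gaussianReal 0 1) = Real.sqrt 2 := by
  rw [integral_gaussianReal_eq_integral_smul one_ne_zero]
  have : ∀ s : ℝ, gaussianPDFReal 0 1 s • Real.exp (s ^ 2 / 4)
      = (Real.sqrt (2 * Real.pi))⁻¹ * Real.exp (-(1/4) * s ^ 2) := by
    intro s
    rw [gaussianPDFReal_def, smul_eq_mul, NNReal.coe_one, mul_one, mul_assoc, ← Real.exp_add]
    congr 2
    ring
  simp_rw [this]
  rw [integral_const_mul, integral_gaussian, ← Real.sqrt_inv, ← Real.sqrt_mul (by positivity)]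
  congr 1
  field_simp
  norm_num

lemma lintegral_exp_norm_sq :
    ∫⁻ x : E, ENNReal.ofReal (Real.exp (‖x‖ ^ 2 / 4)) ∂(stdGaussian E)
      ≤ ENNReal.ofReal (Real.exp ((Module.finrank ℝ E : ℝ) / 2)) := by
  set b := stdOrthonormalBasis ℝ E
  rw [stdGaussian_eq_map_pi_orthonormalBasis b, lintegral_map (by fun_prop) (by fun_prop)]
  have hn : ∀ x : Fin (Module.finrank ℝ E) → ℝ,
      ‖∑ i, x i • b i‖ ^ 2 = ∑ i, x i ^ 2 := by
    intro x
    rw [norm_sq_eq_re_inner (𝕜 := ℝ), RCLike.re_to_real, b.orthonormal.inner_sum]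
    simp [sq]
  simp_rw [hn, Finset.sum_div, Real.exp_sum]
  have hint : Integrable (fun s : ℝ => Real.exp (s ^ 2 / 4)) (gaussianReal 0 1) :=
    Integrable.of_integral_ne_zero (by rw [integral_exp_sq_div_four]; positivity)
  rw [← ofReal_integral_eq_lintegral_ofReal
      (Integrable.fintype_prod (f := fun _ : Fin (Module.finrank ℝ E) =>
        fun s : ℝ => Real.exp (s ^ 2 / 4)) fun _ => hint)
      (Filter.Eventually.of_forall fun x => Finset.prod_nonneg fun i _ => (Real.exp_pos _).le),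
    integral_fintype_prod_eq_prod (f := fun (_ : Fin (Module.finrank ℝ E)) (s : ℝ) =>
      Real.exp (s ^ 2 / 4)), Finset.prod_const, integral_exp_sq_div_four, Finset.card_univ,
    Fintype.card_fin]
  apply ENNReal.ofReal_le_ofReal
  have h2 : Real.sqrt 2 ≤ Real.exp (1 / 2) := by
    rw [Real.sqrt_le_left (Real.exp_pos _).le, ← Real.exp_nat_mul]
    have := Real.add_one_le_exp (((2 : ℕ) : ℝ) * (1 / 2))
    norm_num at this ⊢
    linarith
  calc Real.sqrt 2 ^ Module.finrank ℝ E ≤ Real.exp (1 / 2) ^ Module.finrank ℝ E := by gcongr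
    _ = Real.exp ((Module.finrank ℝ E : ℝ) / 2) := by rw [← Real.exp_nat_mul]; ring_nf

lemma integral_abs_gaussianReal : (1 / 2 : ℝ) ≤ ∫ s, |s| ∂(gaussianReal 0 1) := by
  rw [integral_gaussianReal_eq_integral_smul one_ne_zero]
  have : ∀ s : ℝ, gaussianPDFReal 0 1 s • |s|
      = (Real.sqrt (2 * Real.pi))⁻¹ * (|s| * Real.exp (-(|s| ^ 2 / 2))) := by
    intro s
    rw [gaussianPDFReal_def, smul_eq_mul, NNReal.coe_one, mul_one, sq_abs]
    simp only [sub_zero, neg_div]
    ring_nf
  simp_rw [this]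
  rw [integral_const_mul, integral_comp_abs (f := fun y => y * Real.exp (-(y ^ 2 / 2)))]
  have hI : ∫ y in Set.Ioi (0 : ℝ), y * Real.exp (-(y ^ 2 / 2)) = 1 := by
    have hd : ∀ y ∈ Set.Ici (0 : ℝ),
        HasDerivAt (fun y => -Real.exp (-(y ^ 2 / 2))) (y * Real.exp (-(y ^ 2 / 2))) y := by
      intro y _
      have h := (((hasDerivAt_pow 2 y).div_const 2).fun_neg.exp).fun_neg
      exact h.congr_deriv (by push_cast; ring)
    have hlim : Filter.Tendsto (fun y : ℝ => -Real.exp (-(y ^ 2 / 2))) Filter.atTop (nhds 0) := by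
      have : Filter.Tendsto (fun y : ℝ => y ^ 2 / 2) Filter.atTop Filter.atTop :=
        (Filter.tendsto_pow_atTop two_ne_zero).atTop_div_const two_pos
      have h := (Real.tendsto_exp_neg_atTop_nhds_zero.comp this).neg
      simpa [Function.comp_def] using h
    rw [integral_Ioi_of_hasDerivAt_of_nonneg' hd
      (fun y hy => mul_nonneg (le_of_lt hy) (Real.exp_pos _).le) hlim]
    simp
  rw [hI]
  have h4 : Real.sqrt (2 * Real.pi) ≤ 4 := by
    rw [Real.sqrt_le_left (by norm_num)]
    nlinarith [Real.pi_le_four]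
  rw [inv_mul_eq_div, le_div_iff₀ (by positivity)]
  linarith

end Law

/-! ### Convex order -/

variable {d : ℕ}

lemma exists_sqrt (Q : V d →L[ℝ] V d) (hs : (Q : V d →ₗ[ℝ] V d).IsSymmetric)
    (hp : ∀ t, 0 ≤ ⟪Q t, t⟫_ℝ) :
    ∃ M : V d →L[ℝ] V d, ∀ t, ‖M.adjoint t‖ ^ 2 = ⟪Q t, t⟫_ℝ := by
  have hn : Module.finrank ℝ (V d) = d := finrank_euclideanSpace_fin
  set b := hs.eigenvectorBasis hn
  set μ := hs.eigenvalues hn
  have hb : ∀ i, Q (b i) = μ i • b i := fun i => hs.apply_eigenvectorBasis hn i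
  have hμ : ∀ i, 0 ≤ μ i := fun i => by
    have := hp (b i)
    rwa [hb, real_inner_smul_left, real_inner_self_eq_norm_sq, b.orthonormal.1 i, one_pow,
      mul_one] at this
  set M : V d →L[ℝ] V d := ∑ i, Real.sqrt (μ i) • (innerSL ℝ (b i)).smulRight (b i) with hM
  have hMt : ∀ t, M t = ∑ i, (Real.sqrt (μ i) * ⟪b i, t⟫_ℝ) • b i := by
    intro t
    simp [hM, mul_smul]
  have hadj : M.adjoint = M := by
    symm
    rw [ContinuousLinearMap.eq_adjoint_iff]
    intro x y
    simp only [hMt, sum_inner, inner_sum, real_inner_smul_left, real_inner_smul_right]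
    refine Finset.sum_congr rfl fun i _ => ?_
    rw [real_inner_comm (b i) x]
    ring
  refine ⟨M, fun t => ?_⟩
  rw [hadj, hMt, ← real_inner_self_eq_norm_sq, b.orthonormal.inner_sum,
    ← b.sum_inner_mul_inner (Q t) t]
  refine Finset.sum_congr rfl fun i _ => ?_
  have : ⟪Q t, b i⟫_ℝ = μ i * ⟪b i, t⟫_ℝ := by
    rw [show ⟪Q t, b i⟫_ℝ = ⟪t, Q (b i)⟫_ℝ from hs t (b i), hb, real_inner_smul_right,
      real_inner_comm]
  rw [this]
  simp only [conj_trivial]
  linear_combination ⟪b i, t⟫_ℝ ^ 2 * Real.mul_self_sqrt (hμ i)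

lemma inner_comp_adjoint (A : V d →L[ℝ] V d) (t : V d) :
    ⟪(A ∘L A.adjoint) t, t⟫_ℝ = ‖A.adjoint t‖ ^ 2 := by
  rw [ContinuousLinearMap.comp_apply, ← ContinuousLinearMap.adjoint_inner_right,
    real_inner_self_eq_norm_sq]

lemma isSymmetric_comp_adjoint (A : V d →L[ℝ] V d) :
    ((A ∘L A.adjoint : V d →L[ℝ] V d) : V d →ₗ[ℝ] V d).IsSymmetric := by
  intro x y
  simp only [ContinuousLinearMap.coe_coe, ContinuousLinearMap.comp_apply]
  rw [← ContinuousLinearMap.adjoint_inner_right, ContinuousLinearMap.adjoint_inner_left]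

lemma exists_sum (A B : V d →L[ℝ] V d) :
    ∃ R : V d →L[ℝ] V d, ∀ t, ‖R.adjoint t‖ ^ 2 = ‖A.adjoint t‖ ^ 2 + ‖B.adjoint t‖ ^ 2 := by
  have hq : ∀ t, ⟪(A ∘L A.adjoint + B ∘L B.adjoint) t, t⟫_ℝ
      = ‖A.adjoint t‖ ^ 2 + ‖B.adjoint t‖ ^ 2 := by
    intro t
    rw [add_apply, inner_add_left, inner_comp_adjoint, inner_comp_adjoint]
  obtain ⟨R, hR⟩ := exists_sqrt (A ∘L A.adjoint + B ∘L B.adjoint)
    (by simpa using (isSymmetric_comp_adjoint A).add (isSymmetric_comp_adjoint B))
    (fun t => by rw [hq]; positivity)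
  exact ⟨R, fun t => (hR t).trans (hq t)⟩

lemma exists_compl (A R : V d →L[ℝ] V d) (h : ∀ t, ‖A.adjoint t‖ ≤ ‖R.adjoint t‖) :
    ∃ M : V d →L[ℝ] V d, ∀ t, ‖A.adjoint t‖ ^ 2 + ‖M.adjoint t‖ ^ 2 = ‖R.adjoint t‖ ^ 2 := by
  have hq : ∀ t, ⟪(R ∘L R.adjoint - A ∘L A.adjoint) t, t⟫_ℝ
      = ‖R.adjoint t‖ ^ 2 - ‖A.adjoint t‖ ^ 2 := by
    intro t
    rw [sub_apply, inner_sub_left, inner_comp_adjoint, inner_comp_adjoint]
  obtain ⟨M, hM⟩ := exists_sqrt (R ∘L R.adjoint - A ∘L A.adjoint)
    (by simpa using (isSymmetric_comp_adjoint R).sub (isSymmetric_comp_adjoint A))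
    (fun t => by
      rw [hq, sub_nonneg]
      exact pow_le_pow_left₀ (norm_nonneg _) (h t) 2)
  exact ⟨M, fun t => by rw [hM, hq]; ring⟩

/-- Sum of two independent centred Gaussians. -/
lemma gE_add (A B R : V d →L[ℝ] V d)
    (h : ∀ t, ‖A.adjoint t‖ ^ 2 + ‖B.adjoint t‖ ^ 2 = ‖R.adjoint t‖ ^ 2)
    (f : V d → ℝ) (hf : Adm f) (c : V d) :
    gE (fun g => gE (fun k => f (c + A g + B k))) = gE (fun g => f (c + R g)) := by
  have hlaw : ((stdGaussian (V d)).prod (stdGaussian (V d))).map (fun p => A p.1 + B p.2)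
      = (stdGaussian (V d)).map R := by
    apply Measure.ext_of_charFun
    funext t
    rw [charFun_apply, charFun_apply, integral_map (by fun_prop) (by fun_prop),
      integral_map (by fun_prop) (by fun_prop)]
    simp_rw [inner_add_left, ← ContinuousLinearMap.adjoint_inner_right, Complex.ofReal_add,
      add_mul, Complex.exp_add]
    rw [integral_prod_mul (fun g : V d => Complex.exp (⟪g, A.adjoint t⟫_ℝ * Complex.I))
      (fun g : V d => Complex.exp (⟪g, B.adjoint t⟫_ℝ * Complex.I))]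
    rw [← charFun_apply, ← charFun_apply, ← charFun_apply, charFun_stdGaussian,
      charFun_stdGaussian, charFun_stdGaussian, ← Complex.exp_add]
    congr 1
    rw [← Complex.ofReal_pow ‖R.adjoint t‖, ← h t]
    push_cast
    ring
  have hfc : AEStronglyMeasurable (fun y => f (c + y)) ((stdGaussian (V d)).map R) :=
    (hf.comp_add c).continuous.aestronglyMeasurable
  have hint : Integrable (fun y => f (c + y)) ((stdGaussian (V d)).map R) := by
    rw [integrable_map_measure hfc (by fun_prop)]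
    exact (hf.comp_affine c R).integrable
  have hint' := hint
  rw [← hlaw, integrable_map_measure (by rwa [hlaw]) (by fun_prop)] at hint'
  calc gE (fun g => gE (fun k => f (c + A g + B k)))
      = ∫ p : V d × V d, f (c + (A p.1 + B p.2))
          ∂((stdGaussian (V d)).prod (stdGaussian (V d))) := by
        rw [integral_prod (fun p : V d × V d => f (c + (A p.1 + B p.2))) hint']
        simp [gE, add_assoc]
    _ = ∫ y, f (c + y) ∂((stdGaussian (V d)).map R) := by
        rw [← hlaw, integral_map (by fun_prop) (by rwa [hlaw])]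
    _ = gE (fun g => f (c + R g)) := by
        rw [integral_map (by fun_prop) hfc]
        rfl

lemma gE_neg (f : V d → ℝ) : gE (fun g => f (-g)) = gE f := by
  have h : (stdGaussian (V d)).map (LinearIsometryEquiv.neg ℝ : V d ≃ₗᵢ[ℝ] V d)
      = stdGaussian (V d) := stdGaussian_map _
  have := integral_map_equiv (μ := stdGaussian (V d))
    (LinearIsometryEquiv.neg ℝ : V d ≃ₗᵢ[ℝ] V d).toHomeomorph.toMeasurableEquiv f
  simp only [Homeomorph.toMeasurableEquiv_coe, LinearIsometryEquiv.coe_toHomeomorph] at this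
  rw [h] at this
  simp [gE, this]

theorem le_gE {d} (f : V d → ℝ) (hf : Adm f) (c : V d) (A : V d →L[ℝ] V d) :
    f c ≤ gE (fun g => f (c + A g)) := by
  have h1 := (hf.comp_affine c A).integrable
  have h2 := (hf.comp_affine c (-A)).integrable
  have hsymm : gE (fun g => f (c + (-A) g)) = gE (fun g => f (c + A g)) := by
    rw [← gE_neg (fun g => f (c + A g))]
    simp
  have hmid : ∀ g, f c ≤ (f (c + A g) + f (c + (-A) g)) / 2 := by
    intro g
    have h := hf.convex.2 (Set.mem_univ (c + A g)) (Set.mem_univ (c + (-A) g))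
      (by norm_num : (0 : ℝ) ≤ 1 / 2) (by norm_num : (0 : ℝ) ≤ 1 / 2) (by norm_num)
    have e : (1 / 2 : ℝ) • (c + A g) + (1 / 2 : ℝ) • (c + (-A) g) = c := by
      rw [neg_apply]
      module
    rw [e, smul_eq_mul, smul_eq_mul] at h
    linarith
  have hmono := integral_mono (integrable_const (f c)) ((h1.add h2).div_const 2) hmid
  simp only [integral_const, probReal_univ, one_smul, Pi.add_apply] at hmono
  rw [integral_div, integral_add h1 h2] at hmono
  simp only [gE] at hsymm ⊢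
  linarith

lemma integrable_prod_affine (A B : V d →L[ℝ] V d) (f : V d → ℝ) (hf : Adm f) (c : V d) :
    Integrable (fun p : V d × V d => f (c + A p.1 + B p.2))
      ((stdGaussian (V d)).prod (stdGaussian (V d))) := by
  obtain ⟨L, hL⟩ := hf.lipschitz
  have hA : Integrable (fun g : V d => ‖A g‖) (stdGaussian (V d)) :=
    ((Adm.norm_clm A)).integrable
  have hB : Integrable (fun g : V d => ‖B g‖) (stdGaussian (V d)) :=
    ((Adm.norm_clm B)).integrable
  refine (((integrable_const (|f c|)).add ((hA.comp_fst _).const_mul (L : ℝ))).add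
    ((hB.comp_snd _).const_mul (L : ℝ))).mono'
    (hL.continuous.comp (by fun_prop)).aestronglyMeasurable
    (Filter.Eventually.of_forall fun p => ?_)
  have h := hL.dist_le_mul (c + A p.1 + B p.2) c
  rw [Real.dist_eq, dist_eq_norm, show c + A p.1 + B p.2 - c = A p.1 + B p.2 by abel] at h
  have h1 := norm_add_le (A p.1) (B p.2)
  have h2 := abs_sub_abs_le_abs_sub (f (c + A p.1 + B p.2)) (f c)
  simp only [Real.norm_eq_abs, Pi.add_apply]
  nlinarith [L.coe_nonneg]

/-- Monotonicity of centred Gaussians in the convex order. -/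
lemma dom (A R : V d →L[ℝ] V d) (h : ∀ t, ‖A.adjoint t‖ ≤ ‖R.adjoint t‖)
    (f : V d → ℝ) (hf : Adm f) (c : V d) :
    gE (fun g => f (c + A g)) ≤ gE (fun g => f (c + R g)) := by
  obtain ⟨M, hM⟩ := exists_compl A R h
  rw [← gE_add A M R hM f hf c]
  refine integral_mono (hf.comp_affine c A).integrable (integrable_prod_affine A M f hf c).integral_prod_left
    fun g => ?_
  exact le_gE f hf (c + A g) M

theorem cx1 {d} (A : V d →L[ℝ] V d) (σ : ℝ) (hσ : 0 ≤ σ) (h : ∀ t, ‖A.adjoint t‖ ≤ σ * ‖t‖)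
    (f : V d → ℝ) (hf : Adm f) (c : V d) :
    gE (fun g => f (c + A g)) ≤ gE (fun g => f (c + σ • g)) := by
  refine dom A (σ • ContinuousLinearMap.id ℝ (V d)) (fun t => ?_) f hf c
  simpa [ContinuousLinearMap.adjoint_id, norm_smul, abs_of_nonneg hσ] using h t

theorem cx2 {d} (T A : V d →L[ℝ] V d) (σ : ℝ)
    (h : ∀ t, σ^2 * ‖T.adjoint t‖^2 + ‖A.adjoint t‖^2 ≤ σ^2 * ‖t‖^2)
    (f : V d → ℝ) (hf : Adm f) (c : V d) :
    gE (fun g => gE (fun h => f (c + σ • T g + A h))) ≤ gE (fun g => f (c + σ • g)) := by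
  obtain ⟨R, hR⟩ := exists_sum (σ • T) A
  have hadd := gE_add (σ • T) A R (fun t => (hR t).symm) f hf c
  simp only [smul_apply] at hadd
  rw [hadd]
  refine dom R (σ • ContinuousLinearMap.id ℝ (V d)) (fun t => ?_) f hf c
  apply le_of_pow_le_pow_left₀ two_ne_zero (norm_nonneg _)
  rw [hR]
  simpa [ContinuousLinearMap.adjoint_id, norm_smul, mul_pow, sq_abs] using h t

theorem twoPoint {d} (f : V d → ℝ) (hf : Adm f) (c h : V d) (A : V d →L[ℝ] V d)
    (hA : ∀ t, 4 * |inner ℝ h t| ≤ ‖A.adjoint t‖) :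
    (f (c + h) + f (c - h)) / 2 ≤ gE (fun g => f (c + A g)) := by
  rcases eq_or_ne h 0 with rfl | hne
  · simpa using le_gE f hf c A
  have hd : 0 < d := by
    rcases Nat.eq_zero_or_pos d with rfl | hd
    · exact absurd (Subsingleton.elim h 0) hne
    · exact hd
  set e : V d := EuclideanSpace.single (⟨0, hd⟩ : Fin d) (1 : ℝ) with he
  have hen : ‖e‖ = 1 := by simp [he]
  set L : V d →L[ℝ] V d := (innerSL ℝ e).smulRight ((4 : ℝ) • h) with hL
  have hLapp : ∀ x, L x = (4 * ⟪e, x⟫_ℝ) • h := by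
    intro x
    simp [hL, smul_smul, mul_comm]
  have hLadj : ∀ t, L.adjoint t = (4 * ⟪h, t⟫_ℝ) • e := by
    intro t
    refine ext_inner_left ℝ fun v => ?_
    rw [ContinuousLinearMap.adjoint_inner_right, hLapp, real_inner_smul_left,
      real_inner_smul_right, real_inner_comm v e]
    ring
  refine le_trans ?_ (dom L A (fun t => ?_) f hf c)
  swap
  · rw [hLadj, norm_smul, hen, mul_one, Real.norm_eq_abs, abs_mul, abs_of_pos (by norm_num : (0:ℝ) < 4)]
    exact hA t
  -- one-dimensional convexity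
  set φ : ℝ → ℝ := fun s => (f (c + s • h) + f (c - s • h)) / 2 with hφ
  have hmid : ∀ s : ℝ, f c ≤ φ s := by
    intro s
    have h0 := hf.convex.2 (Set.mem_univ (c + s • h)) (Set.mem_univ (c - s • h))
      (by norm_num : (0 : ℝ) ≤ 1 / 2) (by norm_num : (0 : ℝ) ≤ 1 / 2) (by norm_num)
    have e1 : (1 / 2 : ℝ) • (c + s • h) + (1 / 2 : ℝ) • (c - s • h) = c := by module
    rw [e1, smul_eq_mul, smul_eq_mul] at h0
    simp only [hφ]
    linarith
  have hline : ∀ s : ℝ, f c + (φ 1 - f c) * (|s| - 1) ≤ φ s := by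
    intro s
    have heven : φ s = φ |s| := by
      rcases abs_choice s with h1 | h1 <;> rw [h1]
      simp [hφ, add_comm, sub_eq_add_neg]
    rw [heven]
    have hm1 := hmid 1
    rcases le_total |s| 1 with hs | hs
    · nlinarith [hmid |s|]
    · have hspos : 0 < |s| := by linarith
      have hw1 : 0 ≤ |s|⁻¹ := by positivity
      have hw2 : 0 ≤ 1 - |s|⁻¹ := by
        rw [sub_nonneg]; exact inv_le_one_of_one_le₀ hs
      have ha := hf.convex.2 (Set.mem_univ (c + |s| • h)) (Set.mem_univ c) hw1 hw2 (by ring)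
      have hb := hf.convex.2 (Set.mem_univ (c - |s| • h)) (Set.mem_univ c) hw1 hw2 (by ring)
      have ea : |s|⁻¹ • (c + |s| • h) + (1 - |s|⁻¹) • c = c + h := by
        rw [smul_add, smul_smul, inv_mul_cancel₀ hspos.ne']; module
      have eb : |s|⁻¹ • (c - |s| • h) + (1 - |s|⁻¹) • c = c - h := by
        rw [smul_sub, smul_smul, inv_mul_cancel₀ hspos.ne']; module
      rw [ea, smul_eq_mul, smul_eq_mul] at ha
      rw [eb, smul_eq_mul, smul_eq_mul] at hb
      have key : φ 1 ≤ |s|⁻¹ * φ |s| + (1 - |s|⁻¹) * f c := by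
        simp only [hφ, one_smul]
        linarith
      have := mul_le_mul_of_nonneg_left key hspos.le
      rw [mul_add, ← mul_assoc, mul_inv_cancel₀ hspos.ne', one_mul, ← mul_assoc, mul_sub,
        mul_inv_cancel₀ hspos.ne', mul_one] at this
      nlinarith [hm1]
  have hφ1 : (f (c + h) + f (c - h)) / 2 = φ 1 := by simp [hφ]
  rw [hφ1]
  have hint : Integrable (fun g => φ (4 * ⟪e, g⟫_ℝ)) (stdGaussian (V d)) := by
    have h1 := (hf.comp_affine c L).integrable
    have h2 := (hf.comp_affine c (-L)).integrable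
    refine ((h1.add h2).div_const 2).congr (Filter.Eventually.of_forall fun g => ?_)
    simp [hφ, hLapp, sub_eq_add_neg]
  have hval : ∫ g, φ (4 * ⟪e, g⟫_ℝ) ∂(stdGaussian (V d)) = gE (fun g => f (c + L g)) := by
    have h1 := (hf.comp_affine c L).integrable
    have h2 := (hf.comp_affine c (-L)).integrable
    have hsymm : gE (fun g => f (c + (-L) g)) = gE (fun g => f (c + L g)) := by
      rw [← gE_neg (fun g => f (c + L g))]
      simp
    calc ∫ g, φ (4 * ⟪e, g⟫_ℝ) ∂(stdGaussian (V d))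
        = ∫ g, (f (c + L g) + f (c + (-L) g)) / 2 ∂(stdGaussian (V d)) := by
          simp [hφ, hLapp, sub_eq_add_neg]
      _ = gE (fun g => f (c + L g)) := by
          rw [integral_div, integral_add h1 h2]
          simp only [gE] at hsymm ⊢
          rw [hsymm]
          ring
  rw [← hval]
  have habs : Integrable (fun s : ℝ => |s|) (gaussianReal 0 1) :=
    ((memLp_id_gaussianReal 1).integrable le_rfl).abs
  have hlawe : (stdGaussian (V d)).map (fun g => ⟪e, g⟫_ℝ) = gaussianReal 0 1 := by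
    rw [map_inner_stdGaussian]
    have : ‖e‖₊ = 1 := NNReal.coe_inj.1 (by simpa using hen)
    simp [this]
  have habs' : Integrable (fun g => |⟪e, g⟫_ℝ|) (stdGaussian (V d)) := by
    rw [← hlawe] at habs
    exact (integrable_map_measure habs.aestronglyMeasurable (by fun_prop)).1 habs
  have hmean : 1 / 2 ≤ ∫ g, |⟪e, g⟫_ℝ| ∂(stdGaussian (V d)) := by
    rw [← integral_map (φ := fun g => ⟪e, g⟫_ℝ) (f := fun s : ℝ => |s|) (by fun_prop)
      (by fun_prop), hlawe]
    exact integral_abs_gaussianReal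
  have hm1 := hmid 1
  calc φ 1 ≤ f c + (φ 1 - f c) * (4 * ∫ g, |⟪e, g⟫_ℝ| ∂(stdGaussian (V d)) - 1) := by nlinarith
    _ = ∫ g, (f c + (φ 1 - f c) * (4 * |⟪e, g⟫_ℝ| - 1)) ∂(stdGaussian (V d)) := by
        have i2 : Integrable (fun g => 4 * |⟪e, g⟫_ℝ| - 1) (stdGaussian (V d)) :=
          (habs'.const_mul 4).sub (integrable_const _)
        rw [integral_add (integrable_const _) (i2.const_mul _),
          integral_const_mul, integral_sub (habs'.const_mul 4) (integrable_const _),
          integral_const_mul]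
        simp
    _ ≤ ∫ g, φ (4 * ⟪e, g⟫_ℝ) ∂(stdGaussian (V d)) := by
        refine integral_mono ((integrable_const _).add
          (((habs'.const_mul 4).sub (integrable_const _)).const_mul _)) hint fun g => ?_
        simpa [abs_mul] using hline (4 * ⟪e, g⟫_ℝ)

/-! ### Tail bound -/

lemma max_le_exp {s r : ℝ} (hr : 4 ≤ r) :
    max (2 * s - r) 0 ≤ 2 * Real.exp ((s ^ 2 - r ^ 2 / 4) / 4) := by
  refine max_le ?_ (by positivity)
  rcases le_or_gt (2 * s - r) 0 with h | h
  · exact h.trans (by positivity)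
  · have h1 : s - r / 2 ≤ (s ^ 2 - r ^ 2 / 4) / 4 := by nlinarith
    have := Real.add_one_le_exp ((s ^ 2 - r ^ 2 / 4) / 4)
    linarith

theorem tail {d} (W : Submodule ℝ (V d)) (A : V d →L[ℝ] V d) (hA : ∀ x, ‖A x‖ ≤ ‖x‖)
    (σ : ℝ) (hσ0 : 0 ≤ σ) (hσ : σ ≤ 2) (u : V d) (r : ℝ) (hr : 4 ≤ r) :
    gE (fun g => max (‖W.starProjection (A (u + σ • g))‖ - ‖W.starProjection (A u)‖ - r) 0)
      ≤ 2 * Real.exp ((Module.finrank ℝ W : ℝ) / 2 - r^2 / 16) := by
  set L : V d →L[ℝ] W := W.orthogonalProjectionOnto ∘L A with hL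
  have hLn : ∀ x, ‖W.starProjection (A x)‖ = ‖L x‖ := fun x => rfl
  have hexp : ∫⁻ g, ENNReal.ofReal (Real.exp (‖L g‖ ^ 2 / 4)) ∂(stdGaussian (V d))
      ≤ ENNReal.ofReal (Real.exp ((Module.finrank ℝ W : ℝ) / 2)) := by
    set s : ℝ := (Real.sqrt 2)⁻¹ with hs
    have hs2 : s ^ 2 = 1 / 2 := by rw [hs, inv_pow, Real.sq_sqrt (by norm_num)]; norm_num
    have e1 : ∀ g, ENNReal.ofReal (Real.exp (‖L g‖ ^ 2 / 4))
        = ∫⁻ z : W, ENNReal.ofReal (Real.exp ⟪s • L g, z⟫_ℝ) ∂(stdGaussian W) := by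
      intro g
      rw [lintegral_exp_inner, norm_smul, mul_pow, Real.norm_eq_abs, sq_abs, hs2]
      ring_nf
    simp_rw [e1]
    rw [lintegral_lintegral_swap (by fun_prop)]
    refine le_trans (lintegral_mono fun z => ?_) lintegral_exp_norm_sq
    have e2 : ∀ g, ⟪s • L g, z⟫_ℝ = ⟪s • L.adjoint z, g⟫_ℝ := by
      intro g
      rw [← map_smul L s g, ← ContinuousLinearMap.adjoint_inner_right, real_inner_smul_left,
        real_inner_smul_left, real_inner_comm g]
    simp_rw [e2]
    rw [lintegral_exp_inner]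
    apply ENNReal.ofReal_le_ofReal
    rw [Real.exp_le_exp, norm_smul, mul_pow, Real.norm_eq_abs, sq_abs, hs2]
    have h1 : ‖L.adjoint z‖ ≤ ‖z‖ := by
      have h2 : ‖L.adjoint‖ ≤ 1 := by
        rw [LinearIsometryEquiv.norm_map]
        refine L.opNorm_le_bound zero_le_one fun x => ?_
        rw [one_mul]
        exact (W.norm_orthogonalProjectionOnto_apply_le _).trans (hA x)
      simpa using L.adjoint.le_of_opNorm_le h2 z
    nlinarith [norm_nonneg (L.adjoint z)]
  have hint : Integrable (fun g => Real.exp (‖L g‖ ^ 2 / 4)) (stdGaussian (V d)) :=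
    (lintegral_ofReal_ne_top_iff_integrable (by fun_prop)
      (Filter.Eventually.of_forall fun g => (Real.exp_pos _).le)).1
      (ne_top_of_le_ne_top ENNReal.ofReal_ne_top hexp)
  have hI : ∫ g, Real.exp (‖L g‖ ^ 2 / 4) ∂(stdGaussian (V d))
      ≤ Real.exp ((Module.finrank ℝ W : ℝ) / 2) := by
    rw [← ENNReal.ofReal_le_ofReal_iff (Real.exp_pos _).le,
      ofReal_integral_eq_lintegral_ofReal hint
        (Filter.Eventually.of_forall fun g => (Real.exp_pos _).le)]
    exact hexp
  calc gE (fun g => max (‖W.starProjection (A (u + σ • g))‖ - ‖W.starProjection (A u)‖ - r) 0)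
      ≤ ∫ g, 2 * Real.exp (-(r ^ 2 / 16)) * Real.exp (‖L g‖ ^ 2 / 4) ∂(stdGaussian (V d)) := by
        refine integral_mono_of_nonneg (Filter.Eventually.of_forall fun g => le_max_right _ _)
          (hint.const_mul _) (Filter.Eventually.of_forall fun g => ?_)
        simp only [hLn]
        have h1 : ‖L (u + σ • g)‖ - ‖L u‖ ≤ 2 * ‖L g‖ := by
          rw [map_add, map_smul]
          have := norm_add_le (L u) (σ • L g)
          rw [norm_smul, Real.norm_eq_abs, abs_of_nonneg hσ0] at this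
          nlinarith [norm_nonneg (L g)]
        refine le_trans (max_le_max (by linarith) le_rfl) ((max_le_exp hr).trans (le_of_eq ?_))
        rw [mul_assoc, ← Real.exp_add]
        ring_nf
    _ ≤ 2 * Real.exp (-(r ^ 2 / 16)) * Real.exp ((Module.finrank ℝ W : ℝ) / 2) := by
        rw [integral_const_mul]
        exact mul_le_mul_of_nonneg_left hI (by positivity)
    _ = 2 * Real.exp ((Module.finrank ℝ W : ℝ) / 2 - r^2 / 16) := by
        rw [mul_assoc, ← Real.exp_add]
        ring_nf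

end Vale.Agent.P262
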