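import Vale.Agent.P262.Item
import Vale.Agent.P262.Design

/-!
Planned chunks: a chain whose centre map gets the extra factor `1 - κ M`.
-/

namespace Vale.Agent.P262

open Finset
open scoped RealInnerProductSpace

variable {d : ℕ} {v : ℕ → V d}

/-- `x ↦ x - κ M x`. -/
noncomputable def damp (κ : ℝ) (M : V d →L[ℝ] V d) : V d →L[ℝ] V d :=
  ContinuousLinearMap.id ℝ (V d) - κ • M

lemma damp_apply (κ : ℝ) (M : V d →L[ℝ] V d) (x : V d) : damp κ M x = x - κ • M x := by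
  simp [damp]

lemma gramOp_norm_sq_le (hd : 1 ≤ d) {s e : ℕ} (hse : s ≤ e) {y : Fin (dm d) → V d}
    (hy : ∀ i, InZ v s e 1 (y i)) (x : V d) :
    ‖gramOp y x‖ ^ 2 ≤ d * ⟪gramOp y x, x⟫ := by
  set M := gramOp y
  have hq : ∀ t : ℝ, 0 ≤ ⟪M (M x), M x⟫ * (t * t) + (2 * ‖M x‖ ^ 2) * t + ⟪M x, x⟫ := fun t => by
    have h := inner_gramOp_self_nonneg y (t • M x + x)
    simp only [map_add, map_smul, inner_add_left, inner_add_right, real_inner_smul_left,
      real_inner_smul_right] at h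
    have h1 : ⟪M (M x), x⟫ = ‖M x‖ ^ 2 := by
      rw [gramOp_symm, real_inner_self_eq_norm_sq]
    rw [h1, real_inner_self_eq_norm_sq] at h
    linarith
  have h2 := discrim_le_zero hq
  rw [discrim] at h2
  have h3 : ⟪M (M x), M x⟫ ≤ d * ‖M x‖ ^ 2 := inner_gramOp_le hd hse hy (M x)
  rcases eq_or_ne (M x) 0 with h0 | h0
  · rw [h0]; simp
  · have hp : 0 < ‖M x‖ ^ 2 := by positivity
    refine le_of_mul_le_mul_left ?_ hp
    nlinarith [inner_gramOp_self_nonneg y x]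

lemma kap_small (_hd : 1 ≤ d) : 0 < kap d ∧ kap d * d ≤ (DD d ^ 20)⁻¹ ∧ kap d * d ≤ 1 := by
  have h0 : 0 < kap d := inv_pos.2 (pow_pos DD_pos _)
  have h1 : kap d * d ≤ (DD d ^ 20)⁻¹ := by
    have := const_DD_div_le (d := d) (c := 1) (k := 0) (a := 1) (b := 30) (e := 20) (by norm_num)
      (by norm_num)
    calc kap d * d ≤ kap d * DD d := mul_le_mul_of_nonneg_left natCast_le_DD h0.le
      _ = 1 * DD d ^ 1 * (DD d ^ 30)⁻¹ := by unfold kap; ring
      _ ≤ _ := this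
  exact ⟨h0, h1, h1.trans (inv_le_one_of_one_le₀ (one_le_pow₀ one_le_DD))⟩

section

variable (hd : 1 ≤ d) {ν : ℝ} (hν : 0 < ν) {s e : ℕ} (hse : s ≤ e)
include hd hν hse

/-- A damping factor loses `κ M[x]`. -/
lemma norm_damp_sq_le (x : V d) :
    ‖damp (kap d) (regOp v ν s e) x‖ ^ 2 ≤ ‖x‖ ^ 2 - kap d * ⟪regOp v ν s e x, x⟫ := by
  obtain ⟨hκ, _, hκ1⟩ := kap_small hd
  have h1 := gramOp_norm_sq_le hd hse (regTuple_isOpt (v := v) (s := s) (e := e) hν).mem x
  have h2 := inner_gramOp_self_nonneg (regTuple v ν s e) x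
  simp only [← regOp.eq_1] at h1 h2
  rw [damp_apply, norm_sub_sq_real, norm_smul, real_inner_smul_right, mul_pow, Real.norm_eq_abs,
    sq_abs]
  rw [real_inner_comm x] at h1 h2 ⊢
  nlinarith [mul_le_mul_of_nonneg_left h1 (sq_nonneg (kap d)),
    mul_le_mul_of_nonneg_right hκ1 (mul_nonneg hκ.le h2)]

lemma norm_damp_le (x : V d) : ‖damp (kap d) (regOp v ν s e) x‖ ≤ ‖x‖ := by
  refine le_of_pow_le_pow_left₀ two_ne_zero (norm_nonneg x) ((norm_damp_sq_le hd hν hse x).trans ?_)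
  have : 0 ≤ ⟪regOp v ν s e x, x⟫ := inner_gramOp_self_nonneg _ x
  nlinarith [(kap_small hd).1]

omit hd hν hse in
lemma adjoint_damp :
    (damp (kap d) (regOp v ν s e)).adjoint = damp (kap d) (regOp v ν s e) := by
  symm
  rw [ContinuousLinearMap.eq_adjoint_iff]
  intro x y
  simp only [damp_apply, inner_sub_left, inner_sub_right, real_inner_smul_left,
    real_inner_smul_right, regOp, gramOp_symm]

lemma InZ_kap_regOp (x : V d) :
    InZ v s e ((DD d ^ 20)⁻¹ * ‖x‖) (kap d • regOp v ν s e x) := by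
  obtain ⟨hκ, hκd, _⟩ := kap_small hd
  have h := (InZ_regOp (v := v) (s := s) (e := e) hν x).smul (kap d)
  refine h.mono ?_
  have h1 : √d * √⟪regOp v ν s e x, x⟫ ≤ d * ‖x‖ := by
    rw [← Real.sqrt_mul (Nat.cast_nonneg d), Real.sqrt_le_left (by positivity)]
    have := mul_le_mul_of_nonneg_left (inner_regOp_le (v := v) hν hd hse x) (Nat.cast_nonneg (α := ℝ) d)
    linarith
  rw [abs_of_pos hκ]
  calc kap d * (√d * √⟪regOp v ν s e x, x⟫) ≤ kap d * (d * ‖x‖) :=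
        mul_le_mul_of_nonneg_left h1 hκ.le
    _ ≤ _ := by rw [← mul_assoc]; exact mul_le_mul_of_nonneg_right hκd (norm_nonneg x)

/-- Displacement bound and deficit of a planned chunk. -/
lemma disp_plan {K : ℝ} (hK : 0 ≤ K) {Φ : V d →L[ℝ] V d} (h : Disp v s e K Φ) :
    Disp v s e (K + 1) (damp (kap d) (regOp v ν s e) ∘L Φ) ∧
      ∀ x, ‖(damp (kap d) (regOp v ν s e) ∘L Φ).adjoint x‖ ^ 2
        ≤ ‖x‖ ^ 2 - kap d * ⟪regOp v ν s e x, x⟫ := by
  set M := regOp v ν s e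
  have hadj : (damp (kap d) M ∘L Φ).adjoint = Φ.adjoint ∘L damp (kap d) M := by
    rw [ContinuousLinearMap.adjoint_comp, adjoint_damp]
  have hI : ∀ x, InZ v s e ‖x‖ (kap d • M x) := fun x =>
    (InZ_kap_regOp hd hν hse x).mono (mul_le_of_le_one_left (norm_nonneg x)
      (inv_le_one_of_one_le₀ (one_le_pow₀ one_le_DD)))
  refine ⟨⟨hse, fun x => (norm_damp_le hd hν hse _).trans (h.contr x), fun x => ?_, fun x => ?_⟩,
    fun x => ?_⟩
  · have h1 := (h.fwd x).add ((hI (Φ x)).mono (h.contr x)).neg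
    rw [ContinuousLinearMap.comp_apply, damp_apply]
    convert h1 using 1
    · ring
    · abel
  · rw [hadj, ContinuousLinearMap.comp_apply]
    have h1 := ((h.bwd (damp (kap d) M x)).mono
      (mul_le_mul_of_nonneg_left (norm_damp_le hd hν hse x) hK)).add (hI x).neg
    convert h1 using 1
    · ring
    · rw [damp_apply]; abel
  · rw [hadj, ContinuousLinearMap.comp_apply]
    exact (pow_le_pow_left₀ (norm_nonneg _) (h.contr' _) 2).trans (norm_damp_sq_le hd hν hse x)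

/-- The planned chain. -/
theorem Chain.plan {O : Owner d} {l : ℕ} {Φ : V d →L[ℝ] V d} {β₁ β₂ : ℝ}
    (h : Chain v O l s e Φ β₁ β₂) (hΦ : ∀ x, ‖Φ x‖ ≤ ‖x‖) :
    Chain v O (l + 1) s e (damp (kap d) (regOp v ν s e) ∘L Φ) β₁ β₂ := by
  refine ⟨hse, fun bs Ψ hcs hbs hce hΨ => ?_⟩
  obtain ⟨Ω, hA, h0, hb, hrest⟩ := h.2 bs Ψ hcs hbs hce hΨ
  refine ⟨Ω, hA, h0, hb, fun x₀ hx hΩ a ha f hf P hP => ?_⟩
  set M := regOp v ν s e
  set c := Φ (Ψ x₀)
  have hc : ‖c‖ ≤ 2 * RR d := (hΦ _).trans ((hΨ.contr x₀).trans hx)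
  obtain ⟨wp, hwp, hwp', hwp''⟩ := (InZ_kap_regOp (v := v) hd hν hse c).neg
  have htiny : (DD d ^ 20)⁻¹ * ‖c‖ ≤ (DD d ^ 4)⁻¹ := by
    have := const_DD_div_le (d := d) (c := 2) (k := 1) (a := 4) (b := 20) (e := 4) (by norm_num)
      (by norm_num)
    refine le_trans ?_ this
    rw [mul_comm]
    exact mul_le_mul_of_nonneg_right (hc.trans (by linarith [RR_le_DD (d := d)]))
      (inv_nonneg.2 (pow_nonneg DD_pos.le _))
  have hstep : ((l + 1 : ℕ) : ℝ) / DD d ^ 4 = (l : ℝ) / DD d ^ 4 + (DD d ^ 4)⁻¹ := by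
    push_cast; ring
  have ha' : ∀ i ∈ Finset.Ico s e, |(a + wp) i| ≤ alf d l := fun i hi => by
    have h1 := ha i hi
    have h2 := hwp i hi
    have h3 := abs_add_le (a i) (wp i)
    simp only [alf, hstep] at h1 ⊢
    simp only [Pi.add_apply]
    linarith
  set p : V d := -(kap d • M c) with hp
  obtain ⟨f₀, hf₀, hle, hstep'⟩ := hrest x₀ hx hΩ (a + wp) ha' _ (hf.comp_add_right p) P hP
  refine ⟨f₀, hf₀, hle.trans (le_of_eq ?_), fun x => ?_⟩
  · congr 2
    funext g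
    congr 1
    rw [ContinuousLinearMap.comp_apply, damp_apply, hp]
    abel
  obtain ⟨w, pen, hpen, h1, h2, h3, h4⟩ := hstep' x
  have hd' : ∀ k, disp v s k (w - a) = disp v s k (w - (a + wp)) + disp v s k wp := fun k => by
    rw [← disp_add]; congr 1; abel
  refine ⟨w, pen, hpen, ?_, fun i hi => (h2 i hi).trans
    (mul_le_mul_of_nonneg_right (Kgr_mono (Nat.le_succ l)) (by linarith)), fun k ka kb => ?_,
    fun hh hlt => ⟨(h4 hh hlt).1, fun k ka kb => ?_⟩⟩
  · rw [hd' e, hwp'', ← add_assoc]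
    exact h1
  · rw [hd' k, ← add_assoc]
    refine (norm_add_le _ _).trans ?_
    have := h3 k ka kb
    have := hwp' k ka kb
    simp only [Kgr, hstep] at *
    nlinarith [inv_nonneg.2 (pow_nonneg (DD_pos (d := d)).le 4)]
  · rw [hd' k, ← add_assoc]
    refine (norm_add_le _ _).trans ?_
    have := (h4 hh hlt).2 k ka kb
    have := hwp' k ka kb
    simp only [Rg, hstep] at *
    linarith

end

end Vale.Agent.P262
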