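import Mathlib
import Vale.Agent.P262.Maps

/-!
P262, module (B2): the drift of a family of chunk maps kills the high eigen directions.
-/

namespace Vale.Agent.P262

open scoped RealInnerProductSpace

/-- Chunk maps which are displacements and lose norm along the reference operator `M`. -/
structure ChunkFam {d : ℕ} (v : ℕ → V d) (M : V d →L[ℝ] V d) (κ c ν K : ℝ) (p : ℕ → ℕ)
    (Φs : ℕ → V d →L[ℝ] V d) (m : ℕ) : Prop where
  disp : ∀ j < m, Disp v (p j) (p (j + 1)) K (Φs j)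
  deficit : ∀ j < m, ∀ x, ‖(Φs j).adjoint x‖ ^ 2 ≤ ‖x‖ ^ 2 - κ * (c * ⟪M x, x⟫ - ν * ‖x‖ ^ 2)

/-- Squared norm of the part in the eigen directions with eigenvalue at most `θ`. -/
noncomputable def lowSq {d : ℕ} (b : OrthonormalBasis (Fin d) ℝ (V d)) (mu : Fin d → ℝ) (θ : ℝ)
    (x : V d) : ℝ := ∑ i with mu i ≤ θ, ⟪b i, x⟫ ^ 2

variable {d : ℕ}

section Low

variable (b : OrthonormalBasis (Fin d) ℝ (V d)) (mu : Fin d → ℝ) (θ : ℝ)

/-- The projection to the low eigen directions. -/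
noncomputable def lowMap : V d →L[ℝ] V d :=
  ∑ i with mu i ≤ θ, (innerSL ℝ (b i)).smulRight (b i)

lemma norm_lowMap_sq (x : V d) : ‖lowMap b mu θ x‖ ^ 2 = lowSq b mu θ x := by
  have : lowMap b mu θ x = ∑ i with mu i ≤ θ, ⟪b i, x⟫ • b i := by simp [lowMap]
  rw [this, ← real_inner_self_eq_norm_sq, b.orthonormal.inner_sum, lowSq]
  simp [sq]

lemma sqrt_lowSq (x : V d) : √(lowSq b mu θ x) = ‖lowMap b mu θ x‖ := by
  rw [← norm_lowMap_sq, Real.sqrt_sq (norm_nonneg _)]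

lemma inner_map_self {M : V d →L[ℝ] V d} (hb : ∀ i, M (b i) = mu i • b i) (x : V d) :
    ⟪M x, x⟫ = ∑ i, mu i * ⟪b i, x⟫ ^ 2 := by
  conv_lhs => rw [← b.sum_repr' x, map_sum, sum_inner]
  refine Finset.sum_congr rfl fun i _ => ?_
  rw [map_smul, hb, real_inner_smul_left, real_inner_smul_left, b.sum_repr' x]
  ring

lemma high_le {M : V d →L[ℝ] V d} (hb : ∀ i, M (b i) = mu i • b i) (hmu : ∀ i, 0 ≤ mu i)
    (x : V d) : θ * (‖x‖ ^ 2 - lowSq b mu θ x) ≤ ⟪M x, x⟫ := by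
  rw [inner_map_self b mu hb, ← b.sum_sq_inner_right x, lowSq, Finset.sum_filter,
    ← Finset.sum_sub_distrib, Finset.mul_sum]
  refine Finset.sum_le_sum fun i _ => ?_
  by_cases h : mu i ≤ θ
  · simp only [if_pos h, sub_self, mul_zero]
    exact mul_nonneg (hmu i) (sq_nonneg _)
  · simp only [if_neg h, sub_zero]
    exact mul_le_mul_of_nonneg_right (not_le.1 h).le (sq_nonneg _)

end Low

section Kill

variable {v : ℕ → V d} {M : V d →L[ℝ] V d} {b : OrthonormalBasis (Fin d) ℝ (V d)} {mu : Fin d → ℝ}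
  {κ c ν K θ : ℝ} {X0 X1 m Q1 : ℕ} {p : ℕ → ℕ} {Φs : ℕ → V d →L[ℝ] V d}

lemma ChunkFam.disp_comp (fam : ChunkFam v M κ c ν K p Φs m) (hK : 0 ≤ K) {i n : ℕ}
    (hin : i + n ≤ m) : Disp v (p i) (p (i + n)) (K + 2) (compI Φs i n) :=
  disp_compI hK fun j _ h2 => fam.disp j (by omega)

/-- Moving by the composed adjoint changes the low part by at most the drift. -/
lemma ChunkFam.low_le (fam : ChunkFam v M κ c ν K p Φs m) (hK : 0 ≤ K) (hθ : 0 ≤ θ)
    (hb : ∀ i, M (b i) = mu i • b i)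
    (hZ : ∀ K y t, 0 ≤ K → InZ v X0 X1 K y → ⟪y, t⟫ ^ 2 ≤ 2 * K ^ 2 * ⟪M t, t⟫)
    (hX0 : X0 ≤ p 0) (hX1 : p m ≤ X1) {i n : ℕ} (hin : i + n ≤ m) {h : V d} (hh : ‖h‖ ≤ 1) :
    √(lowSq b mu θ ((compI Φs i n).adjoint h))
      ≤ √(lowSq b mu θ h) + √(2 * d * θ) * (K + 2) := by
  have hD := fam.disp_comp hK hin
  have h0 := (fam.disp_comp hK (i := 0) (n := i) (by omega)).le
  have h1 := (fam.disp_comp hK (i := i + n) (n := m - (i + n)) (by omega)).le
  rw [Nat.zero_add] at h0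
  rw [Nat.add_sub_cancel' hin] at h1
  have hz : InZ v X0 X1 (K + 2) ((compI Φs i n).adjoint h - h) :=
    InZ.extend (hX0.trans h0) hD.le (h1.trans hX1) (by linarith)
      ((hD.bwd h).mono (mul_le_of_le_one_right (by linarith) hh))
  set z := (compI Φs i n).adjoint h - h with hzdef
  have hlz : lowSq b mu θ z ≤ 2 * d * θ * (K + 2) ^ 2 := by
    have h2 : ∀ j ∈ Finset.univ.filter (fun j => mu j ≤ θ),
        ⟪b j, z⟫ ^ 2 ≤ 2 * (K + 2) ^ 2 * θ := by
      intro j hj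
      have hjθ := (Finset.mem_filter.1 hj).2
      have := hZ (K + 2) z (b j) (by linarith) hz
      rw [hb, real_inner_smul_left, real_inner_self_eq_norm_sq, b.orthonormal.1 j, one_pow,
        mul_one, real_inner_comm (b j) z] at this
      exact this.trans (mul_le_mul_of_nonneg_left hjθ (by positivity))
    refine (Finset.sum_le_card_nsmul _ _ _ h2).trans ?_
    rw [nsmul_eq_mul]
    have hcard : ((Finset.univ.filter (fun j => mu j ≤ θ)).card : ℝ) ≤ d := by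
      exact_mod_cast (Finset.card_filter_le _ _).trans_eq (by simp)
    calc _ ≤ (d : ℝ) * (2 * (K + 2) ^ 2 * θ) :=
          mul_le_mul_of_nonneg_right hcard (by positivity)
      _ = _ := by ring
  have hlz' : ‖lowMap b mu θ z‖ ≤ √(2 * d * θ) * (K + 2) := by
    rw [← sqrt_lowSq]
    refine (Real.sqrt_le_sqrt hlz).trans (le_of_eq ?_)
    rw [Real.sqrt_mul (by positivity), Real.sqrt_sq (by linarith)]
  rw [sqrt_lowSq, sqrt_lowSq,
    show (compI Φs i n).adjoint h = h + z by rw [hzdef]; abel, map_add]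
  exact (norm_add_le _ _).trans (by linarith)

/-- After `Q1` chunks a vector without low part has lost two fifths of its norm. -/
theorem traj (hK : 0 ≤ K) (hκ : 0 ≤ κ) (hc : 0 ≤ c) (hν : 0 ≤ ν) (hθ : 0 ≤ θ)
    (hb : ∀ i, M (b i) = mu i • b i) (hmu : ∀ i, 0 ≤ mu i)
    (hZ : ∀ K y t, 0 ≤ K → InZ v X0 X1 K y → ⟪y, t⟫ ^ 2 ≤ 2 * K ^ 2 * ⟪M t, t⟫)
    (fam : ChunkFam v M κ c ν K p Φs m) (hX0 : X0 ≤ p 0) (hX1 : p m ≤ X1)
    (hdrift : √(2 * d * θ) * (K + 2) ≤ 1 / 20) (hQ : 1 ≤ (Q1 : ℝ) * (κ * (c * θ / 8 - ν)))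
    (i n : ℕ) (hin : i + n ≤ m) (hn : Q1 ≤ n) (h : V d) (hh : ‖h‖ ≤ 1)
    (hlow : √(lowSq b mu θ h) ≤ 1 / 20) :
    ‖(compI Φs i n).adjoint h‖ ≤ 3 / 5 := by
  by_contra hcon
  push Not at hcon
  let x : ℕ → V d := fun k => (compI Φs (i + k) (n - k)).adjoint h
  have hx0 : x 0 = (compI Φs i n).adjoint h := by simp [x]
  have hnorm : ∀ k ≤ n, ‖x k‖ ≤ 1 := fun k hk =>
    ((fam.disp_comp hK (i := i + k) (n := n - k) (by omega)).contr' h).trans hh
  have hbig : ∀ k ≤ n, 3 / 5 < ‖x k‖ := by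
    intro k hk
    have hsplit : compI Φs i n = compI Φs (i + k) (n - k) ∘L compI Φs i k := by
      rw [← compI_add, Nat.add_sub_cancel' hk]
    rw [hsplit, ContinuousLinearMap.adjoint_comp, ContinuousLinearMap.comp_apply] at hcon
    exact hcon.trans_le ((fam.disp_comp hK (i := i) (n := k) (by omega)).contr' _)
  set δ := κ * (c * θ / 8 - ν) with hδ
  have hstep : ∀ k < n, ‖x k‖ ^ 2 + δ ≤ ‖x (k + 1)‖ ^ 2 := by
    intro k hk
    have hsplit : compI Φs (i + k) (n - k)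
        = compI Φs (i + (k + 1)) (n - (k + 1)) ∘L Φs (i + k) := by
      rw [show n - k = 1 + (n - (k + 1)) by omega, compI_add, compI_one, Nat.add_assoc]
    have hxk : x k = (Φs (i + k)).adjoint (x (k + 1)) := by
      simp only [x, hsplit, ContinuousLinearMap.adjoint_comp, ContinuousLinearMap.comp_apply]
    have hdef := fam.deficit (i + k) (by omega) (x (k + 1))
    rw [← hxk] at hdef
    have h1 := hnorm (k + 1) (by omega)
    have h2 := hbig (k + 1) (by omega)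
    have hl : lowSq b mu θ (x (k + 1)) ≤ 1 / 100 := by
      have hl1 := fam.low_le (b := b) (mu := mu) hK hθ hb hZ hX0 hX1
        (i := i + (k + 1)) (n := n - (k + 1)) (by omega) hh
      change √(lowSq b mu θ (x (k + 1))) ≤ _ at hl1
      have := (Real.sqrt_le_left (by norm_num : (0 : ℝ) ≤ 1 / 10)).1 (hl1.trans (by linarith))
      linarith
    have hM := high_le b mu θ hb hmu (x (k + 1))
    have hgap : 1 / 8 ≤ ‖x (k + 1)‖ ^ 2 - lowSq b mu θ (x (k + 1)) := by nlinarith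
    have h3 : θ / 8 ≤ ⟪M (x (k + 1)), x (k + 1)⟫ := by
      refine le_trans ?_ hM
      rw [div_eq_mul_one_div]
      exact mul_le_mul_of_nonneg_left hgap hθ
    have h4 : c * θ / 8 - ν ≤ c * ⟪M (x (k + 1)), x (k + 1)⟫ - ν * ‖x (k + 1)‖ ^ 2 := by
      have hsq : ‖x (k + 1)‖ ^ 2 ≤ 1 := pow_le_one₀ (norm_nonneg _) h1
      nlinarith [mul_le_mul_of_nonneg_left h3 hc, mul_le_mul_of_nonneg_left hsq hν]
    have := mul_le_mul_of_nonneg_left h4 hκ
    rw [hδ]; linarith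
  have hsum : ∀ k ≤ n, ‖x 0‖ ^ 2 + k * δ ≤ ‖x k‖ ^ 2 := by
    intro k
    induction k with
    | zero => simp
    | succ k ih =>
      intro hk
      have := ih (by omega)
      have := hstep k hk
      push_cast
      linarith
  have hδ0 : 0 < δ := by
    by_contra hneg
    nlinarith [(Nat.cast_nonneg Q1 : (0 : ℝ) ≤ Q1), not_lt.1 hneg]
  have h1 := hsum n le_rfl
  have h2 : (Q1 : ℝ) * δ ≤ n * δ := mul_le_mul_of_nonneg_right (by exact_mod_cast hn) hδ0.le
  have h3 := pow_le_one₀ (n := 2) (norm_nonneg _) (hnorm n le_rfl)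
  have h4 := hbig 0 (Nat.zero_le n)
  nlinarith

/-- `Q2` groups of `Q1` chunks kill the high directions up to the drift. -/
theorem kill (hK : 0 ≤ K) (hκ : 0 ≤ κ) (hc : 0 ≤ c) (hν : 0 ≤ ν) (hθ : 0 ≤ θ)
    (hb : ∀ i, M (b i) = mu i • b i) (hmu : ∀ i, 0 ≤ mu i)
    (hZ : ∀ K y t, 0 ≤ K → InZ v X0 X1 K y → ⟪y, t⟫ ^ 2 ≤ 2 * K ^ 2 * ⟪M t, t⟫)
    (fam : ChunkFam v M κ c ν K p Φs m) (hX0 : X0 ≤ p 0) (hX1 : p m ≤ X1)
    (hdrift : √(2 * d * θ) * (K + 2) ≤ 1 / 20) (hQ : 1 ≤ (Q1 : ℝ) * (κ * (c * θ / 8 - ν)))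
    (i n Q2 : ℕ) (hin : i + n ≤ m) (hn : Q1 * Q2 ≤ n) (h : V d) (hh : ‖h‖ ≤ 1)
    {δ : ℝ} (hlow : √(lowSq b mu θ h) ≤ δ) :
    ‖(compI Φs i n).adjoint h‖
      ≤ max ((3 / 5) ^ Q2) (20 * (δ + √(2 * d * θ) * (K + 2))) := by
  set T := 20 * (δ + √(2 * d * θ) * (K + 2)) with hT
  have hT0 : 0 ≤ T := by
    have := (Real.sqrt_nonneg (lowSq b mu θ h)).trans hlow
    positivity
  suffices H : ∀ Q2 i, i + Q1 * Q2 ≤ m →
      ‖(compI Φs i (Q1 * Q2)).adjoint h‖ ≤ max ((3 / 5) ^ Q2) T by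
    obtain ⟨r, rfl⟩ : ∃ r, n = r + Q1 * Q2 := ⟨n - Q1 * Q2, by omega⟩
    rw [compI_add, ContinuousLinearMap.adjoint_comp, ContinuousLinearMap.comp_apply]
    exact ((fam.disp_comp hK (i := i) (n := r) (by omega)).contr' _).trans
      (H Q2 (i + r) (by omega))
  intro Q2
  induction Q2 with
  | zero =>
    intro i _
    simpa [ContinuousLinearMap.adjoint_id] using Or.inl hh
  | succ Q ih =>
    intro i hi
    have hmul : Q1 * (Q + 1) = Q1 + Q1 * Q := by ring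
    rw [hmul] at hi
    have hx := ih (i + Q1) (by omega)
    rw [hmul, compI_add, ContinuousLinearMap.adjoint_comp, ContinuousLinearMap.comp_apply]
    set y := (compI Φs (i + Q1) (Q1 * Q)).adjoint h with hy
    have hcontr := (fam.disp_comp hK (i := i) (n := Q1) (by omega)).contr' y
    rcases le_or_gt ‖y‖ T with hsmall | hbig
    · exact (hcontr.trans hsmall).trans (le_max_right _ _)
    · have hy0 : 0 < ‖y‖ := hT0.trans_lt hbig
      have hyQ : ‖y‖ ≤ (3 / 5) ^ Q := by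
        rcases le_max_iff.1 hx with h1 | h1
        · exact h1
        · exact absurd h1 (not_le.2 hbig)
      have hunit : ‖‖y‖⁻¹ • y‖ ≤ 1 := by
        rw [norm_smul, norm_inv, norm_norm, inv_mul_cancel₀ hy0.ne']
      have hly : √(lowSq b mu θ (‖y‖⁻¹ • y)) ≤ 1 / 20 := by
        have h1 := fam.low_le (b := b) (mu := mu) hK hθ hb hZ hX0 hX1
          (i := i + Q1) (n := Q1 * Q) (by omega) hh
        rw [← hy, sqrt_lowSq] at h1
        rw [sqrt_lowSq, map_smul, norm_smul, norm_inv, norm_norm, inv_mul_le_iff₀ hy0]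
        rw [hT] at hbig
        linarith
      have h2 := traj hK hκ hc hν hθ hb hmu hZ fam hX0 hX1 hdrift hQ i Q1 (by omega) le_rfl
        _ hunit hly
      rw [map_smul, norm_smul, norm_inv, norm_norm, inv_mul_le_iff₀ hy0] at h2
      refine h2.trans (le_trans ?_ (le_max_left _ _))
      rw [pow_succ]
      nlinarith

end Kill

end Vale.Agent.P262
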