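import Mathlib
import Vale.Agent.P262.Design
import Vale.Agent.P262.Traj
import Vale.Agent.P262.Params
import Vale.Agent.P262.Maps

/-!
P262, module (C2): spectral calculus of pure designs and the junction operators.
-/

namespace Vale.Agent.P262

open scoped RealInnerProductSpace

variable {d : ℕ}

/-- The operator which is diagonal in the basis `b` with entries `g`. -/
noncomputable def diagOp {d : ℕ} (b : OrthonormalBasis (Fin d) ℝ (V d)) (g : Fin d → ℝ) :
    V d →L[ℝ] V d :=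
  ∑ i, g i • (innerSL ℝ (b i)).smulRight (b i)

/-- Span of the eigen directions above the threshold `th2`. -/
noncomputable def hiSpan {d : ℕ} (b : OrthonormalBasis (Fin d) ℝ (V d)) (mu : Fin d → ℝ) :
    Submodule ℝ (V d) := Submodule.span ℝ (b '' {i | th2 d < mu i})

section Diag

variable (b : OrthonormalBasis (Fin d) ℝ (V d))

lemma diagOp_apply (g : Fin d → ℝ) (x : V d) :
    diagOp b g x = ∑ i, (g i * ⟪b i, x⟫) • b i := by
  simp [diagOp, smul_smul]

lemma inner_basis_diagOp (g : Fin d → ℝ) (x : V d) (j : Fin d) :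
    ⟪b j, diagOp b g x⟫ = g j * ⟪b j, x⟫ := by
  rw [diagOp_apply]
  exact b.orthonormal.inner_right_fintype _ j

lemma ext_inner_basis {x y : V d} (h : ∀ i, ⟪b i, x⟫ = ⟪b i, y⟫) : x = y := by
  rw [← b.sum_repr' x, ← b.sum_repr' y]
  exact Finset.sum_congr rfl fun i _ => by rw [h i]

lemma diagOp_basis (g : Fin d → ℝ) (j : Fin d) : diagOp b g (b j) = g j • b j := by
  refine ext_inner_basis b fun i => ?_
  rw [inner_basis_diagOp, real_inner_smul_right]
  rcases eq_or_ne i j with rfl | h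
  · rfl
  · rw [b.orthonormal.2 h]; ring

lemma adjoint_diagOp (g : Fin d → ℝ) : (diagOp b g).adjoint = diagOp b g := by
  symm
  rw [ContinuousLinearMap.eq_adjoint_iff]
  intro x y
  rw [← b.sum_inner_mul_inner, ← b.sum_inner_mul_inner x]
  refine Finset.sum_congr rfl fun i _ => ?_
  rw [inner_basis_diagOp, real_inner_comm (b i) (diagOp b g x), inner_basis_diagOp,
    real_inner_comm (b i) x]
  ring

lemma diagOp_comp (g h : Fin d → ℝ) (x : V d) :
    diagOp b g (diagOp b h x) = diagOp b (fun i => g i * h i) x := by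
  refine ext_inner_basis b fun i => ?_
  simp only [inner_basis_diagOp]
  ring

lemma diagOp_one (x : V d) : diagOp b (fun _ => 1) x = x := by
  refine ext_inner_basis b fun i => ?_
  rw [inner_basis_diagOp, one_mul]

lemma diagOp_sub (g h : Fin d → ℝ) (x : V d) :
    diagOp b (fun i => g i - h i) x = diagOp b g x - diagOp b h x := by
  refine ext_inner_basis b fun i => ?_
  rw [inner_sub_right]
  simp only [inner_basis_diagOp]
  ring

lemma norm_diagOp_sq (g : Fin d → ℝ) (x : V d) :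
    ‖diagOp b g x‖ ^ 2 = ∑ i, (g i * ⟪b i, x⟫) ^ 2 := by
  rw [← b.sum_sq_inner_right]
  exact Finset.sum_congr rfl fun i _ => by rw [inner_basis_diagOp]

lemma norm_diagOp_le {g : Fin d → ℝ} {c : ℝ} (hc : 0 ≤ c) (hg : ∀ i, |g i| ≤ c) (x : V d) :
    ‖diagOp b g x‖ ≤ c * ‖x‖ := by
  refine le_of_pow_le_pow_left₀ two_ne_zero (mul_nonneg hc (norm_nonneg x)) ?_
  rw [norm_diagOp_sq, mul_pow, ← b.sum_sq_inner_right x, Finset.mul_sum]
  refine Finset.sum_le_sum fun i _ => ?_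
  rw [mul_pow]
  exact mul_le_mul_of_nonneg_right (sq_le_sq' (abs_le.1 (hg i)).1 (abs_le.1 (hg i)).2) (sq_nonneg _)

lemma inner_diagOp_self (g : Fin d → ℝ) (x : V d) :
    ⟪diagOp b g x, x⟫ = ∑ i, g i * ⟪b i, x⟫ ^ 2 :=
  inner_map_self b g (fun i => diagOp_basis b g i) x

lemma eq_diagOp {M : V d →L[ℝ] V d} {mu : Fin d → ℝ} (hb : ∀ i, M (b i) = mu i • b i) (x : V d) :
    M x = diagOp b mu x := by
  conv_lhs => rw [← b.sum_repr' x]
  rw [map_sum, diagOp_apply]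
  refine Finset.sum_congr rfl fun i _ => ?_
  rw [map_smul, hb, smul_smul, mul_comm]

variable (mu : Fin d → ℝ)

lemma basis_mem_hiSpan {i : Fin d} (h : th2 d < mu i) : b i ∈ hiSpan b mu :=
  Submodule.subset_span ⟨i, h, rfl⟩

lemma inner_eq_zero_of_mem_hiSpan {h : V d} (hh : h ∈ hiSpan b mu) {i : Fin d}
    (hi : ¬ th2 d < mu i) : ⟪b i, h⟫ = 0 := by
  induction hh using Submodule.span_induction with
  | mem u hu =>
    obtain ⟨j, hj, rfl⟩ := hu
    exact b.orthonormal.2 fun e => hi (e ▸ hj)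
  | zero => simp
  | add a c _ _ ha hc => simp [inner_add_right, ha, hc]
  | smul r a _ ha => simp [real_inner_smul_right, ha]

lemma diagOp_mem_hiSpan {g : Fin d → ℝ} (hg : ∀ i, ¬ th2 d < mu i → g i = 0) (x : V d) :
    diagOp b g x ∈ hiSpan b mu := by
  rw [diagOp_apply]
  refine Submodule.sum_mem _ fun i _ => ?_
  by_cases h : th2 d < mu i
  · exact Submodule.smul_mem _ _ (basis_mem_hiSpan b mu h)
  · simp [hg i h]

lemma starProjection_hiSpan (x : V d) :
    (hiSpan b mu).starProjection x = diagOp b (fun i => if th2 d < mu i then 1 else 0) x := by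
  refine Submodule.eq_starProjection_of_mem_of_inner_eq_zero
    (diagOp_mem_hiSpan b mu (fun i h => if_neg h) x) fun w hw => ?_
  rw [← b.sum_inner_mul_inner]
  refine Finset.sum_eq_zero fun i _ => ?_
  by_cases h : th2 d < mu i
  · rw [inner_sub_left, real_inner_comm (b i) x, real_inner_comm (b i), inner_basis_diagOp,
      if_pos h]
    ring
  · rw [inner_eq_zero_of_mem_hiSpan b mu hw h, mul_zero]

lemma starProjection_hiSpan_orthogonal (x : V d) :
    (hiSpan b mu)ᗮ.starProjection x = diagOp b (fun i => if th2 d < mu i then 0 else 1) x := by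
  have h := (hiSpan b mu).starProjection_add_starProjection_orthogonal x
  rw [starProjection_hiSpan] at h
  rw [eq_sub_of_add_eq' h]
  nth_rw 1 [← diagOp_one b x]
  rw [← diagOp_sub]
  congr 2
  funext i
  split_ifs <;> norm_num

end Diag

/-- The pure design of an interval in an eigen basis. -/
structure Pure {d : ℕ} (v : ℕ → V d) (s e : ℕ) (M : V d →L[ℝ] V d)
    (b : OrthonormalBasis (Fin d) ℝ (V d)) (mu : Fin d → ℝ) : Prop where
  eig : ∀ i, M (b i) = mu i • b i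
  nonneg : ∀ i, 0 ≤ mu i
  le : ∀ i, mu i ≤ d
  realise : ∀ t, InZ v s e (√d * √⟪M t, t⟫) (M t)
  bound : ∀ K z t, 0 ≤ K → InZ v s e K z → ⟪z, t⟫ ^ 2 ≤ 2 * K ^ 2 * ⟪M t, t⟫
  le_reg : ∀ (ν : ℝ) t, 0 < ν → ⟪M t, t⟫ ≤ 2 * d * (⟪regOp v ν s e t, t⟫ + ν * ‖t‖ ^ 2)

theorem exists_pure {v : ℕ → V d} {s e : ℕ} (hd : 1 ≤ d) (hse : s ≤ e) :
    ∃ M b mu, Pure v s e M b mu := by
  obtain ⟨M, hsym, hpos, hle, hreal, hbd, hreg⟩ := exists_pureDesign (v := v) hd hse
  have hS : (M : V d →ₗ[ℝ] V d).IsSymmetric := fun x y => hsym x y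
  have hn : Module.finrank ℝ (V d) = d := finrank_euclideanSpace_fin
  set b := hS.eigenvectorBasis hn with hb
  set mu := hS.eigenvalues hn with hmu
  have heig : ∀ i, M (b i) = mu i • b i := fun i => hS.apply_eigenvectorBasis hn i
  have hval : ∀ i, ⟪M (b i), b i⟫ = mu i := fun i => by
    rw [heig, real_inner_smul_left, real_inner_self_eq_norm_sq, b.orthonormal.1 i, one_pow, mul_one]
  refine ⟨M, b, mu, heig, fun i => hval i ▸ hpos (b i), fun i => ?_, hreal, ?_, hreg⟩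
  · have := hle (b i)
    rwa [hval, b.orthonormal.1 i, one_pow, mul_one] at this
  · intro K z t hK hz
    rcases hK.eq_or_lt with rfl | hK0
    · have : z = 0 := norm_le_zero_iff.1 (hz.norm_le hse)
      simp [this]
    · have h1 : InZ v s e 1 (K⁻¹ • z) := by
        have := hz.smul K⁻¹
        rwa [abs_of_pos (inv_pos.2 hK0), inv_mul_cancel₀ hK0.ne'] at this
      have h2 := hbd _ t h1
      rw [real_inner_smul_left, mul_pow] at h2
      have h3 := mul_le_mul_of_nonneg_left h2 (sq_nonneg K)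
      rw [← mul_assoc, ← mul_pow, mul_inv_cancel₀ hK0.ne', one_pow, one_mul] at h3
      linarith

namespace Pure

variable {v : ℕ → V d} {r e : ℕ} {M : V d →L[ℝ] V d} {b : OrthonormalBasis (Fin d) ℝ (V d)}
  {mu : Fin d → ℝ}

/-- A displacement leaves the high subspace by very little. -/
theorem drift (hP : Pure v r e M b mu) {K : ℝ} {y : V d} (hK : 0 ≤ K) (h : InZ v r e K y) :
    ‖(hiSpan b mu)ᗮ.starProjection y‖ ≤ K * eta d := by
  have hD := DD_pos (d := d)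
  refine le_of_pow_le_pow_left₀ two_ne_zero (by unfold eta; positivity) ?_
  rw [starProjection_hiSpan_orthogonal, norm_diagOp_sq]
  have hi : ∀ i ∈ (Finset.univ : Finset (Fin d)),
      ((if th2 d < mu i then (0 : ℝ) else 1) * ⟪b i, y⟫) ^ 2 ≤ 2 * K ^ 2 * th2 d := by
    intro i _
    split_ifs with hh
    · have : 0 ≤ th2 d := by unfold th2; positivity
      rw [zero_mul, zero_pow two_ne_zero]
      exact mul_nonneg (mul_nonneg zero_le_two (sq_nonneg K)) this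
    · have := hP.bound K y (b i) hK h
      rw [hP.eig, real_inner_smul_left, real_inner_self_eq_norm_sq, b.orthonormal.1 i, one_pow,
        mul_one] at this
      rw [one_mul, real_inner_comm y (b i)]
      exact this.trans (mul_le_mul_of_nonneg_left (not_lt.1 hh) (by positivity))
  refine (Finset.sum_le_card_nsmul _ _ _ hi).trans ?_
  rw [Finset.card_univ, Fintype.card_fin, nsmul_eq_mul, mul_pow]
  have h1 : (d : ℝ) * 2 * th2 d ≤ eta d ^ 2 := by
    unfold th2 eta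
    calc (d : ℝ) * 2 * ((DD d) ^ 200)⁻¹ ≤ 2 * DD d ^ 1 * ((DD d) ^ 200)⁻¹ := by
          refine mul_le_mul_of_nonneg_right ?_ (by positivity)
          rw [pow_one]; linarith [natCast_le_DD (d := d)]
      _ ≤ ((DD d) ^ 180)⁻¹ := const_DD_div_le (k := 1) (by norm_num) (by norm_num)
      _ = _ := by rw [inv_pow, ← pow_mul]
  calc (d : ℝ) * (2 * K ^ 2 * th2 d) = K ^ 2 * ((d : ℝ) * 2 * th2 d) := by ring
    _ ≤ K ^ 2 * eta d ^ 2 := mul_le_mul_of_nonneg_left h1 (sq_nonneg K)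

/-- Vectors of the high subspace are displacements. -/
theorem hi_realise (hP : Pure v r e M b mu) (hgap : ∀ i, mu i ≤ th2 d ∨ thHi d ≤ mu i) {h : V d}
    (hh : h ∈ hiSpan b mu) : InZ v r e (DD d ^ 7 * ‖h‖) h := by
  have hD := DD_pos (d := d)
  set g : Fin d → ℝ := fun i => if th2 d < mu i then (mu i)⁻¹ else 0 with hg
  set u := diagOp b g h with hu
  have hmupos : ∀ i, th2 d < mu i → 0 < mu i := fun i hi =>
    lt_trans (by unfold th2; positivity) hi
  have hMu : M u = h := by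
    rw [eq_diagOp b hP.eig, hu, diagOp_comp]
    refine ext_inner_basis b fun i => ?_
    rw [inner_basis_diagOp, hg]
    by_cases hi : th2 d < mu i
    · simp [hi, mul_inv_cancel₀ (hmupos i hi).ne']
    · simp [inner_eq_zero_of_mem_hiSpan b mu hh hi]
  have hq : ⟪M u, u⟫ ≤ DD d ^ 11 * ‖h‖ ^ 2 := by
    rw [inner_map_self b mu hP.eig, ← b.sum_sq_inner_right h, Finset.mul_sum]
    refine Finset.sum_le_sum fun i _ => ?_
    rw [hu, inner_basis_diagOp, hg]
    by_cases hi : th2 d < mu i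
    · have h1 : thHi d ≤ mu i := (hgap i).resolve_left (not_le.2 hi)
      have h2 : (mu i)⁻¹ ≤ DD d ^ 11 := by
        rw [thHi] at h1
        have := inv_anti₀ (by positivity) h1
        rwa [inv_inv] at this
      simp only [if_pos hi]
      calc mu i * ((mu i)⁻¹ * ⟪b i, h⟫) ^ 2 = (mu i)⁻¹ * ⟪b i, h⟫ ^ 2 := by
            have := (hmupos i hi).ne'
            field_simp
        _ ≤ _ := mul_le_mul_of_nonneg_right h2 (sq_nonneg _)
    · simp only [if_neg hi]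
      simp only [zero_mul, ne_eq, OfNat.ofNat_ne_zero, not_false_eq_true, zero_pow, mul_zero]
      positivity
  have hr := hP.realise u
  rw [hMu] at hr
  rw [hMu] at hq
  refine hr.mono ?_
  rw [← Real.sqrt_mul (Nat.cast_nonneg d), Real.sqrt_le_left (by positivity)]
  calc (d : ℝ) * ⟪h, u⟫ ≤ (d : ℝ) * (DD d ^ 11 * ‖h‖ ^ 2) :=
        mul_le_mul_of_nonneg_left hq (Nat.cast_nonneg d)
    _ ≤ DD d ^ 1 * (DD d ^ 11 * ‖h‖ ^ 2) := by
        rw [pow_one]; exact mul_le_mul_of_nonneg_right natCast_le_DD (by positivity)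
    _ = DD d ^ 12 * ‖h‖ ^ 2 := by ring
    _ ≤ DD d ^ 14 * ‖h‖ ^ 2 := mul_le_mul_of_nonneg_right (DD_pow_mono (by norm_num)) (sq_nonneg _)
    _ = (DD d ^ 7 * ‖h‖) ^ 2 := by ring

/-- The drift map is realised by displacements. -/
theorem drift_realise (hP : Pure v r e M b mu) (x : V d) :
    InZ v r e (kap d * DD d * ‖x‖) (diagOp b (fun i => kap d * √(mu i)) x) := by
  have hD := DD_pos (d := d)
  have hk : 0 ≤ kap d := by unfold kap; positivity
  set u := diagOp b (fun i => kap d * (√(mu i))⁻¹) x with hu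
  have hMu : M u = diagOp b (fun i => kap d * √(mu i)) x := by
    rw [eq_diagOp b hP.eig, hu, diagOp_comp]
    congr 2
    funext i
    rw [← mul_assoc, mul_comm (mu i) (kap d), mul_assoc, ← div_eq_mul_inv, Real.div_sqrt]
  have hq : ⟪M u, u⟫ ≤ kap d ^ 2 * ‖x‖ ^ 2 := by
    rw [inner_map_self b mu hP.eig, ← b.sum_sq_inner_right x, Finset.mul_sum]
    refine Finset.sum_le_sum fun i _ => ?_
    rw [hu, inner_basis_diagOp, mul_pow, mul_pow, inv_pow, Real.sq_sqrt (hP.nonneg i)]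
    rcases (hP.nonneg i).eq_or_lt with h0 | h0
    · rw [← h0]; simp only [zero_mul]; positivity
    · exact le_of_eq (by field_simp)
  have hr := hP.realise u
  rw [hMu] at hr hq
  refine hr.mono ?_
  rw [← Real.sqrt_mul (Nat.cast_nonneg d), Real.sqrt_le_left (by positivity)]
  calc (d : ℝ) * ⟪_, u⟫ ≤ (d : ℝ) * (kap d ^ 2 * ‖x‖ ^ 2) :=
        mul_le_mul_of_nonneg_left hq (Nat.cast_nonneg d)
    _ ≤ DD d ^ 2 * (kap d ^ 2 * ‖x‖ ^ 2) := by
        refine mul_le_mul_of_nonneg_right ?_ (by positivity)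
        calc (d : ℝ) ≤ DD d ^ 1 := by rw [pow_one]; exact natCast_le_DD
          _ ≤ DD d ^ 2 := DD_pow_mono (by norm_num)
    _ = _ := by ring

private lemma coord_high {X η σO σ1 g c : ℝ} (hX : 100 ≤ X) (hη0 : 0 ≤ η)
    (hη : η ^ 2 ≤ (X ^ 8)⁻¹) (hg0 : 0 ≤ g) (hg1 : g ≤ 1) (h0 : 0 ≤ σ1)
    (h1 : σ1 + (X ^ 3)⁻¹ ≤ σO) (h2 : σO ≤ 2) :
    σO ^ 2 * ((η ^ 2 + (X ^ 8)⁻¹) * (g * c) ^ 2) + (σ1 * (1 + 10 * (X ^ 4)⁻¹) * c) ^ 2
      ≤ σO ^ 2 * c ^ 2 := by
  have _ := hη0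
  have hXp : 0 < X := by linarith
  have hp : 0 < (X ^ 3)⁻¹ := by positivity
  have hσ : (X ^ 3)⁻¹ ≤ σO := by linarith
  have hgi : g ^ 2 ≤ 1 := pow_le_one₀ hg0 hg1
  have hA : σ1 * (1 + 10 * (X ^ 4)⁻¹) ≤ σO - (X ^ 3)⁻¹ / 2 := by
    have hu : X⁻¹ ≤ 1 / 100 := by rw [one_div]; exact inv_anti₀ (by norm_num) hX
    have e2 : 20 * (X ^ 4)⁻¹ ≤ (X ^ 3)⁻¹ / 2 := by
      rw [pow_succ X 3, mul_inv]
      nlinarith
    have : σ1 * (10 * (X ^ 4)⁻¹) ≤ 2 * (10 * (X ^ 4)⁻¹) :=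
      mul_le_mul_of_nonneg_right (by linarith) (by positivity)
    linarith
  have hA0 : 0 ≤ σ1 * (1 + 10 * (X ^ 4)⁻¹) := by positivity
  have hA2 := pow_le_pow_left₀ hA0 hA 2
  have e3 : σO ^ 2 * (η ^ 2 + (X ^ 8)⁻¹) ≤ 8 * (X ^ 8)⁻¹ := by
    have h4 : σO ^ 2 ≤ 4 := by nlinarith
    calc σO ^ 2 * (η ^ 2 + (X ^ 8)⁻¹) ≤ 4 * (2 * (X ^ 8)⁻¹) :=
          mul_le_mul h4 (by linarith) (by positivity) (by norm_num)
      _ = _ := by ring
  have e4 : 16 * (X ^ 8)⁻¹ ≤ (X ^ 6)⁻¹ := by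
    rw [show X ^ 8 = X ^ 6 * X ^ 2 by ring, mul_inv, mul_left_comm]
    refine mul_le_of_le_one_right (by positivity) ?_
    rw [mul_inv_le_iff₀ (by positivity)]
    nlinarith
  have e5 : (X ^ 6)⁻¹ ≤ σO * (X ^ 3)⁻¹ := by
    rw [show X ^ 6 = X ^ 3 * X ^ 3 by ring, mul_inv]
    exact mul_le_mul_of_nonneg_right hσ hp.le
  have key : σO ^ 2 * (η ^ 2 + (X ^ 8)⁻¹) + (σ1 * (1 + 10 * (X ^ 4)⁻¹)) ^ 2 ≤ σO ^ 2 := by
    nlinarith
  calc _ = (σO ^ 2 * (η ^ 2 + (X ^ 8)⁻¹) * g ^ 2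
          + (σ1 * (1 + 10 * (X ^ 4)⁻¹)) ^ 2) * c ^ 2 := by ring
    _ ≤ σO ^ 2 * c ^ 2 := by
        refine mul_le_mul_of_nonneg_right (le_trans (add_le_add ?_ le_rfl) key) (sq_nonneg c)
        exact mul_le_of_le_one_right (by positivity) hgi

private lemma coord_low {X σO k G q g c : ℝ} (hXp : 0 < X) (hσ : (X ^ 3)⁻¹ ≤ σO) (hq0 : 0 ≤ q)
    (hgq : g = 1 - k * q) (hg0 : 0 ≤ g) (hg1 : g ≤ 1) (hG0 : 0 ≤ G)
    (hbig : q * (G + X ^ 46) ≤ k) :
    σO ^ 2 * ((g * c) ^ 2 + G * (q ^ 2 * (g * c) ^ 2)) + (X ^ 20 * q * c) ^ 2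
      ≤ σO ^ 2 * c ^ 2 := by
  have hgg : g ^ 2 ≤ g := by rw [sq]; exact mul_le_of_le_one_left hg0 hg1
  have hm : 0 ≤ q ^ 2 * G := by positivity
  have h6 : g ^ 2 * (1 + q ^ 2 * G) ≤ g + q ^ 2 * G := by
    have e1 := mul_le_mul_of_nonneg_right hgg (by positivity : (0 : ℝ) ≤ 1 + q ^ 2 * G)
    have e2 := mul_le_of_le_one_left hm hg1
    linarith
  have hbq := mul_le_mul_of_nonneg_left hbig hq0
  have hmain : g ^ 2 * (1 + q ^ 2 * G) + X ^ 46 * q ^ 2 ≤ 1 := by nlinarith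
  have hσ2 : X ^ 40 ≤ σO ^ 2 * X ^ 46 := by
    have := pow_le_pow_left₀ (by positivity) hσ 2
    calc X ^ 40 = ((X ^ 3)⁻¹) ^ 2 * X ^ 46 := by field_simp
      _ ≤ _ := mul_le_mul_of_nonneg_right this (by positivity)
  calc _ = (σO ^ 2 * (g ^ 2 * (1 + q ^ 2 * G)) + X ^ 40 * q ^ 2) * c ^ 2 := by ring
    _ ≤ σO ^ 2 * c ^ 2 := by
        refine mul_le_mul_of_nonneg_right ?_ (sq_nonneg c)
        calc _ ≤ σO ^ 2 * (g ^ 2 * (1 + q ^ 2 * G)) + σO ^ 2 * X ^ 46 * q ^ 2 :=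
              add_le_add le_rfl (mul_le_mul_of_nonneg_right hσ2 (sq_nonneg q))
          _ = σO ^ 2 * (g ^ 2 * (1 + q ^ 2 * G) + X ^ 46 * q ^ 2) := by ring
          _ ≤ σO ^ 2 := mul_le_of_le_one_right (sq_nonneg _) hmain

/-- The junction operators keep the Gaussian in the convex order. -/
theorem domination (hP : Pure v r e M b mu) (hd : 1 ≤ d)
    (hgap : ∀ i, mu i ≤ th2 d ∨ thHi d ≤ mu i) (Φ : V d →L[ℝ] V d) (hD : Disp v r e (KP d) Φ)
    (hkill : ∀ h ∈ hiSpan b mu, ‖Φ.adjoint h‖ ≤ eta' d * ‖h‖) {σO σ1 : ℝ}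
    (h0 : 0 ≤ σ1) (h1 : σ1 + (DD d ^ 3)⁻¹ ≤ σO) (h2 : σO ≤ 2) :
    let T := Φ - diagOp b (fun i => kap d * √(mu i)) ∘L Φ
    let A := diagOp b
      (fun i => if th2 d < mu i then σ1 * (1 + 10 * (DD d ^ 4)⁻¹) else DD d ^ 20 * √(mu i))
    (∀ x, ‖T x‖ ≤ ‖x‖) ∧
      ∀ t, σO ^ 2 * ‖T.adjoint t‖ ^ 2 + ‖A.adjoint t‖ ^ 2 ≤ σO ^ 2 * ‖t‖ ^ 2 := by
  intro T A
  have _ := hd
  have _ := hgap
  have hDp := DD_pos (d := d)
  set X : ℝ := DD d with hX
  set k : ℝ := kap d with hk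
  have hk0 : 0 ≤ k := by rw [hk]; unfold kap; positivity
  have hk1 : ∀ i, k * √(mu i) ≤ 1 := by
    intro i
    have hm : √(mu i) ≤ X := by
      rw [Real.sqrt_le_left hDp.le]
      nlinarith [hP.le i, natCast_le_DD (d := d), one_le_DD (d := d), hX]
    calc k * √(mu i) ≤ (X ^ 30)⁻¹ * X := by
          rw [hk]; exact mul_le_mul_of_nonneg_left hm (by positivity)
      _ ≤ (X ^ 1)⁻¹ * X :=
          mul_le_mul_of_nonneg_right (inv_DD_pow_anti (by norm_num)) hDp.le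
      _ = 1 := by rw [pow_one]; exact inv_mul_cancel₀ hDp.ne'
  set E := diagOp b (fun i => k * √(mu i)) with hE
  set g : Fin d → ℝ := fun i => 1 - k * √(mu i) with hg
  have hg0 : ∀ i, 0 ≤ g i := fun i => by simp only [hg]; linarith [hk1 i]
  have hg1 : ∀ i, g i ≤ 1 := fun i => by
    simp only [hg]; linarith [mul_nonneg hk0 (Real.sqrt_nonneg (mu i))]
  have h1E : ∀ x, x - E x = diagOp b g x := fun x => by
    rw [hg, diagOp_sub, diagOp_one, hE]
  refine ⟨fun x => ?_, fun t => ?_⟩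
  · show ‖Φ x - E (Φ x)‖ ≤ ‖x‖
    rw [h1E]
    refine (norm_diagOp_le b zero_le_one (fun i => ?_) _).trans ?_
    · rw [abs_of_nonneg (hg0 i)]; exact hg1 i
    · rw [one_mul]; exact hD.contr x
  set s := diagOp b g t with hs
  have hT : T.adjoint t = Φ.adjoint s := by
    show (Φ - E ∘L Φ).adjoint t = _
    rw [map_sub, ContinuousLinearMap.adjoint_comp, hE, adjoint_diagOp]
    simp only [sub_apply, ContinuousLinearMap.comp_apply]
    rw [← map_sub, ← hE, h1E]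
  set sh := diagOp b (fun i => if th2 d < mu i then 1 else 0) s with hsh
  set sl := diagOp b (fun i => if th2 d < mu i then 0 else 1) s with hsl
  have hsum : sh + sl = s := by
    refine ext_inner_basis b fun i => ?_
    simp only [inner_add_right, hsh, hsl, inner_basis_diagOp]
    split_ifs <;> ring
  have horth : ⟪sl, sh⟫ = 0 := by
    rw [← b.sum_inner_mul_inner]
    refine Finset.sum_eq_zero fun i _ => ?_
    rw [real_inner_comm (b i) sl]
    simp only [hsh, hsl, inner_basis_diagOp]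
    split_ifs <;> ring
  have hmem : sh ∈ hiSpan b mu := diagOp_mem_hiSpan b mu (fun i h => if_neg h) s
  have hKP : 0 ≤ KP d := by unfold KP; positivity
  set w := Φ.adjoint sh with hw
  have hz : InZ v r e (2 * KP d * ‖sh‖) (Φ w - sh) := by
    have a := ((hD.fwd w).mono (mul_le_mul_of_nonneg_left (hD.contr' sh) hKP))
    have := a.add (hD.bwd sh)
    rw [← hw, sub_add_sub_cancel] at this
    exact this.mono (by linarith)
  have hcross : 2 * ⟪w, Φ.adjoint sl⟫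
      ≤ (X ^ 8)⁻¹ * ‖sh‖ ^ 2 + 8 * KP d ^ 2 * X ^ 8 * ⟪M sl, sl⟫ := by
    have hb := hP.bound _ _ sl (by positivity) hz
    have he : ⟪w, Φ.adjoint sl⟫ = ⟪Φ w - sh, sl⟫ := by
      rw [ContinuousLinearMap.adjoint_inner_right, inner_sub_left, real_inner_comm sl sh, horth,
        sub_zero]
    rw [he]
    set q := ⟪Φ w - sh, sl⟫
    set m := ⟪M sl, sl⟫
    have hm0 : 0 ≤ m := by
      show 0 ≤ ⟪M sl, sl⟫
      rw [inner_map_self b mu hP.eig]
      exact Finset.sum_nonneg fun i _ => mul_nonneg (hP.nonneg i) (sq_nonneg _)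
    have hpos : 0 < X ^ 8 := by positivity
    have hsqrt : |q| ≤ √(8 * KP d ^ 2 * m) * ‖sh‖ := by
      rw [← Real.sqrt_sq (norm_nonneg sh), ← Real.sqrt_mul (by positivity)]
      apply Real.abs_le_sqrt
      nlinarith
    set a := √(8 * KP d ^ 2 * m) with ha
    have ha2 : a ^ 2 = 8 * KP d ^ 2 * m := Real.sq_sqrt (by positivity)
    calc 2 * q ≤ 2 * (a * ‖sh‖) := by linarith [le_abs_self q]
      _ ≤ (X ^ 8)⁻¹ * ‖sh‖ ^ 2 + X ^ 8 * a ^ 2 := by
          have e1 : (X ^ 8)⁻¹ * ‖sh‖ ^ 2 + X ^ 8 * a ^ 2 - 2 * (a * ‖sh‖)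
              = (X ^ 8)⁻¹ * (‖sh‖ - X ^ 8 * a) ^ 2 := by field_simp; ring
          have : 0 ≤ (X ^ 8)⁻¹ * (‖sh‖ - X ^ 8 * a) ^ 2 := by positivity
          linarith
      _ = _ := by rw [ha2]; ring
  have hnorm : ‖Φ.adjoint s‖ ^ 2
      ≤ (eta' d ^ 2 + (X ^ 8)⁻¹) * ‖sh‖ ^ 2
        + (‖sl‖ ^ 2 + 8 * KP d ^ 2 * X ^ 8 * ⟪M sl, sl⟫) := by
    rw [← hsum, map_add, norm_add_sq_real, ← hw]
    have a1 := pow_le_pow_left₀ (norm_nonneg _) (hkill sh hmem) 2
    have a2 := pow_le_pow_left₀ (norm_nonneg _) (hD.contr' sl) 2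
    rw [← hw, mul_pow] at a1
    linarith
  rw [hT]
  refine le_trans (add_le_add (mul_le_mul_of_nonneg_left hnorm (sq_nonneg σO)) le_rfl) ?_
  rw [show A.adjoint t = A t by simp only [A, adjoint_diagOp], inner_map_self b mu hP.eig]
  simp only [A, hsh, hsl, norm_diagOp_sq]
  rw [← b.sum_sq_inner_right t]
  simp only [inner_basis_diagOp, hs, Finset.mul_sum, ← Finset.sum_add_distrib]
  refine Finset.sum_le_sum fun i _ => ?_
  by_cases hi : th2 d < mu i
  · simp only [if_pos hi, zero_mul, one_mul, zero_pow two_ne_zero, mul_zero, add_zero]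
    refine coord_high (X := X) DD_ge (by unfold eta'; positivity) ?_ (hg0 i) (hg1 i) h0 h1 h2
    rw [eta', inv_pow, ← pow_mul]
    exact inv_DD_pow_anti (by norm_num)
  · simp only [if_neg hi, zero_mul, one_mul, zero_pow two_ne_zero, mul_zero, zero_add]
    have hmu : mu i ≤ th2 d := not_lt.1 hi
    have hq2 : √(mu i) ^ 2 = mu i := Real.sq_sqrt (hP.nonneg i)
    have hqs : √(mu i) ≤ (X ^ 100)⁻¹ := by
      rw [Real.sqrt_le_left (by positivity)]
      refine hmu.trans (le_of_eq ?_)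
      rw [th2, inv_pow, ← pow_mul]
    have hbig : √(mu i) * (8 * KP d ^ 2 * X ^ 8 + X ^ 46) ≤ k := by
      have e1 : 8 * KP d ^ 2 * X ^ 8 ≤ X ^ 46 := by
        rw [KP, show 8 * (DD d ^ 4) ^ 2 * X ^ 8 = 8 * DD d ^ 16 by rw [hX]; ring]
        exact const_mul_DD_pow_le (k := 1) (by norm_num) (by norm_num)
      calc √(mu i) * (8 * KP d ^ 2 * X ^ 8 + X ^ 46) ≤ (X ^ 100)⁻¹ * (2 * X ^ 46) :=
            mul_le_mul hqs (by linarith) (by positivity) (by positivity)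
        _ = 2 * X ^ 46 * (X ^ 100)⁻¹ := by ring
        _ ≤ k := by
            rw [hk, kap]
            exact const_DD_div_le (k := 1) (by norm_num) (by norm_num)
    have hlow := coord_low (c := ⟪b i, t⟫) hDp
      (show (X ^ 3)⁻¹ ≤ σO by linarith) (Real.sqrt_nonneg (mu i)) (g := g i) (k := k) rfl
      (hg0 i) (hg1 i) (by positivity : (0 : ℝ) ≤ 8 * KP d ^ 2 * X ^ 8) hbig
    rw [hq2] at hlow
    exact hlow

end Pure

end Vale.Agent.P262
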