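import Vale.Agent.P262.Extra

/-!
Splitting a convex function into one main direction and small coordinate perturbations.
-/

namespace Vale.Agent.P262

open Finset
open scoped RealInnerProductSpace

variable {d : ℕ}

/-- Weight reserved for the coordinate perturbations. -/
noncomputable def lam (d : ℕ) : ℝ := (DD d ^ 4)⁻¹

lemma lam_bounds : 0 < lam d ∧ lam d ≤ 1 / 100 := by
  refine ⟨inv_pos.2 (pow_pos DD_pos _), ?_⟩
  rw [lam, one_div]
  refine inv_anti₀ (by norm_num) ?_
  calc (100 : ℝ) ≤ DD d ^ 1 := by rw [pow_one]; exact DD_ge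
    _ ≤ DD d ^ 4 := DD_pow_mono (by norm_num)

/-- Affine interpolation on a segment. -/
lemma convex_interp {f : V d → ℝ} (hf : Adm f) (c h : V d) {x R : ℝ} (hx : |x| ≤ R) :
    f (c + x • h) ≤ (f (c + R • h) + f (c - R • h)) / 2
      + (f (c + R • h) - f (c - R • h)) / 2 * (x / R) := by
  rcases eq_or_lt_of_le ((abs_nonneg x).trans hx) with h0 | h0
  · obtain rfl : x = 0 := abs_nonpos_iff.1 (h0 ▸ hx)
    simp [← h0]
  obtain ⟨hx1, hx2⟩ := abs_le.1 hx
  have hp : (0 : ℝ) ≤ (1 + x / R) / 2 := by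
    have : -1 ≤ x / R := by rw [le_div_iff₀ h0]; linarith
    linarith
  have hm : (0 : ℝ) ≤ (1 - x / R) / 2 := by
    have : x / R ≤ 1 := by rw [div_le_one h0]; linarith
    linarith
  have h1 := hf.convex.2 (Set.mem_univ (c + R • h)) (Set.mem_univ (c - R • h)) hp hm (by ring)
  have e : ((1 + x / R) / 2) • (c + R • h) + ((1 - x / R) / 2) • (c - R • h) = c + x • h := by
    match_scalars <;> field_simp <;> ring
  rw [e, smul_eq_mul, smul_eq_mul] at h1
  linarith

/-- Slope vector of the split. -/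
noncomputable def slope (b : OrthonormalBasis (Fin d) ℝ (V d)) (f : V d → ℝ) (c : V d)
    (R : Fin d → ℝ) : V d :=
  ∑ i, (lam d / d * ((f (c + ((d : ℝ) / lam d * R i) • b i)
    - f (c - ((d : ℝ) / lam d * R i) • b i)) / 2 / R i)) • b i

/-- Constant part of the split. -/
noncomputable def mids (b : OrthonormalBasis (Fin d) ℝ (V d)) (f : V d → ℝ) (c : V d)
    (R : Fin d → ℝ) : ℝ :=
  lam d / d * ∑ i, (f (c + ((d : ℝ) / lam d * R i) • b i)
    + f (c - ((d : ℝ) / lam d * R i) • b i)) / 2

/-- The split inequality. -/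
lemma split_affine (hd : 1 ≤ d) (b : OrthonormalBasis (Fin d) ℝ (V d)) {f : V d → ℝ} (hf : Adm f)
    (c a : V d) (x R : Fin d → ℝ) (hx : ∀ i, |x i| ≤ R i) :
    f (c + a + ∑ i, x i • b i) ≤ (1 - lam d) * f (c + (1 - lam d)⁻¹ • a)
      + ⟪slope b f c R, ∑ i, x i • b i⟫ + mids b f c R := by
  classical
  obtain ⟨hl0, hl1⟩ := lam_bounds (d := d)
  have hd' : (0 : ℝ) < d := by exact_mod_cast hd
  set q := (d : ℝ) / lam d with hq
  have hqp : 0 < q := div_pos hd' hl0
  have key := hf.convex.map_sum_le (t := (Finset.univ : Finset (Option (Fin d))))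
    (w := fun o => o.elim (1 - lam d) fun _ => lam d / d)
    (p := fun o => o.elim (c + (1 - lam d)⁻¹ • a) fun i => c + (q * x i) • b i)
    (fun o _ => by cases o <;> simp <;> [linarith; positivity])
    (by simp [Fintype.sum_option]; field_simp; ring) (fun o _ => Set.mem_univ _)
  simp only [Fintype.sum_option, Option.elim_none, Option.elim_some, smul_eq_mul] at key
  have e : (1 - lam d) • (c + (1 - lam d)⁻¹ • a) + ∑ i, (lam d / d) • (c + (q * x i) • b i)
      = c + a + ∑ i, x i • b i := by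
    rw [smul_add, smul_smul, mul_inv_cancel₀ (by linarith : (1 - lam d) ≠ 0), one_smul]
    simp only [smul_add, Finset.sum_add_distrib, Finset.sum_const, Finset.card_univ,
      Fintype.card_fin, smul_smul]
    rw [← Nat.cast_smul_eq_nsmul ℝ, smul_smul, mul_div_cancel₀ _ hd'.ne']
    have : ∀ i, lam d / d * (q * x i) = x i := fun i => by rw [hq]; field_simp
    simp only [this]
    module
  rw [e] at key
  refine key.trans ?_
  rw [add_assoc]
  refine add_le_add le_rfl ?_
  have hin : ⟪slope b f c R, ∑ i, x i • b i⟫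
      = ∑ i, lam d / d * ((f (c + (q * R i) • b i) - f (c - (q * R i) • b i)) / 2 / R i) * x i := by
    rw [slope, b.orthonormal.inner_sum]
    simp [q]
  rw [hin, mids, Finset.mul_sum, ← Finset.sum_add_distrib]
  refine Finset.sum_le_sum fun i _ => ?_
  have hqx : |q * x i| ≤ q * R i := by
    rw [abs_mul, abs_of_pos hqp]; exact mul_le_mul_of_nonneg_left (hx i) hqp.le
  have h := mul_le_mul_of_nonneg_left (convex_interp hf c (b i) hqx)
    (show 0 ≤ lam d / d by positivity)
  refine h.trans (le_of_eq ?_)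
  rw [mul_div_mul_left _ _ hqp.ne']
  ring

end Vale.Agent.P262
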