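import Vale.Agent.P262.BL
import Vale.Agent.P262.Spectral
import Vale.Agent.P262.Split
import Vale.Agent.P262.Plan

/-!
The rest of a junction: signs with an exact mean and a small covariance in the low directions.
-/

namespace Vale.Agent.P262

open Finset
open scoped RealInnerProductSpace

variable {d : ℕ} {v : ℕ → V d}

/-- The centre map of a junction. -/
noncomputable def Tmap (b : OrthonormalBasis (Fin d) ℝ (V d)) (mu : Fin d → ℝ)
    (Φ : V d →L[ℝ] V d) : V d →L[ℝ] V d :=
  Φ - diagOp b (fun i => kap d * √(mu i)) ∘L Φ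

/-- The covariance root of a junction. -/
noncomputable def Amap (b : OrthonormalBasis (Fin d) ℝ (V d)) (mu : Fin d → ℝ) (σ1 : ℝ) :
    V d →L[ℝ] V d :=
  diagOp b (fun i => if th2 d < mu i then σ1 * (1 + 10 * (DD d ^ 4)⁻¹) else DD d ^ 20 * √(mu i))

lemma coord_diagOp (b : OrthonormalBasis (Fin d) ℝ (V d)) (g : Fin d → ℝ) (i : Fin d) (x : V d) :
    ⟪b i, diagOp b g x⟫ = g i * ⟪b i, x⟫ := by
  have : diagOp b g x = ∑ j, (g j * ⟪b j, x⟫) • b j := by simp [diagOp, smul_smul]
  rw [this, b.orthonormal.inner_right_sum _ (Finset.mem_univ i)]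

lemma diagOp_adjoint' (b : OrthonormalBasis (Fin d) ℝ (V d)) (g : Fin d → ℝ) :
    (diagOp b g).adjoint = diagOp b g := by
  symm
  rw [ContinuousLinearMap.eq_adjoint_iff]
  intro x y
  rw [← b.sum_inner_mul_inner (diagOp b g x) y, ← b.sum_inner_mul_inner x (diagOp b g y)]
  refine Finset.sum_congr rfl fun i _ => ?_
  rw [real_inner_comm (b i) (diagOp b g x), coord_diagOp, coord_diagOp, real_inner_comm x (b i)]
  ring

lemma coord_hi (b : OrthonormalBasis (Fin d) ℝ (V d)) (mu : Fin d → ℝ) (i : Fin d) (x : V d) :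
    ⟪b i, (hiSpan b mu).starProjection x⟫ = if th2 d < mu i then ⟪b i, x⟫ else 0 := by
  rw [← Submodule.inner_starProjection_left_eq_right]
  split
  next h =>
    rw [Submodule.starProjection_eq_self_iff.2]
    exact Submodule.subset_span ⟨i, h, rfl⟩
  next h =>
    rw [(Submodule.starProjection_apply_eq_zero_iff _).2, inner_zero_left]
    rw [hiSpan, Submodule.mem_orthogonal]
    intro u hu
    induction hu using Submodule.span_induction with
    | mem u hu =>
      obtain ⟨j, hj, rfl⟩ := hu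
      exact b.orthonormal.2 (fun e => h (e ▸ hj))
    | zero => simp
    | add u w _ _ hu hw => simp [inner_add_left, hu, hw]
    | smul c u _ hu => simp [real_inner_smul_left, hu]

/-- Scalar multiples of projections are self-adjoint. -/
lemma adjoint_smul_starProjection (W : Submodule ℝ (V d)) (c : ℝ) :
    (c • W.starProjection).adjoint = c • W.starProjection := by
  symm
  rw [ContinuousLinearMap.eq_adjoint_iff]
  intro x y
  simp only [smul_apply, real_inner_smul_left, real_inner_smul_right]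
  rw [Submodule.inner_starProjection_left_eq_right]

section

variable {r e : ℕ} {M : V d →L[ℝ] V d} {b : OrthonormalBasis (Fin d) ℝ (V d)} {mu : Fin d → ℝ}

/-- Radii of the low coordinates. -/
noncomputable def radLow (d : ℕ) (mu : Fin d → ℝ) (i : Fin d) : ℝ :=
  if th2 d < mu i then 0 else DD d ^ 10 * √(mu i)

/-- Radii of the high coordinates of a mean. -/
noncomputable def radHi (d : ℕ) (mu : Fin d → ℝ) (i : Fin d) : ℝ :=
  if th2 d < mu i then (DD d ^ 40)⁻¹ else 0

lemma scale_le (hd : 1 ≤ d) {R A : ℝ} (hR : 0 ≤ R) (h : 4 * DD d ^ 5 * R ≤ A) :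
    4 * ((d : ℝ) / lam d * R) ≤ A := by
  have h1 : (d : ℝ) / lam d ≤ DD d ^ 5 := by
    rw [lam, div_inv_eq_mul, pow_succ' (DD d) 4]
    exact mul_le_mul_of_nonneg_right natCast_le_DD (pow_nonneg DD_pos.le 4)
  have := mul_le_mul_of_nonneg_right h1 hR
  have : (0 : ℝ) < d := by exact_mod_cast hd
  linarith

/-- The last block's value is bounded by an affine function of its start. -/
lemma last_bound (hd : 1 ≤ d) (hP : Pure v r e M b mu) {σ1 : ℝ} (hσ1 : 1 ≤ σ1) (hσ2 : σ1 ≤ 3 / 2)
    {f : V d → ℝ} (hf : Adm f) (c : V d) :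
    ∃ (F : V d → ℝ) (ℓ : V d) (C : ℝ), Adm F ∧
      (∀ X, InZ v r e (2 * DD d ^ 9) X → f (c + X) ≤ F X) ∧
      C ≤ gE (fun g => f (c + Amap b mu σ1 g)) ∧
      ∀ μ : V d, ‖(hiSpan b mu).starProjection μ‖ ≤ (DD d ^ 50)⁻¹ →
        gE (fun g => F (μ + (σ1 * (1 + (DD d ^ 4)⁻¹)) • g)) ≤ ⟪ℓ, μ⟫ + C := by
  classical
  obtain ⟨hl0, hl1⟩ := lam_bounds (d := d)
  have hD := DD_ge (d := d)
  set H := hiSpan b mu
  set k1 := (1 - lam d)⁻¹ with hk1
  have hk1p : 0 < k1 := inv_pos.2 (by linarith)
  set σ' := σ1 * (1 + (DD d ^ 4)⁻¹) with hσ'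
  set ℓ1 := slope b f c (radLow d mu)
  set C1 := mids b f c (radLow d mu)
  set f2 : V d → ℝ := fun z => gE fun g => f (z + ((k1 * σ') • H.starProjection) g) with hf2
  have hf2A : Adm f2 := by
    simpa [hf2] using hf.gE_comp 0 (ContinuousLinearMap.id ℝ (V d)) ((k1 * σ') • H.starProjection)
  set ℓ2 := slope b f2 c (radHi d mu)
  set C2 := mids b f2 c (radHi d mu)
  set G := gE fun g => f (c + Amap b mu σ1 g)
  have hlamd : 0 ≤ lam d / d := by positivity
  -- the covariance root dominates the relevant perturbations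
  have hAcoord : ∀ i t, |(if th2 d < mu i then σ1 * (1 + 10 * (DD d ^ 4)⁻¹)
      else DD d ^ 20 * √(mu i)) * ⟪b i, t⟫| ≤ ‖(Amap b mu σ1).adjoint t‖ := fun i t => by
    rw [Amap, diagOp_adjoint', ← coord_diagOp b
      (fun i => if th2 d < mu i then σ1 * (1 + 10 * (DD d ^ 4)⁻¹) else DD d ^ 20 * √(mu i)) i t]
    exact (abs_real_inner_le_norm _ _).trans (by rw [b.orthonormal.1 i, one_mul])
  have hm1 : C1 ≤ lam d * G := by
    have h : ∀ i, (f (c + ((d : ℝ) / lam d * radLow d mu i) • b i)
        + f (c - ((d : ℝ) / lam d * radLow d mu i) • b i)) / 2 ≤ G := fun i =>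
      twoPoint f hf c _ _ fun t => by
        refine le_trans ?_ (hAcoord i t)
        rw [real_inner_smul_left, abs_mul, abs_mul (if th2 d < mu i then _ else _), ← mul_assoc]
        refine mul_le_mul_of_nonneg_right ?_ (abs_nonneg _)
        have hR0 : 0 ≤ radLow d mu i := by
          unfold radLow; split <;> [exact le_rfl; positivity]
        rw [abs_of_nonneg (mul_nonneg (by positivity) hR0)]
        refine scale_le hd hR0 ?_
        unfold radLow
        split
        next h => simp only [mul_zero]; exact abs_nonneg _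
        next h =>
          rw [abs_of_nonneg (by positivity)]
          have h4 : 4 * DD d ^ 15 ≤ DD d ^ 20 :=
            const_mul_DD_pow_le (k := 1) (by norm_num) (by norm_num)
          have := mul_le_mul_of_nonneg_right h4 (Real.sqrt_nonneg (mu i))
          calc 4 * DD d ^ 5 * (DD d ^ 10 * √(mu i)) = 4 * DD d ^ 15 * √(mu i) := by ring
            _ ≤ _ := this
    have := mul_le_mul_of_nonneg_left (Finset.sum_le_sum (s := Finset.univ) fun i _ => h i) hlamd
    simp only [Finset.sum_const, Finset.card_univ, Fintype.card_fin, nsmul_eq_mul] at this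
    refine this.trans (le_of_eq ?_)
    have : (d : ℝ) ≠ 0 := by positivity
    field_simp
  have hsig : k1 * σ' + (DD d ^ 8)⁻¹ ≤ σ1 * (1 + 10 * (DD d ^ 4)⁻¹) := by
    have h8 : (DD d ^ 8)⁻¹ ≤ (DD d ^ 4)⁻¹ := inv_DD_pow_anti (by norm_num)
    have hk : k1 ≤ 1 + 2 * lam d := by
      rw [hk1, inv_le_iff_one_le_mul₀ (by linarith)]
      nlinarith
    have hσ'0 : 0 ≤ σ' := by rw [hσ']; positivity
    have := mul_le_mul_of_nonneg_right hk hσ'0
    simp only [lam, hσ'] at *
    have h8' : (DD d ^ 8)⁻¹ ≤ (DD d ^ 4)⁻¹ * (DD d ^ 4)⁻¹ := by rw [← mul_inv, ← pow_add]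
    nlinarith [mul_le_mul_of_nonneg_right hl1 hl0.le,
      mul_le_mul_of_nonneg_right (show (1 : ℝ) ≤ σ1 by linarith) hl0.le]
  have hdomP : ∀ q, 0 ≤ q → q ≤ σ1 * (1 + 10 * (DD d ^ 4)⁻¹) → ∀ t,
      ‖(q • H.starProjection).adjoint t‖ ≤ ‖(Amap b mu σ1).adjoint t‖ := fun q hq0 hq t => by
    rw [adjoint_smul_starProjection, Amap, diagOp_adjoint']
    refine le_of_pow_le_pow_left₀ two_ne_zero (norm_nonneg _) ?_
    rw [← b.sum_sq_inner_right, ← b.sum_sq_inner_right]
    refine Finset.sum_le_sum fun i _ => ?_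
    rw [coord_diagOp, smul_apply, real_inner_smul_right, coord_hi]
    split
    next h =>
      rw [mul_pow, mul_pow]
      exact mul_le_mul_of_nonneg_right (pow_le_pow_left₀ hq0 hq 2) (sq_nonneg _)
    next h =>
      simp only [mul_zero]
      rw [zero_pow two_ne_zero]
      exact sq_nonneg _
  have hk1σ : 0 ≤ k1 * σ' := by rw [hσ']; positivity
  have hf2c : f2 c ≤ G :=
    dom _ _ (hdomP _ hk1σ (by linarith [inv_nonneg.2 (pow_nonneg (DD_pos (d := d)).le 8)])) f hf c
  have hm2 : C2 ≤ lam d * G := by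
    have h : ∀ i, (f2 (c + ((d : ℝ) / lam d * radHi d mu i) • b i)
        + f2 (c - ((d : ℝ) / lam d * radHi d mu i) • b i)) / 2 ≤ G := fun i => by
      set q := (DD d ^ 8)⁻¹ with hq
      have hq0 : 0 < q := inv_pos.2 (pow_pos DD_pos 8)
      refine (twoPoint f2 hf2A c _ (q • H.starProjection) fun t => ?_).trans ?_
      · rw [adjoint_smul_starProjection, real_inner_smul_left, abs_mul, ← mul_assoc,
          smul_apply, norm_smul, Real.norm_eq_abs, abs_of_pos hq0]
        have hR0 : 0 ≤ radHi d mu i := by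
          unfold radHi; split <;> [positivity; exact le_rfl]
        rw [abs_of_nonneg (mul_nonneg (by positivity) hR0)]
        by_cases hi : th2 d < mu i
        · have e : |⟪b i, t⟫| ≤ ‖H.starProjection t‖ := by
            have := coord_hi b mu i t
            rw [if_pos hi] at this
            rw [← this]
            exact (abs_real_inner_le_norm _ _).trans (by rw [b.orthonormal.1 i, one_mul])
          refine mul_le_mul ?_ e (abs_nonneg _) hq0.le
          refine scale_le hd hR0 ?_
          simp only [radHi, if_pos hi]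
          exact const_DD_div_le (k := 1) (by norm_num) (by norm_num)
        · simp only [radHi, if_neg hi, mul_zero, zero_mul]
          positivity
      · have hsum : ∀ t, ‖(q • H.starProjection).adjoint t‖ ^ 2
            + ‖((k1 * σ') • H.starProjection).adjoint t‖ ^ 2
            = ‖((√(q ^ 2 + (k1 * σ') ^ 2)) • H.starProjection).adjoint t‖ ^ 2 := fun t => by
          simp only [adjoint_smul_starProjection, smul_apply, norm_smul]
          rw [mul_pow, mul_pow, mul_pow, Real.norm_eq_abs, Real.norm_eq_abs, Real.norm_eq_abs,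
            sq_abs, sq_abs, sq_abs, Real.sq_sqrt (add_nonneg (sq_nonneg q) (sq_nonneg (k1 * σ')))]
          ring
        simp only [hf2]
        rw [gE_add _ _ _ hsum f hf c]
        refine dom _ _ (hdomP _ (Real.sqrt_nonneg _) ?_) f hf c
        have h1 : √(q ^ 2 + (k1 * σ') ^ 2) ≤ q + k1 * σ' := by
          rw [Real.sqrt_le_left (by positivity)]
          nlinarith
        linarith
    have := mul_le_mul_of_nonneg_left (Finset.sum_le_sum (s := Finset.univ) fun i _ => h i) hlamd
    simp only [Finset.sum_const, Finset.card_univ, Fintype.card_fin, nsmul_eq_mul] at this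
    refine this.trans (le_of_eq ?_)
    have : (d : ℝ) ≠ 0 := by positivity
    field_simp
  set low : V d → V d := fun X => X - H.starProjection X with hlow
  have hlowC : ∀ X, low X = ∑ i, (if th2 d < mu i then 0 else ⟪b i, X⟫) • b i := fun X => by
    rw [← b.sum_repr' (low X)]
    refine Finset.sum_congr rfl fun i _ => ?_
    congr 1
    simp only [hlow, inner_sub_right]
    rw [coord_hi]
    split <;> simp
  set F : V d → ℝ := fun X =>
    (1 - lam d) * f (c + k1 • H.starProjection X) + ⟪ℓ1 - H.starProjection ℓ1, X⟫ + C1 with hF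
  have hFA : Adm F :=
    (((((by simpa using hf.comp_affine c (k1 • H.starProjection)) :
      Adm fun X => f (c + k1 • H.starProjection X))).const_mul (by linarith)).add
      (Adm.linear _)).add (Adm.const _)
  have hswap : ∀ X, ⟪ℓ1, low X⟫ = ⟪ℓ1 - H.starProjection ℓ1, X⟫ := fun X => by
    simp only [hlow, inner_sub_right, inner_sub_left, Submodule.inner_starProjection_left_eq_right]
  refine ⟨F, (1 - lam d) • k1 • H.starProjection ℓ2 + (ℓ1 - H.starProjection ℓ1),
    (1 - lam d) * ((1 - lam d) * f2 c + C2) + C1, hFA, fun X hX => ?_, ?_, fun μ hμ => ?_⟩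
  · have hbd : ∀ i, |if th2 d < mu i then (0 : ℝ) else ⟪b i, X⟫| ≤ radLow d mu i := fun i => by
      unfold radLow
      split
      · simp
      · have h1 := hP.bound _ X (b i) (by positivity) hX
        rw [hP.eig, real_inner_smul_left, real_inner_self_eq_norm_sq, b.orthonormal.1 i, one_pow,
          mul_one, real_inner_comm (b i) X] at h1
        refine abs_le_of_sq_le_sq (h1.trans ?_) (by positivity)
        rw [mul_pow (DD d ^ 10) (√(mu i)), Real.sq_sqrt (hP.nonneg i)]
        refine mul_le_mul_of_nonneg_right ?_ (hP.nonneg i)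
        have h4 : 8 * DD d ^ 18 ≤ DD d ^ 20 :=
          const_mul_DD_pow_le (k := 1) (by norm_num) (by norm_num)
        calc 2 * (2 * DD d ^ 9) ^ 2 = 8 * DD d ^ 18 := by ring
          _ ≤ _ := h4
          _ = _ := by ring
    have h := split_affine hd b hf c (H.starProjection X) _ _ hbd
    rw [← hlowC, hswap] at h
    have e1 : c + H.starProjection X + low X = c + X := by simp only [hlow]; abel
    rw [e1] at h
    exact h
  · have h1 := mul_le_mul_of_nonneg_left hf2c (by linarith : (0 : ℝ) ≤ 1 - lam d)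
    have h2 : (1 - lam d) * ((1 - lam d) * f2 c + C2) ≤ (1 - lam d) * G :=
      mul_le_mul_of_nonneg_left (by linarith) (by linarith)
    linarith
  · have hA1 : Adm fun g : V d => f (c + k1 • H.starProjection (μ + σ' • g)) := by
      have := hf.comp_affine (c + k1 • H.starProjection μ) ((k1 * σ') • H.starProjection)
      simpa [map_add, map_smul, smul_add, smul_smul, add_assoc] using this
    have e0 : gE (fun g => F (μ + σ' • g))
        = (1 - lam d) * f2 (c + k1 • H.starProjection μ) + (⟪ℓ1 - H.starProjection ℓ1, μ⟫ + C1) := by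
      simp only [hF]
      rw [show (fun g : V d => (1 - lam d) * f (c + k1 • H.starProjection (μ + σ' • g))
          + ⟪ℓ1 - H.starProjection ℓ1, μ + σ' • g⟫ + C1) = fun g =>
          (1 - lam d) * f (c + k1 • H.starProjection (μ + σ' • g))
          + (⟪ℓ1 - H.starProjection ℓ1, μ + σ' • g⟫ + C1) by funext g; ring,
        gE_fadd (hA1.const_mul (by linarith))
          (((Adm.linear _).shift μ σ').add (Adm.const C1)), gE_cmul, gE_affine]
      congr 2
      simp only [hf2]
      congr 1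
      funext g
      congr 1
      simp [map_add, map_smul, smul_add, smul_smul, add_assoc]
    rw [e0]
    have hbd : ∀ i, |if th2 d < mu i then k1 * ⟪b i, μ⟫ else 0| ≤ radHi d mu i := fun i => by
      unfold radHi
      split
      next h =>
        have e : |⟪b i, μ⟫| ≤ ‖H.starProjection μ‖ := by
          have := coord_hi b mu i μ
          rw [if_pos h] at this
          rw [← this]
          exact (abs_real_inner_le_norm _ _).trans (by rw [b.orthonormal.1 i, one_mul])
        rw [abs_mul, abs_of_pos hk1p]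
        have hk : k1 ≤ 2 := by
          rw [hk1, inv_le_iff_one_le_mul₀ (by linarith)]; linarith
        refine (mul_le_mul hk (e.trans hμ) (abs_nonneg _) (by norm_num)).trans ?_
        have := const_DD_div_le (d := d) (c := 2) (k := 1) (a := 0) (b := 50) (e := 40)
          (by norm_num) (by norm_num)
        simpa using this
      next h => simp
    have h := split_affine hd b hf2A c 0 _ _ hbd
    have e2 : ∑ i, (if th2 d < mu i then k1 * ⟪b i, μ⟫ else 0) • b i
        = k1 • H.starProjection μ := by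
      rw [← b.sum_repr' (k1 • H.starProjection μ)]
      refine Finset.sum_congr rfl fun i _ => ?_
      rw [real_inner_smul_right, coord_hi]
      split <;> simp
    rw [e2, add_zero, smul_zero, add_zero, real_inner_smul_right,
      ← Submodule.inner_starProjection_left_eq_right] at h
    have h3 := mul_le_mul_of_nonneg_left h (by linarith : (0 : ℝ) ≤ 1 - lam d)
    rw [inner_add_left, real_inner_smul_left, real_inner_smul_left]
    linarith

/-- Signs on the rest of a junction. -/
theorem good_rest (hd : 1 ≤ d) {O : Owner d} (hO : O.WF v) (hH : O.H = hiSpan b mu)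
    (hcs : O.cs = r) (hce : O.ce = e) (hP : Pure v r e M b mu)
    {N : ℕ} {P : ℕ → ℕ} (hP0 : P 0 = r) (hPN : P (N + 1) = e)
    {G : ℕ → V d →L[ℝ] V d} {K : ℝ} (hK0 : 0 ≤ K) (hK : K + 2 ≤ KP d)
    (hG : ∀ j < N + 1, Disp v (P j) (P (j + 1)) K (G j))
    (hkill : ∀ j < N + 1, ∀ h ∈ hiSpan b mu, ‖(G j).adjoint h‖ ≤ eta' d * ‖h‖)
    {lb : ℕ} (hlb : lb + 2 ≤ 500 * (d + 100)) {β₁ β₂ : ℝ} (hβ₁ : 0 ≤ β₁) (hβ₂ : 0 ≤ β₂)
    (hsmall : β₁ + β₂ ≤ (DD d ^ 80)⁻¹)
    (hC : ∀ j < N + 1, Chain v O lb (P j) (P (j + 1)) (G j) β₁ β₂) :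
    ∃ Ω : V d → ℝ, Adm Ω ∧ (∀ x, 0 ≤ Ω x) ∧
      (∀ (σ : ℝ) (u : V d), 0 ≤ σ → σ ≤ 2 → ‖O.H.starProjection u‖ ≤ 1 → ‖u‖ ≤ 2 * RR d →
        gE (fun g => Ω (u + σ • g)) ≤ β₂) ∧
      ∀ y, ‖y‖ ≤ Rg d lb → ‖O.Hᗮ.starProjection y‖ ≤ O.B → Ω y < 1 → ∀ a : ℕ → ℝ,
        (∀ i ∈ Finset.Ico r e, |a i| ≤ alf d (lb + 2)) → ∀ f : V d → ℝ, Adm f →
        ∃ w : ℕ → ℝ, SignOn r e w ∧
          (∀ k, r ≤ k → k ≤ e → ‖y + disp v r k (w - a)‖ ≤ Rg d (lb + 2)) ∧
          f (y + disp v r e (w - a))
            ≤ gE (fun g => f (Tmap b mu (compI G 0 (N + 1)) y + Amap b mu O.sd g)) := by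
  classical
  have hmono : ∀ j ≤ N + 1, P 0 ≤ P j := fun j hj => by
    simpa using (disp_compI (i := 0) (n := j) hK0 fun k _ hk => hG k (by omega)).le
  have hmono' : ∀ j ≤ N + 1, P j ≤ P (N + 1) := fun j hj => by
    have := (disp_compI (i := j) (n := N + 1 - j) hK0 fun k _ hk => hG k (by omega)).le
    rwa [Nat.add_sub_cancel' hj] at this
  have hblock : ∀ j, ∃ Ω : V d → ℝ, Adm Ω ∧ (∀ x, 0 ≤ Ω x) ∧
      (∀ (σ : ℝ) (u : V d), 0 ≤ σ → σ ≤ 2 → ‖O.H.starProjection u‖ ≤ 1 → ‖u‖ ≤ 2 * RR d →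
        gE (fun g => Ω (u + σ • g)) ≤ β₂) ∧
      (j < N + 1 → ∀ x, ‖x‖ ≤ 2 * RR d → Ω x < 1 → Hist v O (P j) x → ∀ a : ℕ → ℝ,
        (∀ i ∈ Finset.Ico (P j) (P (j + 1)), |a i| ≤ alf d (lb + 1)) →
        ∀ Θ : V d → ℝ, Adm Θ → (∀ y, 0 ≤ Θ y) →
          (∀ u, ‖u - G j x‖ ≤ (DD d ^ 40)⁻¹ → gE (fun g => Θ (u + O.sd • g)) ≤ β₂) →
          ∀ f : V d → ℝ, Adm f → ∃ w : ℕ → ℝ, SignOn (P j) (P (j + 1)) w ∧
            (∀ k, P j ≤ k → k ≤ P (j + 1) → ‖x + disp v (P j) k (w - a)‖ ≤ Rg d (lb + 1)) ∧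
            Θ (x + disp v (P j) (P (j + 1)) (w - a)) < 1 ∧
            f (x + disp v (P j) (P (j + 1)) (w - a)) ≤
              gE (fun g => f (G j x + (O.sd * (1 + (DD d ^ 4)⁻¹)) • g))) := by
    intro j
    by_cases hj : j < N + 1
    · obtain ⟨Ω, h1, h2, h3, h4⟩ := blockBL hO (by omega) ((hG j hj).mono (by linarith)) (hC j hj)
        (by rw [hcs, ← hP0]; exact hmono j hj.le) (by rw [hce, ← hPN]; exact hmono' (j + 1) hj)
        hβ₁ hβ₂ hsmall
      exact ⟨Ω, h1, h2, h3, fun _ => h4⟩
    · exact ⟨fun _ => 0, Adm.const 0, fun _ => le_rfl,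
        fun σ u _ _ _ _ => by rw [gE_const]; exact hβ₂, fun h => absurd h hj⟩
  choose Ω hΩA hΩ0 hΩb hBL using hblock
  refine ⟨Ω 0, hΩA 0, hΩ0 0, hΩb 0, fun y hyl hyB hy0 a ha f hf => ?_⟩
  obtain ⟨hs1, hs2⟩ := sd_bounds hO
  have hR1 := RR_ge (d := d)
  have hR4 := RR_le_DD (d := d)
  have hy : ‖y‖ ≤ RR d + 1 := hyl.trans (Rg_le (by omega))
  set Φr := compI G 0 (N + 1)
  have hΦr : Disp v r e (K + 2) Φr := by
    have := disp_compI (i := 0) (n := N + 1) hK0 fun k _ hk => hG k (by omega)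
    rwa [Nat.zero_add, hP0, hPN] at this
  have hre : r ≤ e := hΦr.le
  -- the plan
  obtain ⟨wp, hwp, hwp', hwp''⟩ := (hP.drift_realise (Φr y)).neg
  have hplan : kap d * DD d * ‖Φr y‖ ≤ (DD d ^ 20)⁻¹ := by
    have h1 : ‖Φr y‖ ≤ 2 * DD d ^ 4 := (hΦr.contr y).trans (by linarith)
    have h2 := const_DD_div_le (d := d) (c := 2) (k := 1) (a := 5) (b := 30) (e := 20)
      (by norm_num) (by norm_num)
    calc kap d * DD d * ‖Φr y‖ ≤ kap d * DD d * (2 * DD d ^ 4) :=
          mul_le_mul_of_nonneg_left h1 (mul_nonneg (inv_nonneg.2 (pow_nonneg DD_pos.le _)) DD_pos.le)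
      _ = 2 * DD d ^ 5 * (DD d ^ 30)⁻¹ := by unfold kap; ring
      _ ≤ _ := h2
  have h20 : (DD d ^ 20)⁻¹ ≤ (DD d ^ 4)⁻¹ := inv_DD_pow_anti (by norm_num)
  have hstep : ((lb + 2 : ℕ) : ℝ) / DD d ^ 4 = ((lb + 1 : ℕ) : ℝ) / DD d ^ 4 + (DD d ^ 4)⁻¹ := by
    push_cast; ring
  set a' := a + wp with ha'
  have ha'b : ∀ i ∈ Finset.Ico r e, |a' i| ≤ alf d (lb + 1) := fun i hi => by
    have h1 := ha i hi
    have h2 := hwp i hi
    have h3 := abs_add_le (a i) (wp i)
    simp only [alf, hstep] at h1 ⊢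
    simp only [ha', Pi.add_apply]
    linarith
  -- entry conditions of a block
  let Entry : ℕ → V d → Prop := fun j z =>
    ‖z‖ ≤ RR d + 1 ∧ InZ v r (P j) (KH d) (z - y) ∧ Ω j z < 1
  have hone : ∀ j, j < N + 1 → ∀ z, Entry j z → ∀ φ : V d → ℝ, Adm φ → ∃ w : ℕ → ℝ,
      SignOn (P j) (P (j + 1)) w ∧
      (∀ k, P j ≤ k → k ≤ P (j + 1) → ‖z + disp v (P j) k (w - a')‖ ≤ Rg d (lb + 1)) ∧
      Entry (j + 1) (z + disp v (P j) (P (j + 1)) (w - a')) ∧
      φ (z + disp v (P j) (P (j + 1)) (w - a'))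
        ≤ gE (fun g => φ (G j z + (O.sd * (1 + (DD d ^ 4)⁻¹)) • g)) := by
    intro j hj z ⟨hz1, hz2, hz3⟩ φ hφ
    have hj0 : r ≤ P j := hP0 ▸ hmono j hj.le
    have hj1 : P (j + 1) ≤ e := hPN ▸ hmono' (j + 1) hj
    have hsub : ∀ i ∈ Finset.Ico (P j) (P (j + 1)), i ∈ Finset.Ico r e := fun i hi =>
      Finset.mem_Ico.2 ⟨hj0.trans (Finset.mem_Ico.1 hi).1, (Finset.mem_Ico.1 hi).2.trans_le hj1⟩
    have hH' : Hist v O (P j) z := ⟨y, by linarith, hyB, hcs ▸ hz2⟩
    obtain ⟨w, hw1, hw2, hw3, hw4⟩ := hBL j hj z (by linarith) hz3 hH' a'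
      (fun i hi => ha'b i (hsub i hi)) (Ω (j + 1)) (hΩA _) (hΩ0 _) (fun u hu => by
        refine hΩb (j + 1) O.sd u (by linarith) (by linarith) ?_ ?_
        · have h1 : ‖O.H.starProjection (G j z)‖ ≤ eta' d * ‖z‖ :=
            norm_proj_le_of_adjoint (inv_nonneg.2 (pow_nonneg DD_pos.le _))
              (fun h hh => hkill j hj h (hH ▸ hh)) z
          have h2 : ‖O.H.starProjection u‖ ≤ ‖O.H.starProjection (G j z)‖ + ‖u - G j z‖ := by
            have := O.H.norm_starProjection_apply_le (u - G j z)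
            rw [map_sub] at this
            linarith [norm_le_norm_add_norm_sub' (O.H.starProjection u) (O.H.starProjection (G j z))]
          have h3 : eta' d * ‖z‖ ≤ 1 / 2 := by
            have h4 : ‖z‖ ≤ 2 * DD d ^ 4 := by linarith
            have h5 := const_DD_div_le (d := d) (c := 2) (k := 1) (a := 4) (b := 60) (e := 1)
              (by norm_num) (by norm_num)
            have h6 : (DD d ^ 1)⁻¹ ≤ 1 / 2 := by
              rw [pow_one, one_div]; exact inv_anti₀ (by norm_num) (by linarith [DD_ge (d := d)])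
            have h7 := mul_le_mul_of_nonneg_left h4
              (inv_nonneg.2 (pow_nonneg (DD_pos (d := d)).le 60))
            unfold eta'
            linarith
          have h8 : (DD d ^ 40)⁻¹ ≤ 1 / 2 := by
            rw [one_div]; refine inv_anti₀ (by norm_num) ?_
            linarith [DD_pow_mono (d := d) (show 1 ≤ 40 by norm_num), pow_one (DD d), DD_ge (d := d)]
          linarith
        · have h1 := (hG j hj).contr z
          have h2 : (DD d ^ 40)⁻¹ ≤ 1 := inv_le_one_of_one_le₀ (one_le_pow₀ one_le_DD)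
          linarith [norm_le_norm_add_norm_sub' u (G j z)])
      φ hφ
    refine ⟨w, hw1, hw2, ⟨?_, ?_, hw3⟩, hw4⟩
    · exact (hw2 _ (hG j hj).le le_rfl).trans (Rg_le (by omega))
    · have hKH : 3 * RR d ≤ KH d := by
        have h1 : 3 * DD d ^ 4 ≤ DD d ^ 6 := const_mul_DD_pow_le (k := 1) (by norm_num) (by norm_num)
        unfold KH; linarith
      have h := InZ.concat' hj0 (hG j hj).le hz2 (w' := w - a') (fun i hi => ?_) (fun k ka kb => ?_)
      · rw [show z + disp v (P j) (P (j + 1)) (w - a') - y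
            = z - y + disp v (P j) (P (j + 1)) (w - a') by abel]
        exact h
      · have h1 := ha'b i (hsub i hi)
        have h2 : |w i| = 1 := by rcases hw1 i hi with h | h <;> simp [h]
        have := abs_sub (w i) (a' i)
        have := alf_le_half (d := d) (lb + 1)
        simp only [Pi.sub_apply]
        linarith
      · rw [show z - y + disp v (P j) k (w - a') = (z + disp v (P j) k (w - a')) - y by abel]
        have := Rg_le (d := d) (l := lb + 1) (by omega)
        linarith [norm_sub_le (z + disp v (P j) k (w - a')) y, hw2 k ka kb]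
  -- earlier blocks are balanced for one linear functional
  have hpre : ∀ n, n ≤ N → ∀ ℓ : V d, ∃ w : ℕ → ℝ, SignOn r (P n) w ∧
      (∀ k, r ≤ k → k ≤ P n → ‖y + disp v r k (w - a')‖ ≤ Rg d (lb + 1)) ∧
      Entry n (y + disp v r (P n) (w - a')) ∧
      ⟪ℓ, y + disp v r (P n) (w - a')⟫ ≤ ⟪ℓ, compI G 0 n y⟫ := by
    intro n
    induction n with
    | zero =>
      intro _ ℓ
      refine ⟨fun _ => 1, fun i _ => Or.inl rfl, fun k ka kb => ?_, ?_, ?_⟩
      · obtain rfl : k = r := le_antisymm (hP0 ▸ kb) ka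
        rw [disp_self, add_zero]
        exact hyl.trans (Rg_mono (by omega))
      · rw [hP0, disp_self, add_zero]
        refine ⟨hy, ?_, hy0⟩
        rw [hP0, sub_self]
        exact InZ.zero (pow_nonneg DD_pos.le _)
      · rw [hP0, disp_self, add_zero]; simp
    | succ n ih =>
      intro hn ℓ
      obtain ⟨w1, hs, hst, hen, hin⟩ := ih (by omega) ((G n).adjoint ℓ)
      set z := y + disp v r (P n) (w1 - a') with hz
      obtain ⟨w2, hs2', hst2, hen2, hin2⟩ := hone n (by omega) z hen _ (Adm.linear ℓ)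
      set w : ℕ → ℝ := fun i => if i < P n then w1 i else w2 i with hw
      have hrn : r ≤ P n := hP0 ▸ hmono n (by omega)
      have e1 : ∀ k, k ≤ P n → disp v r k (w - a') = disp v r k (w1 - a') := fun k hk =>
        disp_congr fun i hi => by
          have : i < P n := lt_of_lt_of_le (Finset.mem_Ico.1 hi).2 hk
          simp [hw, this]
      have e3 : ∀ k, P n ≤ k → y + disp v r k (w - a') = z + disp v (P n) k (w2 - a') := fun k hk => by
        rw [disp_concat hrn hk, e1 _ le_rfl, hz, add_assoc]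
        congr 2
        exact disp_congr fun i hi => by
          have : ¬ i < P n := not_lt.2 (Finset.mem_Ico.1 hi).1
          simp [hw, this]
      refine ⟨w, fun i hi => ?_, fun k ka kb => ?_, ?_, ?_⟩
      · rcases lt_or_ge i (P n) with h | h
        · simp only [hw, h, if_true]; exact hs i (Finset.mem_Ico.2 ⟨(Finset.mem_Ico.1 hi).1, h⟩)
        · simp only [hw, not_lt.2 h, if_false]
          exact hs2' i (Finset.mem_Ico.2 ⟨h, (Finset.mem_Ico.1 hi).2⟩)
      · rcases le_or_gt k (P n) with h | h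
        · rw [e1 k h]; exact hst k ka h
        · rw [e3 k h.le]; exact hst2 k h.le kb
      · rw [e3 _ (hG n (by omega)).le]; exact hen2
      · rw [e3 _ (hG n (by omega)).le]
        refine hin2.trans ?_
        have haff := gE_affine ℓ (G n z) (O.sd * (1 + (DD d ^ 4)⁻¹)) 0
        simp only [add_zero] at haff
        rw [haff, ← ContinuousLinearMap.adjoint_inner_left]
        refine hin.trans (le_of_eq ?_)
        rw [ContinuousLinearMap.adjoint_inner_left, compI_succ, Nat.zero_add]
        rfl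
  -- the last block
  set c := Tmap b mu Φr y
  obtain ⟨F, ℓ, C, hFA, hFle, hCle, hFmean⟩ := last_bound hd hP hs1 hs2 hf c
  obtain ⟨w1, hs, hst, hen, hin⟩ := hpre N le_rfl ((G N).adjoint ℓ)
  set z := y + disp v r (P N) (w1 - a') with hz
  obtain ⟨w2, hs2', hst2, hen2, hin2⟩ := hone N (by omega) z hen (fun x => F (x + -(Φr y)))
    (hFA.comp_add_right _)
  set w : ℕ → ℝ := fun i => if i < P N then w1 i else w2 i with hw
  have hrn : r ≤ P N := hP0 ▸ hmono N (by omega)
  have hne : P N ≤ e := hPN ▸ (hG N (by omega)).le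
  have e1 : ∀ k, k ≤ P N → disp v r k (w - a') = disp v r k (w1 - a') := fun k hk =>
    disp_congr fun i hi => by
      have : i < P N := lt_of_lt_of_le (Finset.mem_Ico.1 hi).2 hk
      simp [hw, this]
  have e3 : ∀ k, P N ≤ k → y + disp v r k (w - a') = z + disp v (P N) k (w2 - a') := fun k hk => by
    rw [disp_concat hrn hk, e1 _ le_rfl, hz, add_assoc]
    congr 2
    exact disp_congr fun i hi => by
      have : ¬ i < P N := not_lt.2 (Finset.mem_Ico.1 hi).1
      simp [hw, this]
  have hd' : ∀ k, disp v r k (w - a) = disp v r k (w - a') + disp v r k wp := fun k => by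
    rw [← disp_add, ha']; congr 1; abel
  refine ⟨w, fun i hi => ?_, fun k ka kb => ?_, ?_⟩
  · rcases lt_or_ge i (P N) with h | h
    · simp only [hw, h, if_true]; exact hs i (Finset.mem_Ico.2 ⟨(Finset.mem_Ico.1 hi).1, h⟩)
    · simp only [hw, not_lt.2 h, if_false]
      exact hs2' i (Finset.mem_Ico.2 ⟨h, hPN.symm ▸ (Finset.mem_Ico.1 hi).2⟩)
  · rw [hd' k, ← add_assoc]
    refine (norm_add_le _ _).trans ?_
    have h5 := hwp' k ka kb
    have h6 : ‖y + disp v r k (w - a')‖ ≤ Rg d (lb + 1) := by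
      rcases le_or_gt k (P N) with h | h
      · rw [e1 k h]; exact hst k ka h
      · rw [e3 k h.le]; exact hst2 k h.le (hPN.symm ▸ kb)
    simp only [Rg, hstep] at *
    linarith
  · have hend : y + disp v r e (w - a) = z + disp v (P N) e (w2 - a') + disp v r e wp := by
      rw [hd' e, ← add_assoc, e3 e hne]
    set zz := z + disp v (P N) e (w2 - a') with hzz
    have hX : InZ v r e (2 * DD d ^ 9) (zz + -(Φr y)) := by
      obtain ⟨_, hz2, _⟩ := hen2
      rw [hPN] at hz2
      have h := hz2.add (hΦr.fwd y).neg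
      rw [show zz + -(Φr y) = (zz - y) + -(Φr y - y) by abel]
      refine h.mono ?_
      have h1 : (K + 2) * ‖y‖ ≤ DD d ^ 4 * (2 * DD d ^ 4) :=
        mul_le_mul hK (by linarith) (norm_nonneg _) (pow_nonneg DD_pos.le 4)
      have h2 := DD_pow_mono (d := d) (show 6 ≤ 9 by norm_num)
      have h3 : 2 * DD d ^ 8 ≤ DD d ^ 9 := const_mul_DD_pow_le (k := 1) (by norm_num) le_rfl
      unfold KH
      linarith [show DD d ^ 4 * (2 * DD d ^ 4) = 2 * DD d ^ 8 by ring]
    have hEq : y + disp v r e (w - a) = c + (zz + -(Φr y)) := by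
      rw [hend, hwp'']
      simp only [c, Tmap, sub_apply, ContinuousLinearMap.comp_apply]
      abel
    rw [hEq]
    refine (hFle _ hX).trans ?_
    have h2 : F (zz + -(Φr y)) ≤
        gE (fun g => F (G N z + -(Φr y) + (O.sd * (1 + (DD d ^ 4)⁻¹)) • g)) := by
      rw [hPN] at hin2
      refine hin2.trans (le_of_eq ?_)
      congr 1; funext g; congr 1; abel
    refine h2.trans ((hFmean _ ?_).trans ?_)
    · have e : G N z + -(Φr y) = G N (z - compI G 0 N y) := by
        rw [map_sub, sub_eq_add_neg]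
        simp [Φr, compI_succ]
      rw [e]
      refine (norm_proj_le_of_adjoint (inv_nonneg.2 (pow_nonneg DD_pos.le _))
        (fun h hh => hkill N (by omega) h hh) _).trans ?_
      have h1 : ‖z - compI G 0 N y‖ ≤ 4 * DD d ^ 4 := by
        have := hen.1
        have h3 := (disp_compI (i := 0) (n := N) hK0 fun k _ hk => hG k (by omega)).contr y
        linarith [norm_sub_le z (compI G 0 N y)]
      refine (mul_le_mul_of_nonneg_left h1 (inv_nonneg.2 (pow_nonneg DD_pos.le _))).trans ?_
      rw [mul_comm]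
      exact const_DD_div_le (k := 1) (by norm_num) (by norm_num)
    · rw [show G N z + -(Φr y) = G N z - G N (compI G 0 N y) by
        simp [Φr, compI_succ, sub_eq_add_neg], inner_sub_right,
        ← ContinuousLinearMap.adjoint_inner_left, ← ContinuousLinearMap.adjoint_inner_left]
      linarith

end

end Vale.Agent.P262
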