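import Vale.Agent.P262.Defs

/-!
Elementary properties of displacements.
-/

namespace Vale.Agent.P262

open Finset

variable {d : ℕ} {v : ℕ → V d}

lemma disp_self (s : ℕ) (w : ℕ → ℝ) : disp v s s w = 0 := by simp [disp]

lemma disp_concat {s m k : ℕ} (h1 : s ≤ m) (h2 : m ≤ k) (w : ℕ → ℝ) :
    disp v s k w = disp v s m w + disp v m k w :=
  (Finset.sum_Ico_consecutive _ h1 h2).symm

lemma disp_congr {s k : ℕ} {w w' : ℕ → ℝ} (h : ∀ i ∈ Finset.Ico s k, w i = w' i) :
    disp v s k w = disp v s k w' :=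
  Finset.sum_congr rfl fun i hi => by rw [h i hi]

lemma disp_eq_zero {s k : ℕ} {w : ℕ → ℝ} (h : ∀ i ∈ Finset.Ico s k, w i = 0) :
    disp v s k w = 0 :=
  Finset.sum_eq_zero fun i hi => by rw [h i hi, zero_smul]

lemma disp_succ {s : ℕ} (w : ℕ → ℝ) : disp v s (s + 1) w = w s • v s := by
  simp [disp]

lemma disp_add (s k : ℕ) (w w' : ℕ → ℝ) :
    disp v s k (w + w') = disp v s k w + disp v s k w' := by
  simp [disp, add_smul, Finset.sum_add_distrib]

lemma disp_sub (s k : ℕ) (w w' : ℕ → ℝ) :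
    disp v s k (w - w') = disp v s k w - disp v s k w' := by
  simp [disp, sub_smul, Finset.sum_sub_distrib]

lemma disp_smul (s k : ℕ) (c : ℝ) (w : ℕ → ℝ) :
    disp v s k (c • w) = c • disp v s k w := by
  simp [disp, mul_smul, Finset.smul_sum]

lemma InZ.mono {s e : ℕ} {K K' : ℝ} {y : V d} (h : InZ v s e K y) (hK : K ≤ K') :
    InZ v s e K' y := by
  obtain ⟨w, h1, h2, h3⟩ := h
  exact ⟨w, fun i hi => (h1 i hi).trans hK, fun k a b => (h2 k a b).trans hK, h3⟩

lemma InZ.norm_le {s e : ℕ} (hse : s ≤ e) {K : ℝ} {y : V d} (h : InZ v s e K y) : ‖y‖ ≤ K := by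
  obtain ⟨w, _, h2, h3⟩ := h
  exact h3 ▸ h2 e hse le_rfl

lemma InZ.zero {s e : ℕ} {K : ℝ} (hK : 0 ≤ K) : InZ v s e K 0 := by
  refine ⟨0, fun i _ => by simpa using hK, fun k _ _ => ?_, ?_⟩
  · simpa [disp] using hK
  · simp [disp]

lemma InZ.add {s e : ℕ} {K K' : ℝ} {y y' : V d} (h : InZ v s e K y) (h' : InZ v s e K' y') :
    InZ v s e (K + K') (y + y') := by
  obtain ⟨w, h1, h2, h3⟩ := h
  obtain ⟨w', g1, g2, g3⟩ := h'
  refine ⟨w + w', fun i hi => ?_, fun k a b => ?_, by rw [disp_add, h3, g3]⟩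
  · exact (abs_add_le _ _).trans (add_le_add (h1 i hi) (g1 i hi))
  · rw [disp_add]; exact (norm_add_le _ _).trans (add_le_add (h2 k a b) (g2 k a b))

lemma InZ.smul {s e : ℕ} {K : ℝ} {y : V d} (c : ℝ) (h : InZ v s e K y) :
    InZ v s e (|c| * K) (c • y) := by
  obtain ⟨w, h1, h2, h3⟩ := h
  refine ⟨c • w, fun i hi => ?_, fun k a b => ?_, by rw [disp_smul, h3]⟩
  · simp only [Pi.smul_apply, smul_eq_mul, abs_mul]
    exact mul_le_mul_of_nonneg_left (h1 i hi) (abs_nonneg c)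
  · rw [disp_smul, norm_smul, Real.norm_eq_abs]
    exact mul_le_mul_of_nonneg_left (h2 k a b) (abs_nonneg c)

lemma InZ.neg {s e : ℕ} {K : ℝ} {y : V d} (h : InZ v s e K y) : InZ v s e K (-y) := by
  simpa using h.smul (-1)

/-- Concatenation of displacements on adjacent intervals. -/
lemma InZ.concat {s m e : ℕ} (hsm : s ≤ m) (hme : m ≤ e) {K₁ K₂ K : ℝ} {y₁ y₂ : V d}
    (h₁ : InZ v s m K₁ y₁) (h₂ : InZ v m e K₂ y₂) (hK₁ : K₁ ≤ K) (hK₂ : K₂ ≤ K)
    (hy : ‖y₁‖ + K₂ ≤ K) :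
    InZ v s e K (y₁ + y₂) := by
  obtain ⟨w, h1, h2, h3⟩ := h₁
  obtain ⟨w', g1, g2, g3⟩ := h₂
  set u : ℕ → ℝ := fun i => if i < m then w i else w' i with hu
  have e1 : ∀ k, k ≤ m → disp v s k u = disp v s k w := fun k hk =>
    disp_congr fun i hi => by
      have : i < m := lt_of_lt_of_le (Finset.mem_Ico.1 hi).2 hk
      simp [hu, this]
  have e2 : ∀ k, disp v m k u = disp v m k w' := fun k =>
    disp_congr fun i hi => by
      have : ¬ i < m := not_lt.2 (Finset.mem_Ico.1 hi).1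
      simp [hu, this]
  refine ⟨u, fun i hi => ?_, fun k a b => ?_, ?_⟩
  · rcases lt_or_ge i m with hlt | hge
    · simp only [hu, hlt, if_true]
      exact (h1 i (Finset.mem_Ico.2 ⟨(Finset.mem_Ico.1 hi).1, hlt⟩)).trans hK₁
    · simp only [hu, not_lt.2 hge, if_false]
      exact (g1 i (Finset.mem_Ico.2 ⟨hge, (Finset.mem_Ico.1 hi).2⟩)).trans hK₂
  · rcases le_or_gt k m with hk | hk
    · rw [e1 k hk]; exact (h2 k a hk).trans hK₁
    · rw [disp_concat hsm hk.le u, e1 m le_rfl, e2 k, h3]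
      exact (norm_add_le _ _).trans ((add_le_add le_rfl (g2 k hk.le b)).trans hy)
  · rw [disp_concat hsm hme u, e1 m le_rfl, e2 e, h3, g3]

/-- A displacement on a subinterval is a displacement on the whole interval. -/
lemma InZ.extend {s s' e' e : ℕ} (h1 : s ≤ s') (h2 : s' ≤ e') (h3 : e' ≤ e) {K : ℝ} (hK : 0 ≤ K)
    {y : V d} (h : InZ v s' e' K y) : InZ v s e K y := by
  have a : InZ v s e' K y := by
    have := InZ.concat h1 h2 (InZ.zero (v := v) (s := s) (e := s') hK) h le_rfl le_rfl (by simp)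
    simpa using this
  have := InZ.concat (h1.trans h2) h3 a (InZ.zero (v := v) (s := e') (e := e) le_rfl) le_rfl hK
    (by simpa using a.norm_le (h1.trans h2))
  simpa using this

lemma InZ.single {i : ℕ} (hv : ‖v i‖ ≤ 1) : InZ v i (i + 1) 1 (v i) := by
  refine ⟨fun _ => 1, fun j _ => by simp, fun k a b => ?_, by rw [disp_succ, one_smul]⟩
  rcases Nat.lt_or_ge k (i + 1) with hk | hk
  · have : k = i := by omega
    subst this; simp [disp_self]
  · have : k = i + 1 := by omega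
    subst this; rw [disp_succ, one_smul]; exact hv

end Vale.Agent.P262

namespace Vale.Agent.P262

/-- Extend a displacement by coefficients whose accumulated prefixes are bounded. -/
lemma InZ.concat' {d : ℕ} {v : ℕ → V d} {s m e : ℕ} (hsm : s ≤ m) (hme : m ≤ e) {K : ℝ}
    {y : V d} (h : InZ v s m K y) {w' : ℕ → ℝ} (hw : ∀ i ∈ Finset.Ico m e, |w' i| ≤ K)
    (hp : ∀ k, m ≤ k → k ≤ e → ‖y + disp v m k w'‖ ≤ K) :
    InZ v s e K (y + disp v m e w') := by
  obtain ⟨w, h1, h2, h3⟩ := h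
  set u : ℕ → ℝ := fun i => if i < m then w i else w' i with hu
  have e1 : ∀ k, k ≤ m → disp v s k u = disp v s k w := fun k hk =>
    disp_congr fun i hi => by
      have : i < m := lt_of_lt_of_le (Finset.mem_Ico.1 hi).2 hk
      simp [hu, this]
  have e2 : ∀ k, disp v m k u = disp v m k w' := fun k =>
    disp_congr fun i hi => by
      have : ¬ i < m := not_lt.2 (Finset.mem_Ico.1 hi).1
      simp [hu, this]
  refine ⟨u, fun i hi => ?_, fun k a b => ?_, ?_⟩
  · rcases lt_or_ge i m with hlt | hge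
    · simp only [hu, hlt, if_true]
      exact h1 i (Finset.mem_Ico.2 ⟨(Finset.mem_Ico.1 hi).1, hlt⟩)
    · simp only [hu, not_lt.2 hge, if_false]
      exact hw i (Finset.mem_Ico.2 ⟨hge, (Finset.mem_Ico.1 hi).2⟩)
  · rcases le_or_gt k m with hk | hk
    · rw [e1 k hk]; exact h2 k a hk
    · rw [disp_concat hsm hk.le u, e1 m le_rfl, e2 k, h3]
      exact hp k hk.le b
  · rw [disp_concat hsm hme u, e1 m le_rfl, e2 e, h3]

end Vale.Agent.P262
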