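import Vale.Agent.P262.Good

/-!
Junctions: expanded chunks followed by the balanced rest.
-/

namespace Vale.Agent.P262

open Finset
open scoped RealInnerProductSpace

variable {d : ℕ} {v : ℕ → V d}

lemma inner_eq_zero_of_orth {W : Submodule ℝ (V d)} {a b : V d} (ha : a ∈ W) (hb : b ∈ Wᗮ) :
    ⟪a, b⟫ = 0 := hb a ha

/-- The sharp bound on the part of a walk state orthogonal to the owner's subspace. -/
lemma hist_orth_sharp {O : Owner d} (hO : O.WF v) {s : ℕ} (hcs : O.cs ≤ s) (hs : s ≤ O.ce)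
    {x : V d} (h : Hist v O s x) : ‖O.Hᗮ.starProjection x‖ ≤ O.B + KH d * eta d := by
  obtain ⟨x₀, _, hB, hz⟩ := h
  have hKH : 0 ≤ KH d := pow_nonneg DD_pos.le 6
  have h1 := hO.drift _ _ hKH (InZ.extend le_rfl hcs hs hKH hz)
  rw [map_sub] at h1
  linarith [norm_le_norm_add_norm_sub' (O.Hᗮ.starProjection x) (O.Hᗮ.starProjection x₀)]

/-- The subspace freed at a junction. -/
noncomputable def freeSub (H H' : Submodule ℝ (V d)) : Submodule ℝ (V d) :=
  (H'.map (H.starProjection : V d →ₗ[ℝ] V d))ᗮ ⊓ H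

section Free

variable {H H' : Submodule ℝ (V d)} {δ : ℝ}

lemma map_le_self (H H' : Submodule ℝ (V d)) :
    H'.map (H.starProjection : V d →ₗ[ℝ] V d) ≤ H := by
  rintro _ ⟨h, _, rfl⟩
  exact H.starProjection_apply_mem h

lemma finrank_map_eq (hδ : δ < 1) (h : ∀ x ∈ H', ‖Hᗮ.starProjection x‖ ≤ δ * ‖x‖) :
    Module.finrank ℝ (H'.map (H.starProjection : V d →ₗ[ℝ] V d)) = Module.finrank ℝ H' := by
  set g : H' →ₗ[ℝ] V d := (H.starProjection : V d →ₗ[ℝ] V d).domRestrict H'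
  have hinj : Function.Injective g := by
    rw [← LinearMap.ker_eq_bot, LinearMap.ker_eq_bot']
    intro x hx
    have h1 := h x.1 x.2
    have h2 : Hᗮ.starProjection x.1 = x.1 := by
      have e := H.starProjection_add_starProjection_orthogonal x.1
      have hx' : H.starProjection x.1 = 0 := hx
      rwa [hx', zero_add] at e
    rw [h2] at h1
    have : ‖(x.1 : V d)‖ = 0 := le_antisymm (by nlinarith [norm_nonneg (x.1 : V d)]) (norm_nonneg _)
    exact Subtype.ext (norm_eq_zero.1 this)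
  have : LinearMap.range g = H'.map (H.starProjection : V d →ₗ[ℝ] V d) := by
    ext z
    simp [g, Submodule.mem_map]
  rw [← this, LinearMap.finrank_range_of_inj hinj]

lemma finrank_free (hδ : δ < 1) (h : ∀ x ∈ H', ‖Hᗮ.starProjection x‖ ≤ δ * ‖x‖) :
    Module.finrank ℝ H' + Module.finrank ℝ (freeSub H H') = Module.finrank ℝ H := by
  rw [← finrank_map_eq hδ h]
  exact Submodule.finrank_add_inf_finrank_orthogonal (map_le_self H H')

/-- Splitting a vector along `H^⊥`, the freed subspace and a small remainder. -/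
lemma orth_split_le (hδ0 : 0 ≤ δ) (hδ : δ ≤ 1 / 2)
    (h : ∀ x ∈ H', ‖Hᗮ.starProjection x‖ ≤ δ * ‖x‖) (y : V d) :
    ‖H'ᗮ.starProjection y‖ ≤
      √(‖Hᗮ.starProjection y‖ ^ 2 + ‖(freeSub H H').starProjection y‖ ^ 2) + 2 * δ * ‖y‖ := by
  set S := H'.map (H.starProjection : V d →ₗ[ℝ] V d) with hS
  have hSH : S ≤ H := map_le_self H H'
  set a := Hᗮ.starProjection y
  set q := S.starProjection y
  set p := H.starProjection y
  have hy : p + a = y := H.starProjection_add_starProjection_orthogonal y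
  have hqS : q ∈ S := S.starProjection_apply_mem y
  have hw : p - q ∈ freeSub H H' := by
    refine Submodule.mem_inf.2 ⟨?_, H.sub_mem (H.starProjection_apply_mem y) (hSH hqS)⟩
    have h1 : y - q ∈ Sᗮ := S.sub_starProjection_mem_orthogonal y
    have h2 : a ∈ Sᗮ := Submodule.orthogonal_le hSH (Hᗮ.starProjection_apply_mem y)
    have : p - q = (y - q) - a := by rw [← hy]; abel
    rw [this]
    exact Sᗮ.sub_mem h1 h2
  have hW : (freeSub H H').starProjection y = p - q := by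
    refine Submodule.eq_starProjection_of_mem_of_inner_eq_zero hw fun u hu => ?_
    obtain ⟨hu1, hu2⟩ := Submodule.mem_inf.1 hu
    have : y - (p - q) = a + q := by rw [← hy]; abel
    rw [this, inner_add_left, real_inner_comm, inner_eq_zero_of_orth hu2 (Hᗮ.starProjection_apply_mem y),
      inner_eq_zero_of_orth hqS hu1, add_zero]
  rw [hW]
  have hdec : y = (a + (p - q)) + q := by rw [← hy]; abel
  obtain ⟨x, hx, hxq⟩ := hqS
  have hxq' : H.starProjection x = q := hxq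
  have h1 : ‖H'ᗮ.starProjection q‖ ≤ 2 * δ * ‖y‖ := by
    have hz : H'ᗮ.starProjection x = 0 :=
      (Submodule.starProjection_apply_eq_zero_iff _).2 (H'.le_orthogonal_orthogonal hx)
    have hxe : x = q + Hᗮ.starProjection x := by
      rw [← hxq']; exact (H.starProjection_add_starProjection_orthogonal x).symm
    have h2 : H'ᗮ.starProjection q = -(H'ᗮ.starProjection (Hᗮ.starProjection x)) := by
      conv_lhs => rw [show q = x - Hᗮ.starProjection x from eq_sub_of_add_eq hxe.symm]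
      rw [map_sub, hz, zero_sub]
    rw [h2, norm_neg]
    refine (H'ᗮ.norm_starProjection_apply_le _).trans ((h x hx).trans ?_)
    have h3 : ‖x‖ ≤ ‖q‖ + δ * ‖x‖ := by
      have := norm_add_le q (Hᗮ.starProjection x)
      rw [← hxe] at this
      linarith [h x hx]
    have h4 : ‖q‖ ≤ ‖y‖ := S.norm_starProjection_apply_le y
    have h5 : ‖x‖ ≤ 2 * ‖y‖ := by nlinarith [norm_nonneg x]
    nlinarith
  have h2 : ‖a + (p - q)‖ = √(‖a‖ ^ 2 + ‖p - q‖ ^ 2) := by
    rw [← Real.sqrt_sq (norm_nonneg (a + (p - q)))]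
    congr 1
    rw [norm_add_sq_real, real_inner_comm,
      inner_eq_zero_of_orth (Submodule.mem_inf.1 hw).2 (Hᗮ.starProjection_apply_mem y)]
    ring
  conv_lhs => rw [hdec, map_add]
  refine (norm_add_le _ _).trans (add_le_add ?_ h1)
  rw [← h2]
  exact H'ᗮ.norm_starProjection_apply_le _

end Free

section

variable {r e : ℕ} {M : V d →L[ℝ] V d} {b : OrthonormalBasis (Fin d) ℝ (V d)} {mu : Fin d → ℝ}

lemma InZ.congr_left {s e : ℕ} {K : ℝ} {y y' : V d} (h : InZ v s e K y) (he : y = y') :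
    InZ v s e K y' := he ▸ h

/-- The rest map of a junction is a displacement map. -/
lemma disp_Tmap (hd : 1 ≤ d) (hP : Pure v r e M b mu) {Φ : V d →L[ℝ] V d} {K : ℝ} (hK : 0 ≤ K)
    (hΦ : Disp v r e K Φ) (hT : ∀ x, ‖Tmap b mu Φ x‖ ≤ ‖x‖) :
    Disp v r e (K + 1) (Tmap b mu Φ) := by
  set g : Fin d → ℝ := fun i => kap d * √(mu i)
  have hκ := kap_small (d := d) hd
  have hκD : kap d * DD d ≤ 1 := by
    have := const_DD_div_le (d := d) (c := 1) (k := 0) (a := 1) (b := 30) (e := 0) (by norm_num)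
      (by norm_num)
    rw [pow_one, one_mul, pow_zero, inv_one] at this
    rw [kap, mul_comm]; exact this
  have hE : ∀ x, InZ v r e ‖x‖ (diagOp b g x) := fun x =>
    (hP.drift_realise x).mono (mul_le_of_le_one_left (norm_nonneg x) hκD)
  have hg : ∀ i, 0 ≤ g i ∧ g i ≤ 1 := fun i => by
    refine ⟨mul_nonneg hκ.1.le (Real.sqrt_nonneg _), ?_⟩
    have h1 : √(mu i) ≤ DD d := by
      rw [Real.sqrt_le_left DD_pos.le]
      nlinarith [hP.le i, natCast_le_DD (d := d), one_le_DD (d := d)]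
    exact (mul_le_mul_of_nonneg_left h1 hκ.1.le).trans hκD
  have hcontr : ∀ x : V d, ‖x - diagOp b g x‖ ≤ ‖x‖ := fun x => by
    refine le_of_pow_le_pow_left₀ two_ne_zero (norm_nonneg _) ?_
    rw [← b.sum_sq_inner_right, ← b.sum_sq_inner_right]
    refine Finset.sum_le_sum fun i _ => ?_
    rw [inner_sub_right, coord_diagOp, ← one_sub_mul, mul_pow]
    exact mul_le_of_le_one_left (sq_nonneg _)
      (pow_le_one₀ (by linarith [(hg i).2]) (by linarith [(hg i).1]))
  have hadj : ∀ x, (Tmap b mu Φ).adjoint x = Φ.adjoint (x - diagOp b g x) := fun x => by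
    rw [Tmap, map_sub, ContinuousLinearMap.adjoint_comp, diagOp_adjoint', map_sub]
    rfl
  refine ⟨hΦ.le, hT, fun x => ?_, fun x => ?_⟩
  · refine (((hΦ.fwd x).add ((hE (Φ x)).mono (hΦ.contr x)).neg).congr_left ?_).mono (le_of_eq ?_)
    · simp only [Tmap, g, sub_apply, ContinuousLinearMap.comp_apply]
      abel
    · ring
  · refine ((((hΦ.bwd (x - diagOp b g x)).mono (mul_le_mul_of_nonneg_left (hcontr x) hK)).add
      (hE x).neg).congr_left ?_).mono (le_of_eq ?_)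
    · rw [hadj]; abel
    · ring

/-- Data shared by a junction. -/
structure JData (v : ℕ → V d) (O O' : Owner d) (n : ℕ) (r : ℕ) : Prop where
  cs : O.cs ≤ r
  ce : r ≤ O.ce
  rk : n + 1 < O.rk
  k_le : ∀ x ∈ O'.H, ‖O.Hᗮ.starProjection x‖ ≤ (DD d ^ 80)⁻¹ * ‖x‖
  B_eq : O'.B = √(O.B ^ 2 + 4.5 * radW d ((O.trk - (n + 1)) + (O.tk - Module.finrank ℝ O'.H) + 1) ^ 2 + 3)

lemma radW_ge {X : ℕ} (hX : 1 ≤ X) : 280 ≤ radW d X ∧ radW d X ^ 2 = 20000 * LL d * X := by
  have hL := LL_ge (d := d)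
  have hX' : (1 : ℝ) ≤ X := by exact_mod_cast hX
  refine ⟨Real.le_sqrt_of_sq_le (by nlinarith), Real.sq_sqrt (by positivity)⟩

/-- The tail in the freed subspace. -/
lemma free_tail {O O' : Owner d} {n r : ℕ} (hO : O.WF v) (hJ : JData v O O' n r) :
    4 * (2 * Real.exp ((Module.finrank ℝ (freeSub O.H O'.H) : ℝ) / 2
        - (radW d ((O.trk - (n + 1)) + (O.tk - Module.finrank ℝ O'.H) + 1) - 2) ^ 2 / 16))
      ≤ beta d O.trk (n + 1) := by
  have hδ : (DD d ^ 80)⁻¹ < 1 :=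
    inv_lt_one_of_one_lt₀ (one_lt_pow₀ (by linarith [DD_ge (d := d)]) (by norm_num))
  have hfr := finrank_free hδ hJ.k_le
  set X := (O.trk - (n + 1)) + (O.tk - Module.finrank ℝ O'.H) + 1 with hX
  obtain ⟨hr, hr2⟩ := radW_ge (d := d) (X := X) (by omega)
  have hrk := hO.rk_le
  have hj : ((O.trk + 1 - (n + 1) : ℕ) : ℝ) ≤ X := by
    exact_mod_cast (by omega : O.trk + 1 - (n + 1) ≤ X)
  have hk : (Module.finrank ℝ (freeSub O.H O'.H) : ℝ) ≤ X := by
    have := hO.k_le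
    exact_mod_cast (by omega : Module.finrank ℝ (freeSub O.H O'.H) ≤ X)
  have hX2 : (2 : ℝ) ≤ X := by
    have := hJ.rk
    exact_mod_cast (by omega : 2 ≤ X)
  rw [← mul_assoc]
  refine exp_le_beta' (by norm_num) (by linarith [DD_ge (d := d)]) ?_
  have h1 : radW d X ^ 2 / 4 ≤ (radW d X - 2) ^ 2 := by nlinarith
  have hL := LL_ge (d := d)
  have h2 := mul_le_mul_of_nonneg_right hj (LL_pos (d := d)).le
  nlinarith

/-- The orthogonal bound handed to the child owner. -/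
lemma child_orth_bound {O O' : Owner d} {n r : ℕ} (hO : O.WF v) (hJ : JData v O O' n r)
    (hcsr : O.cs ≤ r) (hrce : r ≤ O.ce) {y : V d} (hhy : Hist v O r y) {lb : ℕ}
    (hyR : ‖y‖ ≤ Rg d lb) (hlb : lb ≤ 500 * (d + 100))
    (hWy : ‖(freeSub O.H O'.H).starProjection y‖ ≤
      2 * radW d ((O.trk - (n + 1)) + (O.tk - Module.finrank ℝ O'.H) + 1) + 1) :
    ‖O'.Hᗮ.starProjection y‖ ≤ O'.B := by
  set X := (O.trk - (n + 1)) + (O.tk - Module.finrank ℝ O'.H) + 1 with hX
  obtain ⟨hrad, hrad2⟩ := radW_ge (d := d) (X := X) (by omega)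
  set rad := radW d X
  set W := freeSub O.H O'.H
  have hR := RR_ge (d := d)
  have hR4 := RR_le_DD (d := d)
  have hRg := Rg_le (d := d) hlb
  have hL := hist_orth_sharp hO hcsr hrce hhy
  set δ := (DD d ^ 70)⁻¹ with hδ
  have hδ0 : 0 < δ := inv_pos.2 (pow_pos DD_pos _)
  have hdd : (DD d ^ 80)⁻¹ ≤ 1 / 2 := by
    rw [one_div]; refine inv_anti₀ (by norm_num) ?_
    linarith [DD_pow_mono (d := d) (show 1 ≤ 80 by norm_num), pow_one (DD d), DD_ge (d := d)]
  have hsplit := orth_split_le (inv_nonneg.2 (pow_nonneg DD_pos.le _)) hdd hJ.k_le y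
  have hy2 : 2 * (DD d ^ 80)⁻¹ * ‖y‖ ≤ δ := by
    have h := const_DD_div_le (d := d) (c := 4) (k := 1) (a := 4) (b := 80) (e := 70)
      (by norm_num) (by norm_num)
    refine le_trans ?_ h
    calc 2 * (DD d ^ 80)⁻¹ * ‖y‖ = 2 * ‖y‖ * (DD d ^ 80)⁻¹ := by ring
      _ ≤ _ := mul_le_mul_of_nonneg_right (by linarith) (inv_nonneg.2 (pow_nonneg DD_pos.le _))
  have hLy : ‖O.Hᗮ.starProjection y‖ ≤ O.B + δ := by
    refine hL.trans (add_le_add le_rfl ?_)
    have h := const_DD_div_le (d := d) (c := 1) (k := 0) (a := 6) (b := 90) (e := 70)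
      (by norm_num) (by norm_num)
    rwa [one_mul] at h
  rw [hJ.B_eq]
  refine hsplit.trans ((add_le_add le_rfl hy2).trans ?_)
  set u := ‖O.Hᗮ.starProjection y‖
  set z := ‖W.starProjection y‖
  have hu0 : 0 ≤ u := norm_nonneg _
  have hz0 : 0 ≤ z := norm_nonneg _
  have hQ : √(u ^ 2 + z ^ 2) ≤ u + z := by
    rw [Real.sqrt_le_left (by positivity)]; nlinarith
  refine Real.le_sqrt_of_sq_le ?_
  have hzR : z ≤ RR d + 1 := (W.norm_starProjection_apply_le y).trans (hyR.trans hRg)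
  have hsB : δ * (4 * O.B + 3 * RR d + 10) ≤ 1 := by
    have hB : O.B ≤ RR d := by linarith [hO.B_le, RR_eq (d := d), sDL_ge (d := d)]
    have h3 := const_DD_div_le (d := d) (c := 17) (k := 1) (a := 4) (b := 70) (e := 0)
      (by norm_num) (by norm_num)
    rw [pow_zero, inv_one] at h3
    refine le_trans ?_ h3
    rw [mul_comm]
    exact mul_le_mul_of_nonneg_right (by linarith [one_le_pow₀ (one_le_DD (d := d)) (n := 4)])
      hδ0.le
  have hz2 : z ^ 2 ≤ (2 * rad + 1) ^ 2 := pow_le_pow_left₀ hz0 hWy 2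
  have hr45 : (2 * rad + 1) ^ 2 ≤ 4.5 * rad ^ 2 := by
    clear * - hrad
    nlinarith
  have hu2 : u ^ 2 ≤ (O.B + δ) ^ 2 := pow_le_pow_left₀ hu0 hLy 2
  have hQ2 := Real.sq_sqrt (add_nonneg (sq_nonneg u) (sq_nonneg z))
  have hQ3 := mul_le_mul_of_nonneg_left (hQ.trans (add_le_add hLy hzR)) hδ0.le
  have hδ1 : δ ≤ 1 := inv_le_one_of_one_le₀ (one_le_pow₀ one_le_DD)
  have hδ2 := mul_le_mul_of_nonneg_left hδ1 hδ0.le
  have e1 : (√(u ^ 2 + z ^ 2) + δ) ^ 2
      = √(u ^ 2 + z ^ 2) ^ 2 + 2 * (δ * √(u ^ 2 + z ^ 2)) + δ * δ := by ring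
  have e2 : (O.B + δ) ^ 2 = O.B ^ 2 + 2 * (δ * O.B) + δ * δ := by ring
  have e3 : δ * (O.B + δ + (RR d + 1)) = δ * O.B + δ * δ + δ * RR d + δ := by ring
  have e4 : δ * (4 * O.B + 3 * RR d + 10) = 4 * (δ * O.B) + 3 * (δ * RR d) + 10 * δ := by ring
  have e5 : 0 ≤ δ * RR d := mul_nonneg hδ0.le RR_pos.le
  linarith

lemma eta'_small {x : V d} (hx : ‖x‖ ≤ 2 * RR d) : eta' d * ‖x‖ ≤ 1 := by
  have h3 := const_DD_div_le (d := d) (c := 2) (k := 1) (a := 4) (b := 60) (e := 0)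
    (by norm_num) (by norm_num)
  rw [pow_zero, inv_one] at h3
  refine le_trans ?_ h3
  show (DD d ^ 60)⁻¹ * _ ≤ _
  rw [mul_comm]
  exact mul_le_mul_of_nonneg_right (hx.trans (by linarith [RR_le_DD (d := d)]))
    (inv_nonneg.2 (pow_nonneg DD_pos.le _))

/-- The budget of a junction's penalty. -/
lemma junction_budget {O O' : Owner d} {n r : ℕ} (hO : O.WF v) (hJ : JData v O O' n r)
    {Ω' : V d → ℝ} (hΩ'A : Adm Ω') (c1 : V d) (hc1 : ‖c1‖ ≤ 2 * RR d) {βΩ : ℝ}
    (h : gE (fun g => Ω' (c1 + O.sd • g)) ≤ βΩ) :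
    gE (fun g => max (‖c1 + O.sd • g‖ - 4 * RR d) 0
        + max (‖(freeSub O.H O'.H).starProjection (c1 + O.sd • g - c1)‖
            - (radW d ((O.trk - (n + 1)) + (O.tk - Module.finrank ℝ O'.H) + 1) - 1)) 0
        + Ω' (c1 + O.sd • g)) ≤ beta d O.rk (n + 1) / 2 + βΩ := by
  set X := (O.trk - (n + 1)) + (O.tk - Module.finrank ℝ O'.H) + 1 with hX
  obtain ⟨hrad, hrad2⟩ := radW_ge (d := d) (X := X) (by omega)
  set rad := radW d X
  set W := freeSub O.H O'.H
  obtain ⟨hs1, hs2⟩ := sd_bounds hO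
  have hR := RR_ge (d := d)
  have hA1 : Adm fun g : V d => max (‖c1 + O.sd • g‖ - 4 * RR d) 0 :=
    (Adm.norm.pospart _).shift c1 O.sd
  have hA2 : Adm fun g : V d => max (‖W.starProjection (c1 + O.sd • g - c1)‖ - (rad - 1)) 0 := by
    have := (((Adm.norm_clm W.starProjection).comp_add_right (-c1)).pospart (rad - 1)).shift c1 O.sd
    simpa only [← sub_eq_add_neg] using this
  rw [gE_fadd (hA1.add hA2) (hΩ'A.shift c1 O.sd), gE_fadd hA1 hA2]
  have e1 : gE (fun g => max (‖c1 + O.sd • g‖ - 4 * RR d) 0) ≤ beta d O.rk (n + 1) / 4 := by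
    refine (norm_excess_le (by linarith) (by linarith) hc1 (by linarith)).trans ?_
    have := big_tail (d := d) (t := O.rk) (n := n + 1) (c := 8) (x := 2 * RR d - 1)
      (hO.rk_le.trans hO.trk_le) (le_refl d) (by norm_num) (by norm_num)
      (by linarith [RR_eq (d := d), sDL_ge (d := d)])
    linarith
  have e2 : gE (fun g => max (‖W.starProjection (c1 + O.sd • g - c1)‖ - (rad - 1)) 0)
      ≤ beta d O.rk (n + 1) / 4 := by
    refine (tail_centred W (by linarith) (by linarith) c1 (by linarith)).trans ?_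
    have h := free_tail hO hJ
    have hmono := beta_anti (d := d) (n := n + 1) hO.rk_le
    have : Real.exp ((Module.finrank ℝ W : ℝ) / 2 - (rad - 1) ^ 2 / 16)
        ≤ Real.exp ((Module.finrank ℝ W : ℝ) / 2 - (rad - 2) ^ 2 / 16) :=
      Real.exp_le_exp.2 (by
        have := pow_le_pow_left₀ (show 0 ≤ rad - 2 by linarith) (show rad - 2 ≤ rad - 1 by linarith) 2
        linarith)
    linarith
  linarith

lemma Kgr_big {Kr : ℝ} (hKr : Kr + 1 ≤ KP d) {p t : ℝ} (hp : 0 ≤ p) (ht : t ≤ 4 * RR d + p)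
    (ht0 : 0 ≤ t) (l : ℕ) : (Kr + 2) * t + 1 ≤ Kgr d l * (1 + p) := by
  have hK : KP d = DD d ^ 4 := rfl
  have hone := one_le_pow₀ (one_le_DD (d := d)) (n := 4)
  have hR4 := RR_le_DD (d := d)
  have h1 : Kr + 2 ≤ 2 * DD d ^ 4 := by linarith
  have h2 : t ≤ 5 * DD d ^ 4 * (1 + p) := by nlinarith
  have h4 : 11 * DD d ^ 8 ≤ Kgr d l := by
    have h1 : 11 * DD d ^ 8 ≤ DD d ^ 10 := const_mul_DD_pow_le (k := 1) (by norm_num) (by norm_num)
    have h2 : (0 : ℝ) ≤ (l : ℝ) / DD d ^ 4 := by have := DD_pos (d := d); positivity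
    unfold Kgr
    linarith
  have h5 := mul_le_mul h1 h2 ht0 (by linarith)
  have h6 := mul_le_mul_of_nonneg_right h4 (by linarith : (0 : ℝ) ≤ 1 + p)
  have h7 : 1 ≤ DD d ^ 8 * (1 + p) :=
    one_le_mul_of_one_le_of_one_le (one_le_pow₀ one_le_DD) (by linarith)
  have e : 2 * DD d ^ 4 * (5 * DD d ^ 4 * (1 + p)) = 10 * (DD d ^ 8 * (1 + p)) := by ring
  linarith

theorem chain_junction (hd : 1 ≤ d) {O O' : Owner d} (hO : O.WF v) {n : ℕ} {s r e : ℕ}
    (hJ : O.cs ≤ r → r ≤ O.ce → JData v O O' n r) (hH : O'.H = hiSpan b mu)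
    (hP : Pure v r e M b mu) {lb : ℕ} (hlb : lb + 3 ≤ 500 * (d + 100))
    {Φe : V d →L[ℝ] V d} {Ke : ℝ} (hKe0 : 0 ≤ Ke) (hKe : Ke + 2 ≤ KP d)
    (hΦe : Disp v s r Ke Φe) {β₁e β₂e : ℝ} (hCe : Chain v O lb s r Φe β₁e β₂e)
    (hkill : ∀ h ∈ hiSpan b mu, ‖Φe.adjoint h‖ ≤ eta' d * ‖h‖)
    {Φr : V d →L[ℝ] V d} {Kr : ℝ} (hKr0 : 0 ≤ Kr) (hKr : Kr + 1 ≤ KP d)
    (hΦr : Disp v r e Kr Φr)
    (hT : ∀ x, ‖Tmap b mu Φr x‖ ≤ ‖x‖)
    (hdom : ∀ t, O.sd ^ 2 * ‖(Tmap b mu Φr).adjoint t‖ ^ 2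
      + ‖(Amap b mu O'.sd).adjoint t‖ ^ 2 ≤ O.sd ^ 2 * ‖t‖ ^ 2)
    {Ω' : V d → ℝ} (hΩ'A : Adm Ω') (hΩ'0 : ∀ x, 0 ≤ Ω' x) {βΩ : ℝ}
    (hΩ'b : ∀ (σ : ℝ) (u : V d), 0 ≤ σ → σ ≤ 2 → ‖O'.H.starProjection u‖ ≤ 1 → ‖u‖ ≤ 2 * RR d →
        gE (fun g => Ω' (u + σ • g)) ≤ βΩ)
    (hgood : ∀ y, ‖y‖ ≤ Rg d lb → ‖O'.Hᗮ.starProjection y‖ ≤ O'.B → Ω' y < 1 → ∀ a : ℕ → ℝ,
        (∀ i ∈ Finset.Ico r e, |a i| ≤ alf d (lb + 2)) → ∀ f : V d → ℝ, Adm f →
        ∃ w : ℕ → ℝ, SignOn r e w ∧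
          (∀ k, r ≤ k → k ≤ e → ‖y + disp v r k (w - a)‖ ≤ Rg d (lb + 2)) ∧
          f (y + disp v r e (w - a))
            ≤ gE (fun g => f (Tmap b mu Φr y + Amap b mu O'.sd g))) :
    Chain v O (lb + 3) s e (Tmap b mu Φr ∘L Φe)
      (β₁e + (beta d O.rk (n + 1) / 2 + βΩ)) (β₂e + beta d O.trk (n + 1) / 4) := by
  classical
  have hsr := hΦe.le
  have hre := hΦr.le
  set T := Tmap b mu Φr
  set A := Amap b mu O'.sd
  have hTd : Disp v r e (Kr + 1) T := disp_Tmap hd hP hKr0 hΦr hT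
  refine ⟨hsr.trans hre, fun bs Ψ hcs hbs hce hΨ => ?_⟩
  have hcsr : O.cs ≤ r := hcs.trans (hbs.trans hsr)
  have hrce : r ≤ O.ce := hre.trans hce
  have hJ := hJ hcsr hrce
  set W := freeSub O.H O'.H
  set X := (O.trk - (n + 1)) + (O.tk - Module.finrank ℝ O'.H) + 1 with hX
  obtain ⟨hrad, hrad2⟩ := radW_ge (d := d) (X := X) (by omega)
  set rad := radW d X
  obtain ⟨Ωe, hΩeA, hΩe0, hΩeb, hrest⟩ := hCe.2 bs Ψ hcs hbs hrce hΨ
  have hΨ2 : Disp v bs r (KP d) (Φe ∘L Ψ) := (hΨ.comp hKe0 hΦe).mono (max_le le_rfl hKe)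
  have hWH : ∀ x, ‖W.starProjection x‖ ≤ ‖O.H.starProjection x‖ := fun x => by
    rw [← W.starProjection_comp_starProjection_of_le inf_le_right]
    exact W.norm_starProjection_apply_le _
  set omW : V d → ℝ := fun x =>
    max (‖W.starProjection (Φe (Ψ (O.H.starProjection x)))‖ - (rad - 1)) 0 with homW
  have homA : Adm omW :=
    (Adm.norm_clm (W.starProjection ∘L Φe ∘L Ψ ∘L O.H.starProjection)).pospart _
  refine ⟨fun x => omW x + Ωe x, homA.add hΩeA, fun x => add_nonneg (le_max_right _ _) (hΩe0 x),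
    fun σ u h1 h2 h3 h4 => ?_, fun x₀ hx₀ hΩ a ha f hf P hPP => ?_⟩
  · rw [gE_fadd (homA.shift u σ) (hΩeA.shift u σ)]
    have h5 := hΩeb σ u h1 h2 h3 h4
    have h6 : gE (fun g => omW (u + σ • g)) ≤ beta d O.trk (n + 1) / 4 := by
      refine le_trans (tail_image W (Φe ∘L Ψ ∘L O.H.starProjection)
        (fun x => ((hΦe.contr _).trans (hΨ.contr _)).trans (O.H.norm_starProjection_apply_le x))
        h1 h2 u (((W.norm_starProjection_apply_le _).trans
          ((hΦe.contr _).trans (hΨ.contr _))).trans h3) (r := rad) (by linarith)) ?_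
      have := free_tail hO hJ
      linarith
    linarith
  set c1 := Φe (Ψ x₀)
  have hc1 : ‖c1‖ ≤ 2 * RR d := ((hΦe.contr _).trans (hΨ.contr x₀)).trans hx₀
  set pj : V d → ℝ := fun y =>
    max (‖y‖ - 4 * RR d) 0 + max (‖W.starProjection (y - c1)‖ - (rad - 1)) 0 + Ω' y with hpj
  have hpW : Adm fun y => max (‖W.starProjection (y - c1)‖ - (rad - 1)) 0 := by
    have := ((Adm.norm_clm W.starProjection).comp_add_right (-c1)).pospart (rad - 1)
    simpa only [← sub_eq_add_neg] using this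
  have hpjA : Adm pj := ((Adm.norm.pospart _).add hpW).add hΩ'A
  have hpj0 : ∀ y, 0 ≤ pj y := fun y =>
    add_nonneg (add_nonneg (le_max_right _ _) (le_max_right _ _)) (hΩ'0 y)
  set fJ : V d → ℝ := fun y => gE (fun g => f (T y + A g)) + P * pj y with hfJ
  have hG : Adm fun y => gE fun g => f (T y + A g) := by simpa using hf.gE_comp 0 T A
  have hfJA : Adm fJ := hG.add (hpjA.const_mul hPP)
  obtain ⟨f₀, hf₀, hle, hstep⟩ := hrest x₀ hx₀
    (by linarith [le_max_right (‖W.starProjection (Φe (Ψ (O.H.starProjection x₀)))‖ - (rad - 1)) 0])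
    a (fun i hi => (ha i (Finset.mem_Ico.2 ⟨(Finset.mem_Ico.1 hi).1,
      (Finset.mem_Ico.1 hi).2.trans_le hre⟩)).trans (alf_mono (by omega))) fJ hfJA P hPP
  obtain ⟨hs1, hs2⟩ := sd_bounds hO
  have hR := RR_ge (d := d)
  have hR4 := RR_le_DD (d := d)
  refine ⟨f₀, hf₀, hle.trans ?_, fun x => ?_⟩
  · show gE (fun g => fJ (c1 + O.sd • g)) + P * β₁e ≤ _
    simp only [hfJ]
    rw [gE_fadd (hG.shift c1 O.sd) ((hpjA.shift c1 O.sd).const_mul hPP), gE_cmul]
    have h1 : gE (fun g => gE fun h => f (T (c1 + O.sd • g) + A h))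
        ≤ gE (fun g => f (T c1 + O.sd • g)) := by
      have := cx2 T A O.sd hdom f hf (T c1)
      simpa [map_add, map_smul, add_assoc] using this
    have h2 : gE (fun g => pj (c1 + O.sd • g)) ≤ beta d O.rk (n + 1) / 2 + βΩ :=
      junction_budget hO hJ hΩ'A c1 hc1 (hΩ'b O.sd c1 (by linarith) (by linarith)
        (by
          rw [hH]
          refine (norm_proj_le_of_adjoint (inv_nonneg.2 (pow_nonneg DD_pos.le _)) hkill _).trans ?_
          exact eta'_small ((hΨ.contr x₀).trans hx₀)) hc1)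
    have h3 := mul_le_mul_of_nonneg_left h2 hPP
    simp only [ContinuousLinearMap.comp_apply]
    linarith
  obtain ⟨w₁, p₁, hp₁, hf1, hw1, hs1', hgood1⟩ := hstep x
  set y := x + disp v s r (w₁ - a) with hy
  have hKg : Kgr d lb ≤ Kgr d (lb + 3) := Kgr_mono (by omega)
  have hKg0 : 0 ≤ Kgr d lb := by unfold Kgr; have := DD_pos (d := d); positivity
  have hfJy : gE (fun g => f (T y + A g)) + P * pj y = fJ y := rfl
  -- glue two coefficient functions
  have glue : ∀ w₂ : ℕ → ℝ, ∀ k, r ≤ k →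
      x + disp v s k ((fun i => if i < r then w₁ i else w₂ i) - a) = y + disp v r k (w₂ - a) := by
    intro w₂ k hk
    rw [disp_concat hsr hk, hy, ← add_assoc]
    congr 1
    · congr 1
      exact disp_congr fun i hi => by
        have : i < r := (Finset.mem_Ico.1 hi).2
        simp [this]
    · exact disp_congr fun i hi => by
        have : ¬ i < r := not_lt.2 (Finset.mem_Ico.1 hi).1
        simp [this]
  have glue' : ∀ w₂ : ℕ → ℝ, ∀ k, k ≤ r →
      disp v s k ((fun i => if i < r then w₁ i else w₂ i) - a) = disp v s k (w₁ - a) := by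
    intro w₂ k hk
    exact disp_congr fun i hi => by
      have : i < r := (Finset.mem_Ico.1 hi).2.trans_le hk
      simp [this]
  by_cases hg : Hist v O s x ∧ p₁ + pj y < 1
  · obtain ⟨hh, hlt⟩ := hg
    obtain ⟨sg1, st1⟩ := hgood1 hh (by linarith [hpj0 y])
    have hyR : ‖y‖ ≤ Rg d lb := st1 r hsr le_rfl
    have hRg := Rg_le (d := d) (l := lb) (by omega)
    have hhy : Hist v O r y := by
      obtain ⟨x₀', hx0', hB', hz⟩ := hh
      refine ⟨x₀', hx0', hB', ?_⟩
      have hKH : 4 * RR d ≤ KH d ∧ (2 : ℝ) ≤ KH d := by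
        have h1 : 4 * DD d ^ 4 ≤ DD d ^ 6 := const_mul_DD_pow_le (k := 1) (by norm_num) (by norm_num)
        exact ⟨by unfold KH; linarith, by unfold KH; linarith⟩
      have := InZ.concat' (hcs.trans hbs) hsr hz (w' := w₁ - a) (fun i hi => ?_) (fun k ka kb => ?_)
      · exact this.congr_left (by rw [hy]; abel)
      · have h1 := ha i (Finset.mem_Ico.2 ⟨(Finset.mem_Ico.1 hi).1,
          (Finset.mem_Ico.1 hi).2.trans_le hre⟩)
        have h2 : |w₁ i| = 1 := by rcases sg1 i hi with h | h <;> simp [h]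
        have := abs_sub (w₁ i) (a i)
        have := alf_le_half (d := d) (lb + 3)
        simp only [Pi.sub_apply]
        linarith [hKH.2]
      · have h1 := st1 k ka kb
        rw [show x - x₀' + disp v s k (w₁ - a) = (x + disp v s k (w₁ - a)) - x₀' by abel]
        linarith [norm_sub_le (x + disp v s k (w₁ - a)) x₀', hKH.1]
    have hB' : ‖O'.Hᗮ.starProjection y‖ ≤ O'.B := by
      have hcross := proj_cross_small hO hcs hrce hΨ2 x₀ hx₀
      have hWc : ‖W.starProjection c1‖ ≤ rad + 1 / 4 := by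
        have e : x₀ = O.H.starProjection x₀ + O.Hᗮ.starProjection x₀ :=
          (O.H.starProjection_add_starProjection_orthogonal x₀).symm
        simp only [c1]
        conv_lhs => rw [e, map_add, map_add, map_add]
        refine (norm_add_le _ _).trans (add_le_add ?_ ((hWH _).trans hcross))
        simp only [homW] at hΩ
        linarith [hΩe0 x₀,
          le_max_left (‖W.starProjection (Φe (Ψ (O.H.starProjection x₀)))‖ - (rad - 1)) 0]
      have hWy : ‖W.starProjection y‖ ≤ 2 * rad + 1 := by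
        have h1 : ‖W.starProjection (y - c1)‖ ≤ rad := by
          simp only [hpj] at hlt
          linarith [le_max_left (‖W.starProjection (y - c1)‖ - (rad - 1)) 0, hΩ'0 y,
            le_max_right (‖y‖ - 4 * RR d) 0]
        rw [map_sub] at h1
        linarith [norm_le_norm_add_norm_sub' (W.starProjection y) (W.starProjection c1)]
      exact child_orth_bound hO hJ hcsr hrce hhy hyR (by omega) hWy
    obtain ⟨w₂, sg2, st2, hf2⟩ := hgood y hyR hB'
      (by simp only [hpj] at hlt; linarith [le_max_right (‖y‖ - 4 * RR d) 0,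
        le_max_right (‖W.starProjection (y - c1)‖ - (rad - 1)) 0])
      a (fun i hi => (ha i (Finset.mem_Ico.2 ⟨hsr.trans (Finset.mem_Ico.1 hi).1,
        (Finset.mem_Ico.1 hi).2⟩)).trans (alf_mono (by omega))) f hf
    set w : ℕ → ℝ := fun i => if i < r then w₁ i else w₂ i with hw
    have hsign : SignOn s e w := fun i hi => by
      rcases lt_or_ge i r with h | h
      · simp only [hw, h, if_true]; exact sg1 i (Finset.mem_Ico.2 ⟨(Finset.mem_Ico.1 hi).1, h⟩)
      · simp only [hw, not_lt.2 h, if_false]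
        exact sg2 i (Finset.mem_Ico.2 ⟨h, (Finset.mem_Ico.1 hi).2⟩)
    have hst : ∀ k, s ≤ k → k ≤ e → ‖x + disp v s k (w - a)‖ ≤ Rg d (lb + 3) := fun k ka kb => by
      rcases le_or_gt k r with h | h
      · rw [hw, glue' w₂ k h]; exact (st1 k ka h).trans (Rg_mono (by omega))
      · rw [hw, glue w₂ k h.le]; exact (st2 k h.le kb).trans (Rg_mono (by omega))
    have hbig : RR d + 1 ≤ Kgr d (lb + 3) := by
      have h1 : 2 * DD d ^ 4 ≤ DD d ^ 10 := const_mul_DD_pow_le (k := 1) (by norm_num) (by norm_num)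
      have h2 : (0 : ℝ) ≤ ((lb + 3 : ℕ) : ℝ) / DD d ^ 4 := by have := DD_pos (d := d); positivity
      unfold Kgr
      linarith
    refine ⟨w, p₁ + pj y, add_nonneg hp₁ (hpj0 y), ?_, fun i hi => ?_, fun k ka kb => ?_,
      fun _ _ => ⟨hsign, hst⟩⟩
    · rw [hw, glue w₂ e hre]
      linarith
    · have : |w i| = 1 := by rcases hsign i hi with h | h <;> simp [h]
      rw [this]
      exact one_le_mul_of_one_le_of_one_le (by linarith) (by linarith [add_nonneg hp₁ (hpj0 y)])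
    · exact ((hst k ka kb).trans (Rg_le hlb)).trans (hbig.trans
        (le_mul_of_one_le_right (by linarith) (by linarith [add_nonneg hp₁ (hpj0 y)])))
  · obtain ⟨wt, hwt1, hwt2, hwt3⟩ := hTd.fwd y
    set w : ℕ → ℝ := fun i => if i < r then w₁ i else (a + wt) i with hw
    have hyb : ‖y‖ ≤ 4 * RR d + pj y := by
      simp only [hpj]
      linarith [le_max_left (‖y‖ - 4 * RR d) 0, hΩ'0 y,
        le_max_right (‖W.starProjection (y - c1)‖ - (rad - 1)) 0]
    have hpp := add_nonneg hp₁ (hpj0 y)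
    have hbig : (Kr + 2) * ‖y‖ + 1 ≤ Kgr d (lb + 3) * (1 + (p₁ + pj y)) :=
      Kgr_big hKr hpp (by linarith) (norm_nonneg y) _
    have hKy : (Kr + 1) * ‖y‖ ≤ (Kr + 2) * ‖y‖ :=
      mul_le_mul_of_nonneg_right (by linarith) (norm_nonneg y)
    refine ⟨w, p₁ + pj y, hpp, ?_, fun i hi => ?_, fun k ka kb => ?_,
      fun hh hlt => absurd ⟨hh, hlt⟩ hg⟩
    · rw [hw, glue (a + wt) e hre, show a + wt - a = wt by abel, hwt3, add_sub_cancel]
      have := le_gE f hf (T y) A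
      linarith
    · rcases lt_or_ge i r with h | h
      · simp only [hw, h, if_true]
        refine (hw1 i (Finset.mem_Ico.2 ⟨(Finset.mem_Ico.1 hi).1, h⟩)).trans ?_
        exact mul_le_mul hKg (by linarith [hpj0 y]) (by linarith) (hKg0.trans hKg)
      · simp only [hw, not_lt.2 h, if_false, Pi.add_apply]
        have h1 := hwt1 i (Finset.mem_Ico.2 ⟨h, (Finset.mem_Ico.1 hi).2⟩)
        have h2 := ha i hi
        have := alf_le_half (d := d) (lb + 3)
        linarith [abs_add_le (a i) (wt i)]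
    · rcases le_or_gt k r with h | h
      · rw [hw, glue' (a + wt) k h]
        refine (hs1' k ka h).trans ?_
        exact mul_le_mul hKg (by linarith [hpj0 y]) (by linarith) (hKg0.trans hKg)
      · rw [hw, glue (a + wt) k h.le, show a + wt - a = wt by abel]
        refine (norm_add_le _ _).trans ?_
        linarith [hwt2 k h.le kb]

end

end Vale.Agent.P262
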