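import Vale.Agent.P262.Chain
import Vale.Agent.P262.Design

/-!
Ranks, levels and the statement proved by induction on the rank.
-/

namespace Vale.Agent.P262

variable {d : ℕ}

/-- Rank of an interval. -/
noncomputable def rankOf (v : ℕ → V d) (s e : ℕ) : ℕ :=
  ⌊Real.log (detPot v (nu d) s e / nu d ^ d) / (4 * LL d)⌋₊ + 1

/-- Number of chunks that kill one factor. -/
def Q1 (d : ℕ) : ℕ := (d + 100) ^ 250

/-- Number of killing rounds. -/
def Q2 (d : ℕ) : ℕ := (d + 100) ^ 2

/-- Number of chunks in an expanded part or block. -/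
def QQ (d : ℕ) : ℕ := Q1 d * Q2 d

/-- Level of a node of rank `n`. -/
def lev (n : ℕ) : ℕ := 4 * n + 1

/-- The statement proved by induction on the rank. -/
def NodeP (v : ℕ → V d) (n : ℕ) : Prop :=
  ∀ O : Owner d, O.WF v → n < O.rk → ∀ s e, O.cs ≤ s → s ≤ e → e ≤ O.ce →
    (e = s ∨ e = s + 1 ∨ rankOf v s e ≤ n) →
    ∃ Φ : V d →L[ℝ] V d, Disp v s e (Kl (lev n)) Φ ∧
      Chain v O (lev n) s e Φ (beta d O.rk n) (beta d O.trk n)

end Vale.Agent.P262
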