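import Mathlib
import Vale.Agent.P262.Levels
import Vale.Agent.P262.Spectral
import Vale.Agent.P262.Traj

/-!
P262, module (D1): numeric facts for nodes: ranks, deficits of chunks, killing and the gap.
-/

namespace Vale.Agent.P262

open scoped RealInnerProductSpace

variable {d : ℕ}

lemma nu_pos : 0 < nu d := inv_pos.2 (pow_pos DD_pos _)

lemma rho_pos : 0 < rho d := inv_pos.2 (pow_pos DD_pos _)

lemma Q1_cast : (Q1 d : ℝ) = DD d ^ 250 := by
  simp only [Q1, DD, Nat.cast_pow, Nat.cast_add, Nat.cast_ofNat]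

lemma Q2_cast : (Q2 d : ℝ) = DD d ^ 2 := by
  simp only [Q2, DD, Nat.cast_pow, Nat.cast_add, Nat.cast_ofNat]

lemma rank_arg_nonneg (v : ℕ → V d) {s e : ℕ} :
    0 ≤ Real.log (detPot v (nu d) s e / nu d ^ d) / (4 * LL d) := by
  have hL := LL_pos (d := d)
  refine div_nonneg (Real.log_nonneg ?_) (by positivity)
  rw [le_div_iff₀ (pow_pos nu_pos d), one_mul]
  exact pow_le_detPot nu_pos

theorem rankOf_le (v : ℕ → V d) (hd : 1 ≤ d) {s e : ℕ} (hse : s ≤ e) : rankOf v s e ≤ NR d := by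
  have hL := LL_pos (d := d)
  have hν := nu_pos (d := d)
  have hDD := DD_pos (d := d)
  have hfloor : ⌊Real.log (detPot v (nu d) s e / nu d ^ d) / (4 * LL d)⌋₊ ≤ 76 * d := by
    refine Nat.le_of_lt_succ ((Nat.floor_lt (rank_arg_nonneg v)).2 ?_)
    have h1 : detPot v (nu d) s e / nu d ^ d ≤ (DD d ^ 301) ^ d := by
      rw [div_le_iff₀ (pow_pos hν d), ← mul_pow]
      refine (detPot_le hν hd hse).trans (pow_le_pow_left₀ (by positivity) ?_ d)
      have h2 : DD d ^ 301 * nu d = DD d := by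
        rw [nu, pow_succ' (DD d) 300, mul_inv_cancel_right₀ (pow_ne_zero _ hDD.ne')]
      have h3 : nu d ≤ 100 := by
        refine le_trans ?_ (by norm_num : (1 : ℝ) ≤ 100)
        exact inv_le_one_of_one_le₀ (one_le_pow₀ one_le_DD)
      rw [h2]
      simp only [DD]
      linarith
    have h4 : Real.log (detPot v (nu d) s e / nu d ^ d) ≤ d * (301 * LL d) := by
      refine (Real.log_le_log (div_pos (detPot_pos hν) (pow_pos hν d)) h1).trans (le_of_eq ?_)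
      rw [Real.log_pow, Real.log_pow]
      simp [LL]
    rw [div_lt_iff₀ (by positivity)]
    push_cast
    nlinarith [mul_le_mul_of_nonneg_right (show (0 : ℝ) ≤ (d : ℝ) from Nat.cast_nonneg d) hL.le]
  unfold rankOf NR
  omega

theorem rankOf_lt (v : ℕ → V d) (hd : 1 ≤ d) {s e s' e' : ℕ}
    (h : detPot v (nu d) s' e' < rho d * detPot v (nu d) s e) :
    rankOf v s' e' < rankOf v s e := by
  have _ := hd
  have hL := LL_pos (d := d)
  have hν := nu_pos (d := d)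
  have hP := detPot_pos (v := v) (s := s) (e := e) hν
  have hP' := detPot_pos (v := v) (s := s') (e := e') hν
  have hνd := pow_pos hν d
  set x := Real.log (detPot v (nu d) s e / nu d ^ d) / (4 * LL d)
  set x' := Real.log (detPot v (nu d) s' e' / nu d ^ d) / (4 * LL d)
  have hlt : x' + 1 < x := by
    rw [div_add_one (by positivity), div_lt_div_iff_of_pos_right (by positivity)]
    have h1 : detPot v (nu d) s' e' / nu d ^ d * DD d ^ 4 < detPot v (nu d) s e / nu d ^ d := by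
      rw [div_mul_eq_mul_div, div_lt_div_iff_of_pos_right hνd]
      rw [rho, inv_mul_eq_div, lt_div_iff₀ (pow_pos DD_pos 4)] at h
      exact h
    have h2 := Real.log_lt_log (mul_pos (div_pos hP' hνd) (pow_pos DD_pos 4)) h1
    rw [Real.log_mul (div_pos hP' hνd).ne' (pow_pos DD_pos 4).ne', Real.log_pow] at h2
    simpa [LL] using h2
  have h3 : ⌊x' + 1⌋₊ ≤ ⌊x⌋₊ := Nat.floor_le_floor hlt.le
  have hx' : 0 ≤ x' := rank_arg_nonneg v
  rw [Nat.floor_add_one hx'] at h3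
  rw [show rankOf v s' e' = ⌊x'⌋₊ + 1 from rfl, show rankOf v s e = ⌊x⌋₊ + 1 from rfl]
  omega

section Node

variable {v : ℕ → V d} {X0 X1 : ℕ} {M : V d →L[ℝ] V d} {b : OrthonormalBasis (Fin d) ℝ (V d)}
  {mu : Fin d → ℝ}

theorem chunk_deficit (hd : 1 ≤ d) (hP : Pure v X0 X1 M b mu) {s e : ℕ} (h0 : X0 ≤ s) (hse : s ≤ e)
    (h1 : e ≤ X1) (hdet : rho d * detPot v (nu d) X0 X1 ≤ detPot v (nu d) s e) (x : V d) :
    (DD d ^ 7)⁻¹ * ⟪M x, x⟫ - nu d * ‖x‖ ^ 2 ≤ ⟪regOp v (nu d) s e x, x⟫ := by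
  have hDD := DD_pos (d := d)
  have hν := nu_pos (d := d)
  have hc := regOp_compare hν hd h0 hse h1 rho_pos hdet x
  have hM := hP.le_reg (nu d) x hν
  set P0 := ⟪regOp v (nu d) X0 X1 x, x⟫ + nu d * ‖x‖ ^ 2
  have hP0 : 0 ≤ P0 := by
    have := inner_gramOp_self_nonneg (regTuple v (nu d) X0 X1) x
    simp only [P0, regOp]
    positivity
  have hcoef : (DD d ^ 7)⁻¹ * (2 * d) ≤ rho d / 30 := by
    rw [rho, le_div_iff₀ (by norm_num : (0 : ℝ) < 30)]
    calc (DD d ^ 7)⁻¹ * (2 * d) * 30 ≤ 60 * DD d ^ 1 * (DD d ^ 7)⁻¹ := by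
          rw [pow_one, show (DD d ^ 7)⁻¹ * (2 * (d : ℝ)) * 30 = 60 * (d : ℝ) * (DD d ^ 7)⁻¹ by ring]
          refine mul_le_mul_of_nonneg_right ?_ (by positivity)
          linarith [natCast_le_DD (d := d)]
      _ ≤ _ := const_DD_div_le (k := 1) (by norm_num) (by norm_num)
  have : (DD d ^ 7)⁻¹ * ⟪M x, x⟫ ≤ rho d / 30 * P0 :=
    calc (DD d ^ 7)⁻¹ * ⟪M x, x⟫ ≤ (DD d ^ 7)⁻¹ * (2 * d * P0) :=
          mul_le_mul_of_nonneg_left hM (by positivity)
      _ = (DD d ^ 7)⁻¹ * (2 * d) * P0 := by ring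
      _ ≤ _ := mul_le_mul_of_nonneg_right hcoef hP0
  linarith

theorem low_of_realise (hd : 1 ≤ d) (hP : Pure v X0 X1 M b mu) {s e : ℕ} (h0 : X0 ≤ s)
    (hse : s ≤ e) (h1 : e ≤ X1) {h : V d} (hh : InZ v s e (DD d ^ 7 * ‖h‖) h) :
    √(lowSq b mu (th2 d) h) ≤ (DD d ^ 70)⁻¹ * ‖h‖ := by
  have _ := hd
  have hDD := DD_pos (d := d)
  have hK : 0 ≤ DD d ^ 7 * ‖h‖ := by positivity
  have hz := InZ.extend h0 hse h1 hK hh
  rw [Real.sqrt_le_left (by positivity)]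
  have hi : ∀ i ∈ Finset.univ.filter (fun i => mu i ≤ th2 d),
      ⟪b i, h⟫ ^ 2 ≤ 2 * (DD d ^ 7 * ‖h‖) ^ 2 * th2 d := by
    intro i hi
    have := hP.bound _ h (b i) hK hz
    rw [hP.eig, real_inner_smul_left, real_inner_self_eq_norm_sq, b.orthonormal.1 i, one_pow,
      mul_one, real_inner_comm (b i) h] at this
    exact this.trans (mul_le_mul_of_nonneg_left (Finset.mem_filter.1 hi).2 (by positivity))
  refine (Finset.sum_le_card_nsmul _ _ _ hi).trans ?_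
  rw [nsmul_eq_mul]
  have hcard : ((Finset.univ.filter (fun i => mu i ≤ th2 d)).card : ℝ) ≤ DD d :=
    le_trans (by exact_mod_cast (Finset.card_filter_le _ _).trans_eq (by simp)) natCast_le_DD
  have hth : 0 ≤ th2 d := by unfold th2; positivity
  calc _ ≤ DD d * (2 * (DD d ^ 7 * ‖h‖) ^ 2 * th2 d) :=
        mul_le_mul_of_nonneg_right hcard (by positivity)
    _ = 2 * DD d ^ 15 * (DD d ^ 200)⁻¹ * ‖h‖ ^ 2 := by rw [th2]; ring
    _ ≤ (DD d ^ 140)⁻¹ * ‖h‖ ^ 2 :=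
        mul_le_mul_of_nonneg_right (const_DD_div_le (k := 1) (by norm_num) (by norm_num))
          (sq_nonneg _)
    _ = ((DD d ^ 70)⁻¹ * ‖h‖) ^ 2 := by rw [mul_pow, inv_pow, ← pow_mul]

lemma drift_small (hd : 1 ≤ d) {K : ℝ} (hK0 : 0 ≤ K) (hK : K + 2 ≤ DD d ^ 3) :
    √(2 * d * th2 d) * (K + 2) ≤ (DD d ^ 90)⁻¹ := by
  have _ := hd
  have hDD := DD_pos (d := d)
  have h1 : √(2 * d * th2 d) ≤ (DD d ^ 95)⁻¹ := by
    rw [Real.sqrt_le_left (by positivity), th2]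
    calc 2 * (d : ℝ) * (DD d ^ 200)⁻¹ ≤ 2 * DD d ^ 1 * (DD d ^ 200)⁻¹ := by
          rw [pow_one]
          refine mul_le_mul_of_nonneg_right ?_ (by positivity)
          linarith [natCast_le_DD (d := d)]
      _ ≤ (DD d ^ 190)⁻¹ := const_DD_div_le (k := 1) (by norm_num) (by norm_num)
      _ = _ := by rw [inv_pow, ← pow_mul]
  calc √(2 * d * th2 d) * (K + 2) ≤ (DD d ^ 95)⁻¹ * DD d ^ 3 :=
        mul_le_mul h1 hK (by linarith) (by positivity)
    _ = 1 * DD d ^ 3 * (DD d ^ 95)⁻¹ := by ring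
    _ ≤ _ := const_DD_div_le (k := 0) (by norm_num) (by norm_num)

lemma Q1_mul (hd : 1 ≤ d) :
    1 ≤ (Q1 d : ℝ) * (kap d * ((DD d ^ 7)⁻¹ * th2 d / 8 - nu d)) := by
  have _ := hd
  have hDD := DD_pos (d := d)
  rw [Q1_cast, kap, th2, nu]
  have h1 : 16 * (DD d ^ 300)⁻¹ ≤ (DD d ^ 207)⁻¹ := by
    have := const_DD_div_le (d := d) (c := 16) (k := 1) (a := 0) (b := 300) (e := 207)
      (by norm_num) (by norm_num)
    simpa using this
  have h2 : (DD d ^ 207)⁻¹ / 16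
      ≤ (DD d ^ 7)⁻¹ * (DD d ^ 200)⁻¹ / 8 - (DD d ^ 300)⁻¹ := by
    rw [← mul_inv, ← pow_add]
    linarith
  calc (1 : ℝ) ≤ DD d ^ 13 / 16 := by
        rw [le_div_iff₀ (by norm_num), one_mul]
        calc (16 : ℝ) = 16 * DD d ^ 0 := by simp
          _ ≤ DD d ^ 13 := const_mul_DD_pow_le (k := 1) (by norm_num) (by norm_num)
    _ = DD d ^ 250 * ((DD d ^ 30)⁻¹ * ((DD d ^ 207)⁻¹ / 16)) := by
        field_simp
    _ ≤ _ := by
        refine mul_le_mul_of_nonneg_left ?_ (by positivity)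
        exact mul_le_mul_of_nonneg_left h2 (by positivity)

lemma pow_Q2_le : (3 / 5 : ℝ) ^ Q2 d ≤ (DD d ^ 60)⁻¹ := by
  have hDD := DD_pos (d := d)
  have h1 : (3 / 5 : ℝ) ≤ Real.exp (-(2 / 5)) := by
    linarith [Real.add_one_le_exp (-(2 / 5) : ℝ)]
  have hL : LL d ≤ DD d / 5 := by
    have h2 : LL d / 2 ≤ √(DD d) - 1 := by
      rw [LL, ← Real.log_sqrt hDD.le]
      exact Real.log_le_sub_one_of_pos (Real.sqrt_pos.2 hDD)
    have h3 : √(DD d) ≤ DD d / 10 := by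
      rw [Real.sqrt_le_left (by positivity)]
      nlinarith [DD_ge (d := d)]
    linarith
  refine (pow_le_pow_left₀ (by norm_num) h1 _).trans ?_
  rw [← exp_nat_mul_LL 60, ← Real.exp_neg, ← Real.exp_nat_mul, Real.exp_le_exp, Q2_cast]
  push_cast
  nlinarith [DD_ge (d := d)]

variable {K : ℝ} {p : ℕ → ℕ} {Φs : ℕ → V d →L[ℝ] V d} {m : ℕ}

theorem kill_hi (hd : 1 ≤ d) (hP : Pure v X0 X1 M b mu)
    (fam : ChunkFam v M (kap d) (DD d ^ 7)⁻¹ (nu d) K p Φs m) (hK0 : 0 ≤ K)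
    (hK : K + 2 ≤ DD d ^ 3) (hX0 : X0 ≤ p 0) (hX1 : p m ≤ X1)
    {i n : ℕ} (hin : i + n ≤ m) (hn : QQ d ≤ n) {h : V d}
    (hlow : √(lowSq b mu (th2 d) h) ≤ (DD d ^ 70)⁻¹ * ‖h‖) :
    ‖(compI Φs i n).adjoint h‖ ≤ eta' d * ‖h‖ := by
  rcases eq_or_ne h 0 with rfl | hne
  · simp
  have hDD := DD_pos (d := d)
  have hh : 0 < ‖h‖ := norm_pos_iff.2 hne
  set u := ‖h‖⁻¹ • h with hu
  have hun : ‖u‖ ≤ 1 := by rw [hu, norm_smul, norm_inv, norm_norm, inv_mul_cancel₀ hh.ne']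
  have hlu : √(lowSq b mu (th2 d) u) ≤ (DD d ^ 70)⁻¹ := by
    rw [sqrt_lowSq] at hlow ⊢
    rw [hu, map_smul, norm_smul, norm_inv, norm_norm, inv_mul_le_iff₀ hh, mul_comm ‖h‖]
    exact hlow
  have h20 : (DD d ^ 90)⁻¹ ≤ 1 / 20 := by
    have : (DD d ^ 90)⁻¹ ≤ (DD d ^ 1)⁻¹ := inv_DD_pow_anti (by norm_num)
    rw [pow_one] at this
    have h2 : (DD d)⁻¹ ≤ (100 : ℝ)⁻¹ := inv_anti₀ (by norm_num) DD_ge
    linarith
  have hk := kill hK0 (by unfold kap; positivity : 0 ≤ kap d) (by positivity) nu_pos.le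
    (by unfold th2; positivity : 0 ≤ th2 d) hP.eig hP.nonneg hP.bound fam hX0 hX1
    ((drift_small hd hK0 hK).trans h20) (Q1_mul hd) i n (Q2 d) hin hn u hun hlu
  have hmax : max ((3 / 5 : ℝ) ^ Q2 d)
      (20 * ((DD d ^ 70)⁻¹ + √(2 * d * th2 d) * (K + 2))) ≤ eta' d := by
    refine max_le pow_Q2_le ?_
    have h1 := (drift_small hd hK0 hK).trans (inv_DD_pow_anti (show 70 ≤ 90 by norm_num))
    have h2 := const_DD_div_le (d := d) (c := 40) (k := 1) (a := 0) (b := 70) (e := 60)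
      (by norm_num) (by norm_num)
    rw [pow_zero, mul_one] at h2
    unfold eta'
    linarith
  have := hk.trans hmax
  rw [hu, map_smul, norm_smul, norm_inv, norm_norm, inv_mul_le_iff₀ hh] at this
  linarith

theorem gap (hd : 1 ≤ d) (hP : Pure v X0 X1 M b mu)
    (fam : ChunkFam v M (kap d) (DD d ^ 7)⁻¹ (nu d) K p Φs m) (hK0 : 0 ≤ K)
    (hK : K + 2 ≤ DD d ^ 3) (hp0 : p 0 = X0) (hpm : p m = X1) (hm : Q1 d ≤ m) :
    ∀ i, mu i ≤ th2 d ∨ thHi d ≤ mu i := by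
  intro i
  rcases le_or_gt (mu i) (th2 d) with h | h
  · exact Or.inl h
  right
  have hDD := DD_pos (d := d)
  have hbn : ‖b i‖ = 1 := b.orthonormal.1 i
  have hlow : √(lowSq b mu (th2 d) (b i)) ≤ 1 / 20 := by
    rw [lowSq, Finset.sum_eq_zero fun j hj => ?_]
    · norm_num
    · rw [b.orthonormal.2 (fun e : j = i => absurd (Finset.mem_filter.1 hj).2 (not_le.2 (e ▸ h)))]
      norm_num
  have h20 : (DD d ^ 90)⁻¹ ≤ 1 / 20 := by
    have : (DD d ^ 90)⁻¹ ≤ (DD d ^ 1)⁻¹ := inv_DD_pow_anti (by norm_num)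
    rw [pow_one] at this
    have h2 : (DD d)⁻¹ ≤ (100 : ℝ)⁻¹ := inv_anti₀ (by norm_num) DD_ge
    linarith
  have ht := traj hK0 (by unfold kap; positivity : 0 ≤ kap d) (by positivity) nu_pos.le
    (by unfold th2; positivity : 0 ≤ th2 d) hP.eig hP.nonneg hP.bound fam hp0.ge hpm.le
    ((drift_small hd hK0 hK).trans h20) (Q1_mul hd) 0 m (by omega) hm (b i) hbn.le hlow
  have hD := fam.disp_comp hK0 (i := 0) (n := m) (by omega)
  have hz := hD.bwd (b i)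
  rw [Nat.zero_add, hp0, hpm, hbn, mul_one] at hz
  have hb := hP.bound _ _ (b i) (by linarith) hz
  rw [hP.eig, real_inner_smul_left, real_inner_self_eq_norm_sq, hbn, one_pow, mul_one,
    inner_sub_left, real_inner_self_eq_norm_sq, hbn, one_pow] at hb
  have h1 : ⟪(compI Φs 0 m).adjoint (b i), b i⟫ ≤ 3 / 5 := by
    refine (real_inner_le_norm _ _).trans ?_
    rw [hbn, mul_one]; exact ht
  obtain ⟨q, hq⟩ : ∃ q, q = ⟪(compI Φs 0 m).adjoint (b i), b i⟫ := ⟨_, rfl⟩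
  rw [← hq] at hb h1
  have h2 : (2 / 5 : ℝ) ^ 2 ≤ (q - 1) ^ 2 := by
    rw [← neg_sq (q - 1), neg_sub]
    exact pow_le_pow_left₀ (by norm_num) (by linarith) 2
  have hmu := hP.nonneg i
  have h3 : (K + 2) ^ 2 ≤ (DD d ^ 3) ^ 2 := pow_le_pow_left₀ (by linarith) hK 2
  have h4 : 4 / 25 ≤ 2 * DD d ^ 6 * mu i := by
    have h5 := mul_le_mul_of_nonneg_right h3 hmu
    rw [← pow_mul, show 3 * 2 = 6 from rfl] at h5
    linarith
  rw [thHi, inv_le_iff_one_le_mul₀' (by positivity)]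
  calc (1 : ℝ) ≤ 100 * (2 * DD d ^ 6 * mu i) := by linarith
    _ = 200 * DD d ^ 6 * mu i := by ring
    _ ≤ DD d ^ 11 * mu i :=
        mul_le_mul_of_nonneg_right (const_mul_DD_pow_le (k := 2) (by norm_num) (by norm_num)) hmu

end Node

end Vale.Agent.P262
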