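import Mathlib
import Vale.Agent.P245.PL

/-!
P262, module A, part 1: a log-concave body lemma behind the functional one-step lemma.

For a closed convex subset of `ℝ × Y` of large measure, removing the short horizontal chords and
lengthening the long ones at both ends by `τ/2` does not decrease the measure.
-/

namespace Vale.Agent.P262.OneStepAux

open MeasureTheory ProbabilityTheory Set
open scoped ENNReal NNReal

/-- The standard Gaussian measure on the line. -/
noncomputable abbrev γ : Measure ℝ := gaussianReal 0 1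

/-- Functional log-concavity of a measure. -/
def LCM {Y : Type*} [AddCommGroup Y] [Module ℝ Y] [MeasurableSpace Y] (μ : Measure Y) : Prop :=
  ∀ a b : ℝ, 0 < a → 0 < b → a + b = 1 → ∀ f g h : Y → ℝ≥0∞,
    Measurable f → Measurable g → Measurable h → (∀ x y, f x ^ a * g y ^ b ≤ h (a • x + b • y)) →
    (∫⁻ x, f x ∂μ) ^ a * (∫⁻ x, g x ∂μ) ^ b ≤ ∫⁻ x, h x ∂μ

lemma lcm_volume : LCM (volume : Measure ℝ) := fun a b ha hb hab f g h hf hg hh hfgh =>
  Vale.Agent.P245.pl_one ha hb hab f g h hf hg hh fun x y => by simpa using hfgh x y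

lemma lcm_withDensity {Y : Type*} [AddCommGroup Y] [Module ℝ Y] [MeasurableSpace Y]
    {μ : Measure Y} (hμ : LCM μ) {ρ : Y → ℝ≥0∞} (hρ : Measurable ρ)
    (h : ∀ a b : ℝ, 0 < a → 0 < b → a + b = 1 → ∀ x y, ρ x ^ a * ρ y ^ b ≤ ρ (a • x + b • y)) :
    LCM (μ.withDensity ρ) := by
  intro a b ha hb hab f g k hf hg hk hfgk
  rw [lintegral_withDensity_eq_lintegral_mul _ hρ hf, lintegral_withDensity_eq_lintegral_mul _ hρ hg,
    lintegral_withDensity_eq_lintegral_mul _ hρ hk]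
  refine hμ a b ha hb hab _ _ _ (hρ.mul hf) (hρ.mul hg) (hρ.mul hk) fun x y => ?_
  simp only [Pi.mul_apply, ENNReal.mul_rpow_of_nonneg _ _ ha.le, ENNReal.mul_rpow_of_nonneg _ _ hb.le]
  calc ρ x ^ a * f x ^ a * (ρ y ^ b * g y ^ b) = ρ x ^ a * ρ y ^ b * (f x ^ a * g y ^ b) := by ring
    _ ≤ _ := mul_le_mul' (h a b ha hb hab x y) (hfgk x y)

lemma lcm_restrict {Y : Type*} [AddCommGroup Y] [Module ℝ Y] [MeasurableSpace Y]
    {μ : Measure Y} (hμ : LCM μ) {S : Set Y} (hS : MeasurableSet S) (hc : Convex ℝ S) :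
    LCM (μ.restrict S) := by
  intro a b ha hb hab f g k hf hg hk hfgk
  rw [← lintegral_indicator hS, ← lintegral_indicator hS, ← lintegral_indicator hS]
  refine hμ a b ha hb hab _ _ _ (hf.indicator hS) (hg.indicator hS) (hk.indicator hS) fun x y => ?_
  by_cases hx : x ∈ S
  · by_cases hy : y ∈ S
    · simp [hx, hy, hc hx hy ha.le hb.le hab, hfgk x y]
    · simp [hy, ENNReal.zero_rpow_of_pos hb]
  · simp [hx, ENNReal.zero_rpow_of_pos ha]

lemma lcm_smul {Y : Type*} [AddCommGroup Y] [Module ℝ Y] [MeasurableSpace Y]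
    {μ : Measure Y} (hμ : LCM μ) (c : ℝ≥0∞) : LCM (c • μ) := by
  intro a b ha hb hab f g k hf hg hk hfgk
  simp only [lintegral_smul_measure, smul_eq_mul, ENNReal.mul_rpow_of_nonneg _ _ ha.le,
    ENNReal.mul_rpow_of_nonneg _ _ hb.le]
  calc c ^ a * (∫⁻ x, f x ∂μ) ^ a * (c ^ b * (∫⁻ x, g x ∂μ) ^ b)
      = c * ((∫⁻ x, f x ∂μ) ^ a * (∫⁻ x, g x ∂μ) ^ b) := by
        have : c ^ a * c ^ b = c := by
          rw [← ENNReal.rpow_add_of_nonneg _ _ ha.le hb.le, hab, ENNReal.rpow_one]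
        calc _ = c ^ a * c ^ b * ((∫⁻ x, f x ∂μ) ^ a * (∫⁻ x, g x ∂μ) ^ b) := by ring
          _ = _ := by rw [this]
    _ ≤ _ := mul_le_mul' le_rfl (hμ a b ha hb hab f g k hf hg hk hfgk)

lemma lcm_prod {X Y : Type*} [AddCommGroup X] [Module ℝ X] [MeasurableSpace X]
    [AddCommGroup Y] [Module ℝ Y] [MeasurableSpace Y] {μ : Measure X} {ν : Measure Y}
    [SFinite μ] [SFinite ν] (hμ : LCM μ) (hν : LCM ν) : LCM (μ.prod ν) := by
  intro a b ha hb hab f g k hf hg hk hfgk
  rw [lintegral_prod _ hf.aemeasurable, lintegral_prod _ hg.aemeasurable,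
    lintegral_prod _ hk.aemeasurable]
  refine hμ a b ha hb hab _ _ _ hf.lintegral_prod_right' hg.lintegral_prod_right'
    hk.lintegral_prod_right' fun x x' => ?_
  refine hν a b ha hb hab _ _ _ (hf.comp measurable_prodMk_left) (hg.comp measurable_prodMk_left)
    (hk.comp measurable_prodMk_left) fun y y' => ?_
  simpa using hfgk (x, y) (x', y')

lemma pdf_eq (x : ℝ) :
    gaussianPDFReal 0 1 x = (√(2 * Real.pi))⁻¹ * Real.exp (-x ^ 2 / 2) := by
  simp [gaussianPDFReal]

lemma lcm_gauss : LCM γ := by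
  rw [γ, gaussianReal_of_var_ne_zero _ one_ne_zero]
  refine lcm_withDensity lcm_volume (measurable_gaussianPDF _ _) fun a b ha hb hab x y => ?_
  simp only [gaussianPDF, smul_eq_mul]
  rw [ENNReal.ofReal_rpow_of_nonneg (gaussianPDFReal_nonneg _ _ _) ha.le,
    ENNReal.ofReal_rpow_of_nonneg (gaussianPDFReal_nonneg _ _ _) hb.le,
    ← ENNReal.ofReal_mul (Real.rpow_nonneg (gaussianPDFReal_nonneg _ _ _) _)]
  refine ENNReal.ofReal_le_ofReal ?_
  simp only [pdf_eq]
  set c := (√(2 * Real.pi))⁻¹ with hc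
  have hc0 : 0 < c := by positivity
  rw [Real.mul_rpow hc0.le (Real.exp_pos _).le, Real.mul_rpow hc0.le (Real.exp_pos _).le]
  have h1 : c ^ a * c ^ b = c := by rw [← Real.rpow_add hc0, hab, Real.rpow_one]
  calc c ^ a * Real.exp (-x ^ 2 / 2) ^ a * (c ^ b * Real.exp (-y ^ 2 / 2) ^ b)
      = c * (Real.exp (-x ^ 2 / 2) ^ a * Real.exp (-y ^ 2 / 2) ^ b) := by
        calc _ = c ^ a * c ^ b * (Real.exp (-x ^ 2 / 2) ^ a * Real.exp (-y ^ 2 / 2) ^ b) := by ring
          _ = _ := by rw [h1]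
    _ ≤ c * Real.exp (-(a * x + b * y) ^ 2 / 2) := by
        refine mul_le_mul_of_nonneg_left ?_ hc0.le
        rw [← Real.exp_mul, ← Real.exp_mul, ← Real.exp_add, Real.exp_le_exp]
        have hb' : b = 1 - a := by linarith
        subst hb'
        nlinarith [mul_nonneg (mul_nonneg ha.le hb.le) (sq_nonneg (x - y))]

lemma lcm_pi : ∀ n : ℕ, LCM (Measure.pi fun _ : Fin n => γ) := by
  intro n
  induction n with
  | zero =>
    intro a b ha hb hab f g k _ _ _ hfgk
    have hv : (Measure.pi fun _ : Fin 0 => γ) univ = 1 := measure_univ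
    rw [lintegral_unique, lintegral_unique, lintegral_unique, hv, mul_one, mul_one, mul_one]
    refine le_trans (le_of_eq ?_) ((hfgk default default).trans
      (le_of_eq (congrArg k (Subsingleton.elim _ _))))
    exact congrArg₂ (fun u v => f u ^ a * g v ^ b) (Subsingleton.elim _ _) (Subsingleton.elim _ _)
  | succ n ih =>
    intro a b ha hb hab f g k hf hg hk hfgk
    set e := MeasurableEquiv.piFinSuccAbove (fun _ : Fin (n + 1) => ℝ) 0 with he
    have hmp := measurePreserving_piFinSuccAbove (fun _ : Fin (n + 1) => γ) 0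
    have hc : Measurable fun p : ℝ × (Fin n → ℝ) => (Fin.cons p.1 p.2 : Fin (n + 1) → ℝ) := by
      fun_prop
    have conv : ∀ u : (Fin (n + 1) → ℝ) → ℝ≥0∞,
        ∫⁻ x, u x ∂(Measure.pi fun _ : Fin (n + 1) => γ)
          = ∫⁻ p, u (Fin.cons p.1 p.2) ∂(γ.prod (Measure.pi fun _ : Fin n => γ)) := fun u => by
      rw [← (hmp.symm e).lintegral_comp_emb e.symm.measurableEmbedding u]
      refine lintegral_congr fun p => ?_
      simp [he, MeasurableEquiv.piFinSuccAbove_symm_apply, Fin.insertNthEquiv]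
    rw [conv f, conv g, conv k]
    refine lcm_prod lcm_gauss ih a b ha hb hab _ _ _ (hf.comp hc) (hg.comp hc) (hk.comp hc)
      fun x y => ?_
    refine (hfgk _ _).trans (le_of_eq (congrArg k ?_))
    funext i
    refine Fin.cases ?_ (fun j => ?_) i <;> simp

lemma lcm_sets {Y : Type*} [AddCommGroup Y] [Module ℝ Y] [MeasurableSpace Y] {μ : Measure Y}
    [IsFiniteMeasure μ] (hμ : LCM μ) {a b : ℝ} (ha : 0 < a) (hb : 0 < b) (hab : a + b = 1)
    {A B C : Set Y} (hA : MeasurableSet A) (hB : MeasurableSet B) (hC : MeasurableSet C)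
    (hsub : ∀ x ∈ A, ∀ y ∈ B, a • x + b • y ∈ C) :
    μ.real A ^ a * μ.real B ^ b ≤ μ.real C := by
  have h := hμ a b ha hb hab (A.indicator 1) (B.indicator 1) (C.indicator 1)
    (measurable_one.indicator hA) (measurable_one.indicator hB) (measurable_one.indicator hC)
    fun x y => by
      by_cases hx : x ∈ A
      · by_cases hy : y ∈ B
        · simp [hx, hy, hsub x hx y hy]
        · simp [hy, ENNReal.zero_rpow_of_pos hb]
      · simp [hx, ENNReal.zero_rpow_of_pos ha]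
  rw [lintegral_indicator_one hA, lintegral_indicator_one hB, lintegral_indicator_one hC] at h
  have h' := ENNReal.toReal_mono (measure_ne_top μ C) h
  rwa [ENNReal.toReal_mul, ← ENNReal.toReal_rpow, ← ENNReal.toReal_rpow] at h'

/-! ### One-dimensional Gaussian estimates -/

lemma gauss_apply (s : Set ℝ) : γ s = ∫⁻ x in s, gaussianPDF 0 1 x :=
  gaussianReal_apply 0 one_ne_zero s

lemma gauss_le_mul {s : Set ℝ} {B p q : ℝ} (_hs : MeasurableSet s) (hsub : s ⊆ Icc p q) (hB0 : 0 ≤ B)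
    (hB : ∀ x ∈ s, gaussianPDFReal 0 1 x ≤ B) : γ s ≤ ENNReal.ofReal (B * (q - p)) := by
  rw [gauss_apply]
  calc ∫⁻ x in s, gaussianPDF 0 1 x ≤ ∫⁻ _x in s, ENNReal.ofReal B :=
        setLIntegral_mono measurable_const fun x hx => ENNReal.ofReal_le_ofReal (hB x hx)
    _ = ENNReal.ofReal B * volume s := setLIntegral_const _ _
    _ ≤ ENNReal.ofReal B * volume (Icc p q) := by gcongr
    _ = ENNReal.ofReal (B * (q - p)) := by rw [Real.volume_Icc, ENNReal.ofReal_mul hB0]

lemma mul_le_gauss {s : Set ℝ} {B ℓ : ℝ} (_hs : MeasurableSet s) (hvol : volume s = ENNReal.ofReal ℓ)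
    (hB0 : 0 ≤ B) (hB : ∀ x ∈ s, B ≤ gaussianPDFReal 0 1 x) : ENNReal.ofReal (B * ℓ) ≤ γ s := by
  rw [gauss_apply, ENNReal.ofReal_mul hB0, ← hvol, ← setLIntegral_const]
  exact setLIntegral_mono (measurable_gaussianPDF _ _) fun x hx => ENNReal.ofReal_le_ofReal (hB x hx)

lemma gauss_half : γ (Ioi 0) ≤ 2⁻¹ ∧ γ (Iio 0) ≤ 2⁻¹ := by
  have h : γ (Iio 0) = γ (Ioi 0) := by
    have hm : γ.map (fun x : ℝ => -x) = γ := by rw [γ, gaussianReal_map_neg, neg_zero]
    conv_lhs => rw [← hm, Measure.map_apply measurable_neg measurableSet_Iio]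
    congr 1
    ext x
    simp
  have h2 : γ (Ioi 0) * 2 ≤ 1 := by
    calc γ (Ioi 0) * 2 = γ (Ioi 0) + γ (Iio 0) := by rw [mul_two, h]
      _ = γ (Ioi 0 ∪ Iio 0) :=
          (measure_union (disjoint_left.2 fun x (hx : 0 < x) (hx' : x < 0) => lt_asymm hx hx')
            measurableSet_Iio).symm
      _ ≤ 1 := prob_le_one
  have h3 : γ (Ioi 0) ≤ 2⁻¹ := by
    rwa [ENNReal.le_inv_iff_mul_le]
  exact ⟨h3, h ▸ h3⟩

lemma pdf_le_exp (x : ℝ) : gaussianPDFReal 0 1 x ≤ Real.exp (-x ^ 2 / 2) := by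
  rw [pdf_eq]
  refine mul_le_of_le_one_left (Real.exp_pos _).le (inv_le_one_of_one_le₀ ?_)
  rw [Real.one_le_sqrt]
  nlinarith [Real.pi_gt_three]

lemma gauss_middle : γ (Icc (-(3 / 5)) (3 / 5)) ≤ 2⁻¹ := by
  have hs : (12 / 5 : ℝ) ≤ √(2 * Real.pi) := by
    rw [Real.le_sqrt (by norm_num) (by positivity)]
    nlinarith [Real.pi_gt_three]
  refine (gauss_le_mul (B := 5 / 12) measurableSet_Icc subset_rfl (by norm_num) fun x _ => ?_).trans ?_
  · rw [pdf_eq]
    calc (√(2 * Real.pi))⁻¹ * Real.exp (-x ^ 2 / 2) ≤ (√(2 * Real.pi))⁻¹ * 1 := by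
          gcongr
          rw [Real.exp_le_one_iff]
          nlinarith [sq_nonneg x]
      _ ≤ (12 / 5 : ℝ)⁻¹ * 1 := by gcongr
      _ = _ := by norm_num
  · rw [show (5 / 12 : ℝ) * (3 / 5 - -(3 / 5)) = 2⁻¹ by norm_num,
      ENNReal.ofReal_inv_of_pos two_pos, ENNReal.ofReal_ofNat]

lemma pdf_far {x : ℝ} {n : ℕ} (h : (n : ℝ) - 1 / 2 ≤ |x|) :
    gaussianPDFReal 0 1 x ≤ 3 * Real.exp (-1) ^ n := by
  refine (pdf_le_exp x).trans ?_
  calc Real.exp (-x ^ 2 / 2) ≤ Real.exp (1 + (n : ℝ) * (-1)) := by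
        rw [Real.exp_le_exp]
        nlinarith [sq_nonneg (|x| - 1), sq_abs x]
    _ = Real.exp 1 * Real.exp (-1) ^ n := by rw [Real.exp_add, Real.exp_nat_mul]
    _ ≤ _ := by
        gcongr
        exact Real.exp_one_lt_three.le

lemma pdf_near {x : ℝ} (h : |x| ≤ 1) :
    (√(2 * Real.pi))⁻¹ * Real.exp (-1 / 2) ≤ gaussianPDFReal 0 1 x := by
  rw [pdf_eq]
  gcongr
  nlinarith [sq_abs x, abs_nonneg x]

lemma rpow_tangent {x y t : ℝ} (hx : 0 < x) (hy : 0 < y) (ht : 0 ≤ t) :
    y * (1 + t * (1 - y / x)) ≤ y ^ (1 - t) * x ^ t := by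
  have h1 : y ^ (1 - t) * x ^ t = y * (x / y) ^ t := by
    rw [Real.div_rpow hx.le hy.le, Real.rpow_sub hy, Real.rpow_one]
    ring
  rw [h1]
  refine mul_le_mul_of_nonneg_left ?_ hy.le
  rw [Real.rpow_def_of_pos (div_pos hx hy)]
  refine le_trans ?_ (Real.add_one_le_exp _)
  have h2 := Real.one_sub_inv_le_log_of_pos (div_pos hx hy)
  rw [inv_div] at h2
  nlinarith [mul_le_mul_of_nonneg_left h2 ht]

/-! ### The body lemma -/

section body

variable {Y : Type*} [NormedAddCommGroup Y] [NormedSpace ℝ Y]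

/-- Horizontal chord at height `y`. -/
def chord (K : Set (ℝ × Y)) (y : Y) : Set ℝ := (fun x => (x, y)) ⁻¹' K

/-- Vertical slice at abscissa `x`. -/
def slice (K : Set (ℝ × Y)) (x : ℝ) : Set Y := (fun y => (x, y)) ⁻¹' K

lemma isClosed_chord {K : Set (ℝ × Y)} (hK : IsClosed K) (y : Y) : IsClosed (chord K y) :=
  hK.preimage (by fun_prop)

lemma isClosed_slice {K : Set (ℝ × Y)} (hK : IsClosed K) (x : ℝ) : IsClosed (slice K x) :=
  hK.preimage (by fun_prop)

lemma ordConnected_chord {K : Set (ℝ × Y)} (hK : Convex ℝ K) (y : Y) :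
    OrdConnected (chord K y) := by
  refine Convex.ordConnected (𝕜 := ℝ) fun x hx x' hx' a b ha hb hab => ?_
  have := hK hx hx' ha hb hab
  simp only [chord, mem_preimage]
  convert this using 1
  simp [← add_smul, hab]

lemma convex_mem {K : Set (ℝ × Y)} (hK : Convex ℝ K) {x x' z : ℝ} {y y' : Y}
    (h : (x, y) ∈ K) (h' : (x', y') ∈ K) {a b : ℝ} (ha : 0 ≤ a) (hb : 0 ≤ b) (hab : a + b = 1)
    (hz : z = a * x + b * x') : (z, a • y + b • y') ∈ K := by
  have := hK h h' ha hb hab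
  simpa [hz] using this

/-- Heights at which the chord meets `[p, q]`. -/
def meets (K : Set (ℝ × Y)) (p q : ℝ) : Set Y := {y | ∃ x ∈ Icc p q, (x, y) ∈ K}

lemma isClosed_meets {K : Set (ℝ × Y)} (hK : IsClosed K) (p q : ℝ) : IsClosed (meets K p q) := by
  have : meets K p q
      = Prod.snd '' ((fun z : Icc p q × Y => ((z.1 : ℝ), z.2)) ⁻¹' K) := by
    ext y
    simp [meets, and_comm]
  rw [this]
  exact isClosedMap_snd_of_compactSpace _ (hK.preimage (by fun_prop))

/-- Heights at which the chord has length at least `2τ`. -/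
def long (K : Set (ℝ × Y)) (τ : ℝ) : Set Y := {y | ∃ t, (t - τ, y) ∈ K ∧ (t + τ, y) ∈ K}

lemma measurableSet_long [MeasurableSpace Y] [BorelSpace Y] {K : Set (ℝ × Y)} (hK : IsClosed K)
    (τ : ℝ) : MeasurableSet (long K τ) := by
  have hC : IsClosed ((fun z : ℝ × Y => (z.1 - τ, z.2)) ⁻¹' K
      ∩ (fun z : ℝ × Y => (z.1 + τ, z.2)) ⁻¹' K) :=
    (hK.preimage (by fun_prop)).inter (hK.preimage (by fun_prop))
  have : long K τ = ⋃ N : ℕ, meets ((fun z : ℝ × Y => (z.1 - τ, z.2)) ⁻¹' K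
      ∩ (fun z : ℝ × Y => (z.1 + τ, z.2)) ⁻¹' K) (-(N : ℝ)) N := by
    ext y
    simp only [long, meets, mem_ofPred_eq, mem_iUnion, mem_inter_iff, mem_preimage]
    constructor
    · rintro ⟨t, ht⟩
      obtain ⟨N, hN⟩ := exists_nat_ge |t|
      exact ⟨N, t, abs_le.1 hN, ht⟩
    · rintro ⟨_, t, -, ht⟩
      exact ⟨t, ht⟩
  rw [this]
  exact MeasurableSet.iUnion fun N => (isClosed_meets hC _ _).measurableSet

lemma chord_bound {K : Set (ℝ × Y)} (hK : Convex ℝ K) {τ : ℝ} (hτ : 0 < τ) {y : Y}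
    (hy : y ∉ long K τ) {x₁ : ℝ} (hx₁ : x₁ ∈ chord K y) :
    chord K y ⊆ Icc (x₁ - 2 * τ) (x₁ + 2 * τ) := by
  intro x hx
  by_contra hne
  rcases lt_or_ge x (x₁ - 2 * τ) with h | h
  · refine hy ⟨x₁ - τ, ?_, ?_⟩
    · exact (ordConnected_chord hK y).out hx hx₁ ⟨by linarith, by linarith⟩
    · exact (ordConnected_chord hK y).out hx hx₁ ⟨by linarith, by linarith⟩
  · have h' : x₁ + 2 * τ < x := by
      by_contra h'
      exact hne ⟨h, le_of_not_gt h'⟩
    refine hy ⟨x₁ + τ, ?_, ?_⟩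
    · exact (ordConnected_chord hK y).out hx₁ hx ⟨by linarith, by linarith⟩
    · exact (ordConnected_chord hK y).out hx₁ hx ⟨by linarith, by linarith⟩

/-- `K'` contains the extended long chords of `K`. -/
def Extends (K K' : Set (ℝ × Y)) (τ : ℝ) : Prop :=
  ∀ t ξ y, (t - τ, y) ∈ K → (t + τ, y) ∈ K → |ξ - t| ≤ 3 * τ / 2 → (ξ, y) ∈ K'

lemma chord_subset {K K' : Set (ℝ × Y)} (hK : Convex ℝ K) {τ : ℝ} (hτ : 0 < τ)
    (hext : Extends K K' τ) {y : Y} (hy : y ∈ long K τ) : chord K y ⊆ chord K' y := by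
  obtain ⟨t, ht₁, ht₂⟩ := hy
  intro η hη
  have oc := (ordConnected_chord hK y).out
  rcases lt_or_ge η (t - τ) with h | h
  · refine hext (η + τ) η y ?_ ?_ ?_
    · simpa [chord] using hη
    · exact oc hη ht₂ ⟨by linarith, by linarith⟩
    · rw [sub_add_cancel_left, abs_neg, abs_of_pos hτ]; linarith
  rcases lt_or_ge (t + τ) η with h' | h'
  · refine hext (η - τ) η y ?_ ?_ ?_
    · exact oc ht₁ hη ⟨by linarith, by linarith⟩
    · simpa [chord] using hη
    · rw [sub_sub_cancel, abs_of_pos hτ]; linarith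
  · exact hext t η y ht₁ ht₂ (abs_le.2 ⟨by linarith, by linarith⟩)

lemma gain_right {K K' : Set (ℝ × Y)} (hK : Convex ℝ K) (hKc : IsClosed K) {τ : ℝ} (hτ : 0 < τ)
    (hext : Extends K K' τ) {y : Y} (hy : y ∈ long K τ) {p q : ℝ} (hp : (p, y) ∈ K)
    (hq : (q, y) ∉ K) (hpq : p ≤ q) (hp1 : -1 ≤ p) (hq1 : q + τ / 2 ≤ 1) :
    γ (chord K y) + ENNReal.ofReal ((√(2 * Real.pi))⁻¹ * Real.exp (-1 / 2) * (τ / 2))
      ≤ γ (chord K' y) := by
  have oc := (ordConnected_chord hK y).out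
  have hub : q ∈ upperBounds (chord K y) := fun x hx => by
    by_contra h
    exact hq (oc hp hx ⟨hpq, (not_le.1 h).le⟩)
  obtain ⟨t, ht₁, ht₂⟩ := id hy
  set b := sSup (chord K y) with hb
  have hbm : b ∈ chord K y := (isClosed_chord hKc y).csSup_mem ⟨p, hp⟩ ⟨q, hub⟩
  have hle : ∀ x ∈ chord K y, x ≤ b := fun x hx => le_csSup ⟨q, hub⟩ hx
  have hb1 : t + τ ≤ b := hle _ ht₂
  have hbq : b ≤ q := hub hbm
  have hpb : p ≤ b := hle _ hp
  have hsub : chord K y ∪ Ioc b (b + τ / 2) ⊆ chord K' y := by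
    rintro ξ (hξ | ⟨hξ₁, hξ₂⟩)
    · exact chord_subset hK hτ hext hy hξ
    · refine hext (b - τ) ξ y ?_ ?_ (abs_le.2 ⟨by linarith, by linarith⟩)
      · exact oc ht₁ hbm ⟨by linarith, by linarith⟩
      · simpa [chord] using hbm
  refine le_trans ?_ (measure_mono hsub)
  rw [measure_union (disjoint_left.2 fun x hx hx' => (not_le.2 hx'.1) (hle x hx)) measurableSet_Ioc]
  gcongr
  exact mul_le_gauss measurableSet_Ioc (by simp) (by positivity) fun x hx =>
    pdf_near (abs_le.2 ⟨by linarith [hx.1], by linarith [hx.2]⟩)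

lemma gain_left {K K' : Set (ℝ × Y)} (hK : Convex ℝ K) (hKc : IsClosed K) {τ : ℝ} (hτ : 0 < τ)
    (hext : Extends K K' τ) {y : Y} (hy : y ∈ long K τ) {p q : ℝ} (hp : (p, y) ∉ K)
    (hq : (q, y) ∈ K) (hpq : p ≤ q) (hp1 : -1 ≤ p - τ / 2) (hq1 : q ≤ 1) :
    γ (chord K y) + ENNReal.ofReal ((√(2 * Real.pi))⁻¹ * Real.exp (-1 / 2) * (τ / 2))
      ≤ γ (chord K' y) := by
  have oc := (ordConnected_chord hK y).out
  have hlb : p ∈ lowerBounds (chord K y) := fun x hx => by
    by_contra h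
    exact hp (oc hx hq ⟨(not_le.1 h).le, hpq⟩)
  obtain ⟨t, ht₁, ht₂⟩ := id hy
  set b := sInf (chord K y) with hb
  have hbm : b ∈ chord K y := (isClosed_chord hKc y).csInf_mem ⟨q, hq⟩ ⟨p, hlb⟩
  have hle : ∀ x ∈ chord K y, b ≤ x := fun x hx => csInf_le ⟨p, hlb⟩ hx
  have hb1 : b ≤ t - τ := hle _ ht₁
  have hbp : p ≤ b := hlb hbm
  have hbq : b ≤ q := hle _ hq
  have hsub : chord K y ∪ Ico (b - τ / 2) b ⊆ chord K' y := by
    rintro ξ (hξ | ⟨hξ₁, hξ₂⟩)
    · exact chord_subset hK hτ hext hy hξ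
    · refine hext (b + τ) ξ y ?_ ?_ (abs_le.2 ⟨by linarith, by linarith⟩)
      · simpa [chord] using hbm
      · exact oc hbm ht₂ ⟨by linarith, by linarith⟩
  refine le_trans ?_ (measure_mono hsub)
  rw [measure_union (disjoint_left.2 fun x hx hx' => (not_le.2 hx'.2) (hle x hx)) measurableSet_Ico]
  gcongr
  exact mul_le_gauss measurableSet_Ico (by simp) (by positivity) fun x hx =>
    pdf_near (abs_le.2 ⟨by linarith [hx.1], by linarith [hx.2]⟩)

lemma short_bound {K : Set (ℝ × Y)} (hK : Convex ℝ K) (hKc : IsClosed K) {τ : ℝ} (hτ : 0 < τ)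
    {t₀ : ℝ} (ht₀ : |t₀| ≤ 3 / 10) {y : Y} (hy : y ∉ long K τ) :
    γ (chord K y) ≤ ∑' n : ℕ, ENNReal.ofReal (12 * τ * Real.exp (-1) ^ n)
      * (meets K (t₀ - (n + 1)) (t₀ + (n + 1)) \ long K τ).indicator 1 y := by
  classical
  rcases (chord K y).eq_empty_or_nonempty with h0 | ⟨x₁, hx₁⟩
  · simp [h0]
  have hex : ∃ n : ℕ, y ∈ meets K (t₀ - (n + 1)) (t₀ + (n + 1)) := by
    obtain ⟨N, hN⟩ := exists_nat_ge |x₁ - t₀|
    have := abs_le.1 hN
    exact ⟨N, x₁, ⟨by linarith, by linarith⟩, hx₁⟩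
  set n := Nat.find hex with hn
  refine le_trans ?_ (ENNReal.le_tsum n)
  have hmem : y ∈ meets K (t₀ - (n + 1)) (t₀ + (n + 1)) \ long K τ := ⟨Nat.find_spec hex, hy⟩
  rw [indicator_of_mem hmem, Pi.one_apply, mul_one]
  have hfar : ∀ x ∈ chord K y, (n : ℝ) - 1 / 2 ≤ |x| := by
    intro x hx
    rcases Nat.eq_zero_or_pos n with h | h
    · rw [h]; push_cast; linarith [abs_nonneg x]
    · have := Nat.find_min hex (Nat.sub_one_lt h.ne')
      rw [Nat.cast_sub h] at this
      by_contra hlt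
      refine this ⟨x, ?_, hx⟩
      have h1 := abs_le.1 ht₀
      have h2 := abs_lt.1 (not_le.1 hlt)
      push_cast
      exact ⟨by linarith, by linarith⟩
  refine (gauss_le_mul (isClosed_chord hKc y).measurableSet (chord_bound hK hτ hy hx₁)
    (by positivity) fun x hx => pdf_far (hfar x hx)).trans (le_of_eq ?_)
  congr 1
  ring

variable [MeasurableSpace Y] [BorelSpace Y]

lemma meets_estimate {μ : Measure Y} [IsProbabilityMeasure μ] (hμ : LCM μ) {K : Set (ℝ × Y)}
    (hKc : IsClosed K) (hK : Convex ℝ K) {τ : ℝ} (hτ : 0 < τ) (hτ' : τ ≤ 1 / 10) {t₀ : ℝ}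
    (hM : 2 / 5 ≤ μ.real (slice K (t₀ - 3 / 10) ∩ slice K (t₀ + 3 / 10))) (n : ℕ) :
    μ.real (meets K (t₀ - (n + 1)) (t₀ + (n + 1)) \ long K τ)
      ≤ 70 * (n + 2) * τ * (μ.real (slice K t₀)
          - μ.real (slice K (t₀ - 3 / 10) ∩ slice K (t₀ + 3 / 10))) := by
  set B := slice K (t₀ - 3 / 10) ∩ slice K (t₀ + 3 / 10) with hB
  set P := meets K (t₀ - (n + 1)) (t₀ + (n + 1)) with hP
  have hBm : MeasurableSet B := ((isClosed_slice hKc _).inter (isClosed_slice hKc _)).measurableSet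
  have hPm : MeasurableSet P := (isClosed_meets hKc _ _).measurableSet
  have hLm := measurableSet_long hKc τ
  have hn : (0 : ℝ) ≤ n := n.cast_nonneg
  have hseg : ∀ y ∈ B, ∀ x ∈ Icc (t₀ - 3 / 10) (t₀ + 3 / 10), (x, y) ∈ K := fun y hy x hx =>
    (ordConnected_chord hK y).out hy.1 hy.2 hx
  have hBP : B ⊆ P := fun y hy =>
    ⟨t₀, ⟨by linarith, by linarith⟩, hseg y hy t₀ ⟨by linarith, by linarith⟩⟩
  set M := μ.real B
  set p := μ.real P
  have hp1 : p ≤ 1 := measureReal_le_one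
  have hMp : M ≤ p := measureReal_mono hBP
  have hM0 : 0 < M := by linarith
  have hp0 : 0 < p := by linarith
  -- long chords inside `P`
  have lam0 : 0 < τ / (3 / 10) := by positivity
  have lam1 : τ / (3 / 10) < 1 := by rw [div_lt_one (by norm_num)]; linarith
  set lam := τ / (3 / 10) with hlam
  have hlt : lam * (3 / 10) = τ := div_mul_cancel₀ _ (by norm_num)
  have e1 : p ^ (1 - lam) * M ^ lam ≤ μ.real (P ∩ long K τ) := by
    refine lcm_sets hμ (by linarith) lam0 (by ring) hPm hBm (hPm.inter hLm) fun y hy y' hy' => ?_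
    obtain ⟨x, hx, hxy⟩ := hy
    refine ⟨⟨(1 - lam) * x + lam * t₀, ⟨?_, ?_⟩, ?_⟩, (1 - lam) * x + lam * t₀, ?_, ?_⟩
    · nlinarith [hx.1]
    · nlinarith [hx.2]
    · exact convex_mem hK hxy (hseg y' hy' t₀ ⟨by linarith, by linarith⟩) (by linarith) lam0.le
        (by ring) rfl
    · exact convex_mem hK hxy hy'.1 (by linarith) lam0.le (by ring) (by rw [← hlt]; ring)
    · exact convex_mem hK hxy hy'.2 (by linarith) lam0.le (by ring) (by rw [← hlt]; ring)
  -- the middle slice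
  set θ := (3 / 10 : ℝ) / ((n : ℝ) + 1 + 3 / 10) with hθ
  have θ0 : 0 < θ := by positivity
  have θ1 : θ < 1 := by rw [hθ, div_lt_one (by positivity)]; linarith
  have hθn : θ * ((n : ℝ) + 1 + 3 / 10) = 3 / 10 := div_mul_cancel₀ _ (by positivity)
  have e2 : M ^ (1 - θ) * p ^ θ ≤ μ.real (slice K t₀) := by
    refine lcm_sets hμ (by linarith) θ0 (by ring) hBm hPm (isClosed_slice hKc _).measurableSet
      fun y' hy' y hy => ?_
    obtain ⟨x, hx, hxy⟩ := hy
    refine convex_mem hK (hseg y' hy' ((t₀ - θ * x) / (1 - θ)) ⟨?_, ?_⟩) hxy (by linarith) θ0.le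
      (by ring) ?_
    · rw [le_div_iff₀ (by linarith)]
      nlinarith [hx.2]
    · rw [div_le_iff₀ (by linarith)]
      nlinarith [hx.1]
    · field_simp [(by linarith : (1 - θ) ≠ 0)]
      ring
  have t1 := rpow_tangent hM0 hp0 lam0.le
  have t2 := rpow_tangent hp0 hM0 θ0.le
  have hd : μ.real (P \ long K τ) = p - μ.real (P ∩ long K τ) := by
    have := measureReal_inter_add_sdiff (μ := μ) (s := P) hLm
    linarith
  set δ := μ.real (slice K t₀) - M with hδ
  have hd0 : 0 ≤ p - M := sub_nonneg.2 hMp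
  have i1 : μ.real (P \ long K τ) ≤ lam * (5 / 2) * (p - M) := by
    have h1 : μ.real (P \ long K τ) ≤ lam * (p / M) * (p - M) := by
      have : p * (1 + lam * (1 - p / M)) = p - lam * (p / M) * (p - M) := by
        field_simp
        ring
      linarith
    have h2 : p / M ≤ 5 / 2 := by rw [div_le_iff₀ hM0]; linarith
    exact h1.trans (by gcongr)
  have i2 : θ * (2 / 5) * (p - M) ≤ δ := by
    have h1 : θ * (M / p) * (p - M) ≤ δ := by
      have : M * (1 + θ * (1 - M / p)) = M + θ * (M / p) * (p - M) := by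
        field_simp
      linarith
    have h2 : 2 / 5 ≤ M / p := by rw [le_div_iff₀ hp0]; linarith
    exact le_trans (by gcongr) h1
  have i3 : p - M ≤ 25 / 3 * ((n : ℝ) + 2) * δ := by
    have hδ0 : 0 ≤ δ := le_trans (by positivity) i2
    have h4 := mul_le_mul_of_nonneg_right i2 (show 0 ≤ (n : ℝ) + 1 + 3 / 10 by positivity)
    nlinarith [mul_nonneg hn hδ0]
  calc μ.real (P \ long K τ) ≤ lam * (5 / 2) * (p - M) := i1
    _ ≤ lam * (5 / 2) * (25 / 3 * ((n : ℝ) + 2) * δ) := by gcongr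
    _ = 625 / 9 * ((n : ℝ) + 2) * τ * δ := by rw [hlam]; ring
    _ ≤ _ := by
        have hδ0 : 0 ≤ δ := le_trans (by positivity) i2
        gcongr
        norm_num

variable [SecondCountableTopology Y]

lemma exists_center {μ : Measure Y} [IsProbabilityMeasure μ] {K : Set (ℝ × Y)} (hKc : IsClosed K)
    (hK : Convex ℝ K) (h : ENNReal.ofReal (9 / 10) ≤ (γ.prod μ) K) :
    ∃ t₀ : ℝ, |t₀| ≤ 3 / 10 ∧
      2 / 5 ≤ μ.real (slice K (t₀ - 3 / 10) ∩ slice K (t₀ + 3 / 10)) := by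
  set Q := fun t₀ : ℝ => slice K (t₀ - 3 / 10) ∩ slice K (t₀ + 3 / 10)
  have hQm : ∀ t, MeasurableSet (Q t) := fun t =>
    ((isClosed_slice hKc _).inter (isClosed_slice hKc _)).measurableSet
  have key : ∀ y, γ (chord K y) ≤ 2⁻¹ + 2⁻¹ * (Q (3 / 10) ∪ Q (-(3 / 10))).indicator 1 y := by
    intro y
    have oc := (ordConnected_chord hK y).out
    by_cases hy : y ∈ Q (3 / 10) ∪ Q (-(3 / 10))
    · rw [indicator_of_mem hy, Pi.one_apply, mul_one, ENNReal.inv_two_add_inv_two]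
      exact prob_le_one
    · rw [indicator_of_notMem hy, mul_zero, add_zero]
      by_cases h0 : (0 : ℝ) ∈ chord K y
      · refine le_trans (measure_mono fun x hx => ?_) gauss_middle
        by_contra hxx
        rcases lt_or_ge x (-(3 / 5)) with h' | h'
        · refine hy (Or.inr ⟨oc hx h0 ⟨?_, ?_⟩, oc hx h0 ⟨?_, ?_⟩⟩) <;> norm_num <;> linarith
        · have h'' : 3 / 5 < x := by
            by_contra h''
            exact hxx ⟨h', le_of_not_gt h''⟩
          refine hy (Or.inl ⟨oc h0 hx ⟨?_, ?_⟩, oc h0 hx ⟨?_, ?_⟩⟩) <;> norm_num <;> linarith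
      · by_cases hneg : ∃ x ∈ chord K y, x < 0
        · obtain ⟨x, hx, hx0⟩ := hneg
          refine le_trans (measure_mono fun z hz => ?_) gauss_half.2
          by_contra hz0
          exact h0 (oc hx hz ⟨hx0.le, not_lt.1 hz0⟩)
        · refine le_trans (measure_mono fun z hz => ?_) gauss_half.1
          push Not at hneg
          exact lt_of_le_of_ne (hneg z hz) fun h => h0 (h ▸ hz)
  have hU : MeasurableSet (Q (3 / 10) ∪ Q (-(3 / 10))) := (hQm _).union (hQm _)
  rw [Measure.prod_apply_symm hKc.measurableSet] at h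
  have h1 := h.trans (lintegral_mono key)
  rw [lintegral_add_left measurable_const, lintegral_const, measure_univ, mul_one,
    lintegral_const_mul _ (measurable_one.indicator hU), lintegral_indicator_one hU] at h1
  have h2 := ENNReal.toReal_mono (by finiteness) h1
  rw [ENNReal.toReal_ofReal (by norm_num), ENNReal.toReal_add (by finiteness) (by finiteness),
    ENNReal.toReal_mul, ENNReal.toReal_inv, ENNReal.toReal_ofNat] at h2
  have h3 : μ.real (Q (3 / 10) ∪ Q (-(3 / 10))) ≤ μ.real (Q (3 / 10)) + μ.real (Q (-(3 / 10))) :=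
    measureReal_union_le _ _
  rw [← measureReal_def] at h2
  rcases le_or_gt (2 / 5) (μ.real (Q (3 / 10))) with h4 | h4
  · exact ⟨3 / 10, by norm_num [abs_of_nonneg], h4⟩
  · exact ⟨-(3 / 10), by rw [abs_neg]; norm_num [abs_of_nonneg], show _ ≤ μ.real (Q _) by linarith⟩

end body

/-- The body lemma. -/
theorem body : ∃ τ₀ : ℝ, 0 < τ₀ ∧ τ₀ ≤ 1 ∧ ∀ (Y : Type) [NormedAddCommGroup Y] [NormedSpace ℝ Y]
    [MeasurableSpace Y] [BorelSpace Y] [SecondCountableTopology Y] (μ : Measure Y)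
    [IsProbabilityMeasure μ], LCM μ → ∀ K K' : Set (ℝ × Y), IsClosed K → MeasurableSet K' →
    Convex ℝ K → ENNReal.ofReal (9 / 10) ≤ (γ.prod μ) K → ∀ τ, 0 < τ → τ ≤ τ₀ →
    Extends K K' τ → (γ.prod μ) K ≤ (γ.prod μ) K' := by
  set q := Real.exp (-1) with hq
  have hq0 : 0 < q := Real.exp_pos _
  have hq1 : q < 1 := Real.exp_lt_one_iff.2 (by norm_num)
  have hsum : Summable fun n : ℕ => q ^ n * ((n : ℝ) + 2) := by
    have h1 := summable_pow_mul_geometric_of_norm_lt_one (R := ℝ) 1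
      (r := q) (by rwa [Real.norm_of_nonneg hq0.le])
    have h2 := summable_geometric_of_lt_one hq0.le hq1
    refine ((h1.add (h2.mul_left 2))).congr fun n => ?_
    ring
  set C := ∑' n : ℕ, q ^ n * ((n : ℝ) + 2) with hC
  have hC0 : 0 < C := hsum.tsum_pos (fun n => by positivity) 0 (by norm_num)
  set φ₁ := (√(2 * Real.pi))⁻¹ * Real.exp (-1 / 2) with hφ
  have hφ0 : 0 < φ₁ := by positivity
  refine ⟨min (1 / 280) (φ₁ / (3360 * C)), lt_min (by norm_num) (by positivity),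
    (min_le_left _ _).trans (by norm_num), ?_⟩
  intro Y _ _ _ _ _ μ _ hμ K K' hKc hK'm hK hbig τ hτ hτ₀ hext
  have hτa : τ ≤ 1 / 280 := hτ₀.trans (min_le_left _ _)
  have hτb : τ * (3360 * C) ≤ φ₁ := by
    rw [← le_div_iff₀ (by positivity)]
    exact hτ₀.trans (min_le_right _ _)
  obtain ⟨t₀, ht₀, hM⟩ := exists_center hKc hK hbig
  set B := slice K (t₀ - 3 / 10) ∩ slice K (t₀ + 3 / 10) with hB
  set δ := μ.real (slice K t₀) - μ.real B with hδ
  set L := long K τ with hL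
  set G := (slice K t₀ \ B) ∩ L with hG
  have hBm : MeasurableSet B := ((isClosed_slice hKc _).inter (isClosed_slice hKc _)).measurableSet
  have hS0 : MeasurableSet (slice K t₀) := (isClosed_slice hKc _).measurableSet
  have hLm : MeasurableSet L := measurableSet_long hKc τ
  have hGm : MeasurableSet G := (hS0.diff hBm).inter hLm
  have hBS : B ⊆ slice K t₀ := fun y hy =>
    (ordConnected_chord hK y).out hy.1 hy.2 ⟨by linarith, by linarith⟩
  have hest := meets_estimate hμ hKc hK hτ (by linarith) hM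
  have hδ0 : 0 ≤ δ := sub_nonneg.2 (measureReal_mono hBS)
  -- gain
  have hgain : δ / 2 ≤ μ.real G := by
    have h1 : μ.real G + μ.real ((slice K t₀ \ B) \ L) = μ.real (slice K t₀ \ B) :=
      measureReal_inter_add_sdiff hLm
    have h2 : μ.real (slice K t₀ \ B) = δ := measureReal_sdiff hBS hBm
    have h3 : μ.real ((slice K t₀ \ B) \ L) ≤ 70 * ((0 : ℕ) + 2) * τ * δ := by
      refine le_trans (measureReal_mono ?_) (hest 0)
      intro y hy
      exact ⟨⟨t₀, ⟨by linarith [Nat.cast_nonneg (α := ℝ) 0], by linarith [Nat.cast_nonneg (α := ℝ) 0]⟩, hy.1.1⟩, hy.2⟩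
    push_cast at h3
    nlinarith [mul_nonneg hτ.le hδ0]
  have hg0 : (0 : ℝ) ≤ φ₁ * (τ / 2) := by positivity
  -- pointwise comparison of chords
  set w : ℕ → ℝ≥0∞ := fun n => ENNReal.ofReal (12 * τ * q ^ n) with hw
  set P : ℕ → Set Y := fun n => meets K (t₀ - (n + 1)) (t₀ + (n + 1)) with hP
  have hPm : ∀ n, MeasurableSet (P n \ L) := fun n =>
    (isClosed_meets hKc _ _).measurableSet.diff hLm
  have hpt : ∀ y, γ (chord K y) + ENNReal.ofReal (φ₁ * (τ / 2)) * G.indicator 1 y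
      ≤ γ (chord K' y) + ∑' n, w n * (P n \ L).indicator 1 y := by
    intro y
    by_cases hy : y ∈ L
    · refine le_add_right ?_
      by_cases hyG : y ∈ G
      · rw [indicator_of_mem hyG, Pi.one_apply, mul_one]
        obtain ⟨⟨hy0, hyB⟩, -⟩ := hyG
        have := abs_le.1 ht₀
        by_cases hr : (t₀ + 3 / 10, y) ∈ K
        · have hl : (t₀ - 3 / 10, y) ∉ K := fun hl => hyB ⟨hl, hr⟩
          exact gain_left hK hKc hτ hext hy hl hy0 (by linarith) (by linarith) (by linarith)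
        · exact gain_right hK hKc hτ hext hy hy0 hr (by linarith) (by linarith) (by linarith)
      · rw [indicator_of_notMem hyG, mul_zero, add_zero]
        exact measure_mono (chord_subset hK hτ hext hy)
    · rw [indicator_of_notMem fun h => hy h.2, mul_zero, add_zero]
      exact (short_bound hK hKc hτ ht₀ hy).trans le_add_self
  -- integrate
  have hI := lintegral_mono (μ := μ) hpt
  rw [lintegral_add_right _ ((measurable_one.indicator hGm).const_mul _),
    lintegral_add_left (f := fun y => γ (chord K' y)) (measurable_measure_prodMk_right hK'm),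
    lintegral_const_mul _ (measurable_one.indicator hGm), lintegral_indicator_one hGm,
    lintegral_tsum fun n => ((measurable_one.indicator (hPm n)).const_mul _).aemeasurable] at hI
  simp only [lintegral_const_mul _ (measurable_one.indicator (hPm _)),
    lintegral_indicator_one (hPm _)] at hI
  have hloss : ∑' n, w n * μ (P n \ L) ≤ ENNReal.ofReal (φ₁ * (τ / 2)) * μ G := by
    calc ∑' n, w n * μ (P n \ L)
        ≤ ∑' n : ℕ, ENNReal.ofReal (840 * τ ^ 2 * δ * (q ^ n * ((n : ℝ) + 2))) := by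
          refine ENNReal.tsum_le_tsum fun n => ?_
          rw [← ofReal_measureReal (measure_ne_top μ _), hw, ← ENNReal.ofReal_mul (by positivity)]
          refine ENNReal.ofReal_le_ofReal ?_
          refine (mul_le_mul_of_nonneg_left (hest n) (by positivity)).trans (le_of_eq ?_)
          ring
      _ = ENNReal.ofReal (840 * τ ^ 2 * δ * C) := by
          rw [← ENNReal.ofReal_tsum_of_nonneg (fun n => by positivity) (hsum.mul_left _),
            tsum_mul_left]
      _ ≤ ENNReal.ofReal (φ₁ * (τ / 2) * μ.real G) := by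
          refine ENNReal.ofReal_le_ofReal (le_trans ?_ (mul_le_mul_of_nonneg_left hgain hg0))
          nlinarith [mul_le_mul_of_nonneg_right hτb (mul_nonneg hτ.le hδ0)]
      _ = _ := by rw [ENNReal.ofReal_mul hg0, ofReal_measureReal (measure_ne_top μ _)]
  rw [Measure.prod_apply_symm hKc.measurableSet, Measure.prod_apply_symm hK'm]
  refine ENNReal.le_of_add_le_add_right (a := ENNReal.ofReal (φ₁ * (τ / 2)) * μ G)
    (by finiteness) ?_
  exact hI.trans (add_le_add le_rfl hloss)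

end Vale.Agent.P262.OneStepAux
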