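import Mathlib
import Vale.Agent.P262.Defs
import Vale.Agent.P262.OneStepBody

/-!
P262, module A: the functional one-step lemma. For a convex Lipschitz `f` and a short vector `u`
there is a convex Lipschitz `f'` above `min (f (· + u)) (f (· - u))` whose Gaussian averages are
not larger than those of the translates `f (· + a • u)`, `|a| ≤ 1/2`.
-/

namespace Vale.Agent.P262

open MeasureTheory ProbabilityTheory Set Filter
open scoped ENNReal NNReal Topology

namespace OneStepAux

/-- The larger of the two values at the ends of the segment around `x + t • u`. -/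
def pair {d : ℕ} (f : V d → ℝ) (u x : V d) (t : ℝ) : ℝ :=
  max (f (x + (t + 1) • u)) (f (x + (t - 1) • u))

/-- The modified function. -/
noncomputable def star {d : ℕ} (f : V d → ℝ) (u x : V d) : ℝ :=
  sInf (pair f u x '' Icc (-2) 2)

lemma star_spec {d : ℕ} {f : V d → ℝ} (hf : Continuous f) (u x : V d) :
    ∃ t ∈ Icc (-2 : ℝ) 2, star f u x = pair f u x t ∧
      ∀ s ∈ Icc (-2 : ℝ) 2, pair f u x t ≤ pair f u x s :=
  isCompact_Icc.exists_sInf_image_eq_and_le (nonempty_Icc.2 (by norm_num))
    (Continuous.continuousOn (by unfold pair; fun_prop))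

lemma star_le {d : ℕ} {f : V d → ℝ} (hf : Continuous f) (u x : V d) {s : ℝ}
    (hs : s ∈ Icc (-2 : ℝ) 2) : star f u x ≤ pair f u x s := by
  obtain ⟨t, -, h, hle⟩ := star_spec hf u x
  exact h.le.trans (hle s hs)

lemma star_lipschitz {d : ℕ} {f : V d → ℝ} {L : ℝ≥0} (hf : LipschitzWith L f) (u : V d) :
    LipschitzWith L (star f u) := by
  refine LipschitzWith.of_le_add_mul L fun x y => ?_
  obtain ⟨t, ht, h, -⟩ := star_spec hf.continuous u y
  refine (star_le hf.continuous u x ht).trans (max_le ?_ ?_)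
  · have := hf.le_add_mul (x + (t + 1) • u) (y + (t + 1) • u)
    rw [dist_add_right] at this
    have := le_max_left (f (y + (t + 1) • u)) (f (y + (t - 1) • u))
    rw [h, pair]
    linarith
  · have := hf.le_add_mul (x + (t - 1) • u) (y + (t - 1) • u)
    rw [dist_add_right] at this
    have := le_max_right (f (y + (t + 1) • u)) (f (y + (t - 1) • u))
    rw [h, pair]
    linarith

lemma star_convex {d : ℕ} {f : V d → ℝ} (hf : Continuous f) (hc : ConvexOn ℝ univ f) (u : V d) :
    ConvexOn ℝ univ (star f u) := by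
  refine ⟨convex_univ, fun x _ y _ a b ha hb hab => ?_⟩
  obtain ⟨t, ht, hx, -⟩ := star_spec hf u x
  obtain ⟨s, hs, hy, -⟩ := star_spec hf u y
  refine (star_le hf u _ (convex_Icc _ _ ht hs ha hb hab)).trans ?_
  rw [hx, hy, pair, pair, pair, smul_eq_mul, smul_eq_mul, smul_eq_mul]
  refine max_le ?_ ?_
  · have e : a • x + b • y + (a * t + b * s + 1) • u
        = a • (x + (t + 1) • u) + b • (y + (s + 1) • u) := by
      match_scalars <;> linarith [hab]
    rw [e]
    refine (hc.2 (mem_univ _) (mem_univ _) ha hb hab).trans ?_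
    simp only [smul_eq_mul]
    exact add_le_add (mul_le_mul_of_nonneg_left (le_max_left _ _) ha)
      (mul_le_mul_of_nonneg_left (le_max_left _ _) hb)
  · have e : a • x + b • y + (a * t + b * s - 1) • u
        = a • (x + (t - 1) • u) + b • (y + (s - 1) • u) := by
      match_scalars <;> linarith [hab]
    rw [e]
    refine (hc.2 (mem_univ _) (mem_univ _) ha hb hab).trans ?_
    simp only [smul_eq_mul]
    exact add_le_add (mul_le_mul_of_nonneg_left (le_max_right _ _) ha)
      (mul_le_mul_of_nonneg_left (le_max_right _ _) hb)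

lemma min_le_star {d : ℕ} {f : V d → ℝ} (hf : Continuous f) (hc : ConvexOn ℝ univ f) (u x : V d) :
    min (f (x + u)) (f (x - u)) ≤ star f u x := by
  obtain ⟨t, ht, h, -⟩ := star_spec hf u x
  rw [h, pair]
  have key : ∀ r : ℝ, r ∈ Icc (t - 1) (t + 1) →
      f (x + r • u) ≤ max (f (x + (t + 1) • u)) (f (x + (t - 1) • u)) := by
    intro r hr
    refine hc.le_max_of_mem_segment (mem_univ _) (mem_univ _) ⟨(r - (t - 1)) / 2,
      (t + 1 - r) / 2, by linarith [hr.1], by linarith [hr.2], by ring, ?_⟩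
    module
  rcases le_or_gt t 0 with h0 | h0
  · have := key (-1) ⟨by linarith, by linarith [ht.1]⟩
    simp only [neg_smul, one_smul, ← sub_eq_add_neg] at this
    exact (min_le_right _ _).trans this
  · have := key 1 ⟨by linarith [ht.2], by linarith⟩
    simp only [one_smul] at this
    exact (min_le_left _ _).trans this

/-- Truncation at levels `-m` and `R`. -/
def clamp (m R x : ℝ) : ℝ := max (-m) (min x R)

lemma abs_clamp_le {m R x : ℝ} (hm : 0 ≤ m) (hR : 0 ≤ R) : |clamp m R x| ≤ |x| := by
  unfold clamp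
  rw [abs_le]
  rcases le_total x R with h | h
  · rw [min_eq_left h]
    exact ⟨(neg_abs_le x).trans (le_max_right _ _),
      max_le (le_trans (by linarith) (abs_nonneg x)) (le_abs_self x)⟩
  · rw [min_eq_right h, max_eq_right (by linarith)]
    exact ⟨le_trans (neg_nonpos.2 (abs_nonneg x)) hR, h.trans (le_abs_self x)⟩

/-- Uniform probability measure on `[-m, R]`. -/
noncomputable def unif (m R : ℝ) : Measure ℝ :=
  ENNReal.ofReal (R + m)⁻¹ • volume.restrict (Icc (-m) R)

lemma isProbabilityMeasure_unif {m R : ℝ} (h : 0 < R + m) : IsProbabilityMeasure (unif m R) := by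
  constructor
  rw [unif, Measure.smul_apply, Measure.restrict_apply_univ, Real.volume_Icc, smul_eq_mul,
    ← ENNReal.ofReal_mul (by positivity), sub_neg_eq_add, inv_mul_cancel₀ h.ne', ENNReal.ofReal_one]

lemma unif_above {m R : ℝ} (h : 0 < R + m) (v : ℝ) :
    unif m R {l | v ≤ l} = ENNReal.ofReal ((R - clamp m R v) / (R + m)) := by
  have e : {l : ℝ | v ≤ l} ∩ Icc (-m) R = Icc (max (-m) v) R := by
    ext l
    simp [mem_Icc, and_comm, and_left_comm]
  rw [show {l : ℝ | v ≤ l} = Ici v from rfl, unif, Measure.smul_apply, Measure.restrict_apply (measurableSet_Ici : MeasurableSet (Ici v)),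
    show Ici v ∩ Icc (-m) R = Icc (max (-m) v) R from e, Real.volume_Icc, smul_eq_mul, ← ENNReal.ofReal_mul (by positivity)]
  unfold clamp
  rcases le_total v R with hv | hv
  · rw [min_eq_left hv, inv_mul_eq_div]
  · rw [min_eq_right hv, max_eq_right (show -m ≤ v by linarith), max_eq_right (show -m ≤ R by linarith),
      sub_self, zero_div, ENNReal.ofReal_zero, ENNReal.ofReal_eq_zero]
    exact mul_nonpos_of_nonneg_of_nonpos (by positivity) (by linarith)

lemma clamp_measure {n : ℕ} {m R : ℝ} (h : 0 < R + m) (hmR : -m ≤ R)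
    (Ψ : ℝ × (Fin n → ℝ) → V (n + 1)) (hΨ : Continuous Ψ)
    (hmap : (γ.prod (Measure.pi fun _ : Fin n => γ)).map Ψ = stdGaussian (V (n + 1)))
    (g : V (n + 1) → ℝ) (hg : Continuous g) :
    (γ.prod ((Measure.pi fun _ : Fin n => γ).prod (unif m R)))
        {p | g (Ψ (p.1, p.2.1)) ≤ p.2.2}
      = ENNReal.ofReal ((R - ∫ w, clamp m R (g w) ∂stdGaussian (V (n + 1))) / (R + m)) := by
  have := isProbabilityMeasure_unif h
  set S : Set (ℝ × (Fin n → ℝ) × ℝ) := {p | g (Ψ (p.1, p.2.1)) ≤ p.2.2} with hS
  have hSm : MeasurableSet S := (isClosed_le (by fun_prop) (by fun_prop)).measurableSet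
  rw [← Measure.prodAssoc_prod, Measure.map_apply MeasurableEquiv.prodAssoc.measurable hSm,
    Measure.prod_apply (MeasurableEquiv.prodAssoc.measurable hSm)]
  have hcl : Continuous fun w => clamp m R (g w) := by unfold clamp; fun_prop
  calc ∫⁻ p, unif m R (Prod.mk p ⁻¹' (MeasurableEquiv.prodAssoc ⁻¹' S))
          ∂(γ.prod (Measure.pi fun _ : Fin n => γ))
      = ∫⁻ p, ENNReal.ofReal ((R - clamp m R (g (Ψ p))) / (R + m))
          ∂(γ.prod (Measure.pi fun _ : Fin n => γ)) := by
        refine lintegral_congr fun p => ?_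
        rw [← unif_above h]
        rfl
    _ = ∫⁻ w, ENNReal.ofReal ((R - clamp m R (g w)) / (R + m)) ∂stdGaussian (V (n + 1)) := by
        rw [← hmap, lintegral_map (by have := hcl.measurable; fun_prop) hΨ.measurable]
    _ = _ := by
        have hi : Integrable (fun w => clamp m R (g w)) (stdGaussian (V (n + 1))) := by
          refine Integrable.of_bound hcl.aestronglyMeasurable (max |m| |R|)
            (Eventually.of_forall fun w => ?_)
          rw [Real.norm_eq_abs, clamp, abs_le]
          refine ⟨le_trans ?_ (le_max_left _ _), max_le ?_ ((min_le_right _ _).trans ?_)⟩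
          · linarith [le_abs_self m, le_max_left |m| |R|]
          · linarith [neg_abs_le m, le_max_left |m| |R|]
          · exact (le_abs_self R).trans (le_max_right _ _)
        have h2 : ∫ w, (R - clamp m R (g w)) / (R + m) ∂stdGaussian (V (n + 1))
            = (R - ∫ w, clamp m R (g w) ∂stdGaussian (V (n + 1))) / (R + m) := by
          rw [integral_div, integral_sub (integrable_const _) hi, integral_const]
          simp
        rw [← h2]
        refine (ofReal_integral_eq_lintegral_ofReal
          (f := fun w => (R - clamp m R (g w)) / (R + m))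
          (((integrable_const R).sub hi).div_const _) (Eventually.of_forall fun w => ?_)).symm
        have : clamp m R (g w) ≤ R := max_le hmR (min_le_right _ _)
        exact div_nonneg (by linarith) h.le

lemma integrable_lipschitz {d : ℕ} {f : V d → ℝ} {L : ℝ≥0} (hf : LipschitzWith L f) :
    Integrable f (stdGaussian (V d)) := by
  refine Integrable.mono' ((integrable_const |f 0|).add
    ((IsGaussian.integrable_id (μ := stdGaussian (V d))).norm.const_mul (L : ℝ)))
    hf.continuous.aestronglyMeasurable (Eventually.of_forall fun x => ?_)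
  have := hf.dist_le_mul x 0
  rw [Real.dist_eq, dist_zero_right] at this
  simp only [Real.norm_eq_abs, Pi.add_apply, id]
  linarith [abs_sub_abs_le_abs_sub (f x) (f 0)]

/-- Comparison for one pair of functions. -/
lemma compare {τ₀ : ℝ}
    (hbody : ∀ (Y : Type) [NormedAddCommGroup Y] [NormedSpace ℝ Y]
      [MeasurableSpace Y] [BorelSpace Y] [SecondCountableTopology Y] (μ : Measure Y)
      [IsProbabilityMeasure μ], LCM μ → ∀ K K' : Set (ℝ × Y), IsClosed K → MeasurableSet K' →
      Convex ℝ K → ENNReal.ofReal (9 / 10) ≤ (γ.prod μ) K → ∀ τ, 0 < τ → τ ≤ τ₀ →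
      Extends K K' τ → (γ.prod μ) K ≤ (γ.prod μ) K')
    {n : ℕ} (e : V (n + 1)) (he : ‖e‖ = 1) {τ : ℝ} (hτ : 0 < τ) (hτ₀ : τ ≤ τ₀)
    (h h' : V (n + 1) → ℝ) (hc : Continuous h) (hconv : ConvexOn ℝ univ h) (hc' : Continuous h')
    (hi : Integrable h (stdGaussian (V (n + 1)))) (hi' : Integrable h' (stdGaussian (V (n + 1))))
    (hext : ∀ w s l, |s| ≤ 3 * τ / 2 → h (w + (s - τ) • e) ≤ l → h (w + (s + τ) • e) ≤ l →
      h' w ≤ l) :
    ∫ w, h' w ∂stdGaussian (V (n + 1)) ≤ ∫ w, h w ∂stdGaussian (V (n + 1)) := by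
  have ho : Orthonormal ℝ (({0} : Set (Fin (n + 1))).domRestrict fun _ => e) :=
    ⟨fun _ => he, fun i j hij => absurd (Subsingleton.elim i j) hij⟩
  obtain ⟨b, hb⟩ := ho.exists_orthonormalBasis_extension_of_card_eq (by simp)
  have hb0 : b 0 = e := hb 0 rfl
  set Ψ : ℝ × (Fin n → ℝ) → V (n + 1) := fun p => p.1 • e + ∑ j, p.2 j • b j.succ with hΨ
  have hΨc : Continuous Ψ := by fun_prop
  have hmap : (γ.prod (Measure.pi fun _ : Fin n => γ)).map Ψ = stdGaussian (V (n + 1)) := by
    have hmp := (measurePreserving_piFinSuccAbove (fun _ : Fin (n + 1) => γ) 0).symm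
      (MeasurableEquiv.piFinSuccAbove (fun _ : Fin (n + 1) => ℝ) 0)
    rw [stdGaussian_eq_map_pi_orthonormalBasis b, ← hmp.map_eq,
      Measure.map_map (by fun_prop) hmp.measurable]
    congr 1
    funext p
    simp [hΨ, MeasurableEquiv.piFinSuccAbove_symm_apply, Fin.insertNthEquiv, Fin.sum_univ_succ, hb0]
  have key : ∀ m R : ℝ, 0 < m → R = 20 * m → ∫ w, |h w| ∂stdGaussian (V (n + 1)) ≤ m →
      ∫ w, clamp m R (h' w) ∂stdGaussian (V (n + 1))
        ≤ ∫ w, clamp m R (h w) ∂stdGaussian (V (n + 1)) := by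
    intro m R hm hR hmle
    have hpos : 0 < R + m := by linarith
    have := isProbabilityMeasure_unif hpos
    have hK := clamp_measure hpos (by linarith) Ψ hΨc hmap h hc
    have hK' := clamp_measure hpos (by linarith) Ψ hΨc hmap h' hc'
    have hle : ∫ w, clamp m R (h w) ∂stdGaussian (V (n + 1)) ≤ m := by
      refine le_trans ((le_abs_self _).trans (abs_integral_le_integral_abs)) (le_trans ?_ hmle)
      exact integral_mono_of_nonneg (Eventually.of_forall fun w => abs_nonneg _) hi.abs
        (Eventually.of_forall fun w => abs_clamp_le hm.le (by linarith))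
    have hle' : ∫ w, clamp m R (h' w) ∂stdGaussian (V (n + 1)) ≤ R := by
      have hb : ∀ w, ‖clamp m R (h' w)‖ ≤ R := fun w => by
        rw [Real.norm_eq_abs, clamp, abs_le]
        exact ⟨le_trans (by linarith) (le_max_left _ _), max_le (by linarith) (min_le_right _ _)⟩
      have := norm_integral_le_of_norm_le_const (μ := stdGaussian (V (n + 1)))
        (Eventually.of_forall hb)
      rw [probReal_univ, mul_one] at this
      exact (le_abs_self _).trans this
    have := hbody ((Fin n → ℝ) × ℝ) ((Measure.pi fun _ : Fin n => γ).prod (unif m R))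
      (lcm_prod (lcm_pi n) (lcm_smul (lcm_restrict lcm_volume measurableSet_Icc (convex_Icc _ _)) _))
      {p | h (Ψ (p.1, p.2.1)) ≤ p.2.2} {p | h' (Ψ (p.1, p.2.1)) ≤ p.2.2}
      (isClosed_le (by fun_prop) (by fun_prop))
      (isClosed_le (by fun_prop) (by fun_prop)).measurableSet ?_ ?_ τ hτ hτ₀ ?_
    · rw [hK, hK', ENNReal.ofReal_le_ofReal_iff (div_nonneg (by linarith) hpos.le),
        div_le_div_iff_of_pos_right hpos] at this
      linarith
    · intro p hp q hq a c ha hc' hac
      simp only [mem_ofPred_eq, Prod.smul_fst, Prod.smul_snd, Prod.fst_add, Prod.snd_add,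
        smul_eq_mul] at hp hq ⊢
      have e1 : Ψ (a * p.1 + c * q.1, a • p.2.1 + c • q.2.1)
          = a • Ψ (p.1, p.2.1) + c • Ψ (q.1, q.2.1) := by
        simp only [hΨ, smul_add, Finset.smul_sum, Pi.add_apply, Pi.smul_apply, smul_eq_mul,
          add_smul, mul_smul, Finset.sum_add_distrib]
        abel
      rw [e1]
      refine (hconv.2 (mem_univ _) (mem_univ _) ha hc' hac).trans ?_
      simp only [smul_eq_mul]
      gcongr
    · rw [hK]
      refine ENNReal.ofReal_le_ofReal ?_
      rw [le_div_iff₀ hpos]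
      linarith
    · rintro t ξ ⟨z, l⟩ h1 h2 h3
      simp only [mem_ofPred_eq] at h1 h2 ⊢
      refine hext (Ψ (ξ, z)) (t - ξ) l (by rwa [abs_sub_comm]) ?_ ?_
      · have : Ψ (ξ, z) + (t - ξ - τ) • e = Ψ (t - τ, z) := by simp only [hΨ]; module
        rwa [this]
      · have : Ψ (ξ, z) + (t - ξ + τ) • e = Ψ (t + τ, z) := by simp only [hΨ]; module
        rwa [this]
  have lim : ∀ g : V (n + 1) → ℝ, Continuous g → Integrable g (stdGaussian (V (n + 1))) →
      Tendsto (fun N : ℕ => ∫ w, clamp N (20 * N) (g w) ∂stdGaussian (V (n + 1))) atTop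
        (𝓝 (∫ w, g w ∂stdGaussian (V (n + 1)))) := by
    intro g hg hgi
    refine tendsto_integral_of_dominated_convergence (fun w => |g w|)
      (fun N => (Continuous.aestronglyMeasurable (by unfold clamp; fun_prop))) hgi.abs
      (fun N => Eventually.of_forall fun w => ?_) (Eventually.of_forall fun w => ?_)
    · exact abs_clamp_le N.cast_nonneg (by positivity)
    · refine tendsto_const_nhds.congr' ?_
      obtain ⟨N, hN⟩ := exists_nat_ge |g w|
      filter_upwards [eventually_ge_atTop N] with k hk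
      have hk' : (N : ℝ) ≤ k := Nat.cast_le.2 hk
      have := abs_le.1 (hN.trans hk')
      rw [clamp, min_eq_left (by linarith), max_eq_right (by linarith)]
  refine le_of_tendsto_of_tendsto (lim h' hc' hi') (lim h hc hi) ?_
  obtain ⟨N, hN⟩ := exists_nat_ge (∫ w, |h w| ∂stdGaussian (V (n + 1)))
  filter_upwards [eventually_ge_atTop (max N 1)] with k hk
  have hk1 : 1 ≤ k := (le_max_right _ _).trans hk
  have hkN : (N : ℝ) ≤ k := Nat.cast_le.2 ((le_max_left _ _).trans hk)
  exact key k (20 * k) (by exact_mod_cast hk1) rfl (hN.trans hkN)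

end OneStepAux

open OneStepAux in
/-- The functional one-step lemma. -/
theorem oneStep : ∃ τ : ℝ, 0 < τ ∧ τ ≤ 1 ∧ ∀ (d : ℕ) (f : V d → ℝ), Adm f → ∀ u : V d, ‖u‖ ≤ τ →
    ∃ f' : V d → ℝ, Adm f' ∧ (∀ x, min (f (x + u)) (f (x - u)) ≤ f' x) ∧
      ∀ (c : V d) (a : ℝ), |a| ≤ 1/2 →
        gE (fun g => f' (c + g)) ≤ gE (fun g => f (c + a • u + g)) := by
  obtain ⟨τ₀, hτ₀, hτ₁, hbody⟩ := body
  refine ⟨τ₀, hτ₀, hτ₁, fun d f hf u hu => ?_⟩
  by_cases hu0 : u = 0
  · subst hu0
    exact ⟨f, hf, fun x => by simp, fun c a _ => by simp⟩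
  obtain ⟨L, hL⟩ := hf.lipschitz
  refine ⟨star f u, ⟨star_convex hL.continuous hf.convex u, L, star_lipschitz hL u⟩,
    min_le_star hL.continuous hf.convex u, fun c a ha => ?_⟩
  obtain ⟨n, rfl⟩ : ∃ n, d = n + 1 := by
    rcases Nat.eq_zero_or_pos d with h | h
    · subst h
      exact absurd (Subsingleton.elim u 0) hu0
    · exact ⟨d - 1, (Nat.sub_add_cancel h).symm⟩
  have hτ : 0 < ‖u‖ := norm_pos_iff.2 hu0
  have he : ‖‖u‖⁻¹ • u‖ = 1 := norm_smul_inv_norm hu0
  have hlip : ∀ z : V (n + 1), LipschitzWith L fun g => f (z + g) := fun z =>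
    LipschitzWith.of_dist_le_mul fun x y => (hL.dist_le_mul _ _).trans (by rw [dist_add_left])
  have hlip' : LipschitzWith L fun g => star f u (c + g) := LipschitzWith.of_dist_le_mul fun x y =>
    ((star_lipschitz hL u).dist_le_mul _ _).trans (by rw [dist_add_left])
  refine compare hbody _ he hτ hu (fun g => f (c + a • u + g)) (fun g => star f u (c + g))
    (hlip _).continuous ?_ hlip'.continuous (integrable_lipschitz (hlip _))
    (integrable_lipschitz hlip') fun w s l hs h1 h2 => ?_
  · exact hf.convex.translate_right (c + a • u) |>.subset (subset_univ _) convex_univ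
  · have ha' := abs_le.1 ha
    have hs' := abs_le.1 hs
    have hr : -(3 / 2) ≤ s / ‖u‖ ∧ s / ‖u‖ ≤ 3 / 2 :=
      ⟨by rw [le_div_iff₀ hτ]; linarith, by rw [div_le_iff₀ hτ]; linarith⟩
    refine (star_le hL.continuous u (c + w) (s := a + s / ‖u‖)
      ⟨by linarith, by linarith⟩).trans (max_le ?_ ?_)
    · have : c + w + (a + s / ‖u‖ + 1) • u = c + a • u + (w + (s + ‖u‖) • ‖u‖⁻¹ • u) := by
        have : (s + ‖u‖) • ‖u‖⁻¹ • u = (s / ‖u‖ + 1) • u := by
          rw [smul_smul]; congr 1; field_simp
        rw [this]; module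
      rw [this]; exact h2
    · have : c + w + (a + s / ‖u‖ - 1) • u = c + a • u + (w + (s - ‖u‖) • ‖u‖⁻¹ • u) := by
        have : (s - ‖u‖) • ‖u‖⁻¹ • u = (s / ‖u‖ - 1) • u := by
          rw [smul_smul]; congr 1; field_simp
        rw [this]; module
      rw [this]; exact h1

end Vale.Agent.P262
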