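import Vale.Agent.P262.BL
import Vale.Agent.P262.Levels
import Vale.Agent.P262.Item
import Vale.Agent.P262.Chobanyan
import Vale.Agent.P262.OneStep

/-!
From the statement proved by induction on the rank to the bounds for signed prefixes and for
zero-sum rearrangements.
-/

namespace Vale.Agent.P262

open Finset
open scoped RealInnerProductSpace

/-- The outermost owner on `[0,N)`. -/
def rootOwner (d N : ℕ) : Owner d :=
  { H := ⊤, B := 0, cs := 0, ce := N, rk := NR d + 1, trk := NR d + 1, tk := d }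

lemma rootOwner_WF {d : ℕ} (v : ℕ → V d) (N : ℕ) : (rootOwner d N).WF v where
  B_nonneg := le_rfl
  rk_le := le_rfl
  trk_le := le_rfl
  k_le := le_of_eq (finrank_top ℝ (V d) |>.trans finrank_euclideanSpace_fin)
  tk_le := le_rfl
  inv := by
    have h : Module.finrank ℝ (⊤ : Submodule ℝ (V d)) = d :=
      finrank_top ℝ (V d) |>.trans finrank_euclideanSpace_fin
    show (0 : ℝ) ^ 2 + 200000 * LL d * (((NR d + 1 + Module.finrank ℝ (⊤ : Submodule ℝ (V d)) : ℕ) : ℝ)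
      + ((NR d + 1 + d : ℕ) : ℝ)) ≤ _
    rw [h]
    linarith
  drift := fun K y hK _ => by
    have : 0 ≤ K * eta d := mul_nonneg hK (inv_nonneg.2 (pow_nonneg DD_pos.le _))
    simpa [rootOwner] using this

/-- A signing with all prefixes in the final radius. -/
theorem prefix_of_node {d : ℕ} (hd : 1 ≤ d) (v : ℕ → V d)
    (hrank : ∀ s e, s ≤ e → rankOf v s e ≤ NR d) (hnode : NodeP v (NR d)) (N : ℕ) :
    ∃ w : ℕ → ℝ, IsSign w ∧ ∀ k, k ≤ N → ‖disp v 0 k w‖ ≤ RR d + 1 := by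
  have _ := hd
  have hO := rootOwner_WF v N
  obtain ⟨Φ, hD, hC⟩ := hnode (rootOwner d N) hO (Nat.lt_succ_self _) 0 N le_rfl (Nat.zero_le N)
    le_rfl (Or.inr (Or.inr (hrank 0 N (Nat.zero_le N))))
  have hl : lev (NR d) + 1 ≤ 500 * (d + 100) := by
    unfold lev NR
    omega
  have hKl : Kl (lev (NR d)) ≤ KP d := by
    have h : (((lev (NR d) : ℕ) : ℝ)) ≤ 500 * DD d := by
      have : ((lev (NR d) : ℕ) : ℝ) ≤ ((500 * (d + 100) : ℕ) : ℝ) :=
        Nat.cast_le.2 ((Nat.le_succ _).trans hl)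
      simpa [DD] using this
    have h4 : 5010 * DD d ^ 1 ≤ DD d ^ 4 := const_mul_DD_pow_le (k := 3) (by norm_num) le_rfl
    rw [pow_one] at h4
    unfold Kl KP
    linarith [DD_ge (d := d)]
  have hb1 : beta d (rootOwner d N).rk (NR d) ≤ (DD d ^ 80)⁻¹ := by
    show beta d (NR d + 1) (NR d) ≤ _
    unfold beta
    rw [show NR d + 1 + 1 - NR d = 2 by omega]
    calc (DD d ^ 20)⁻¹ * (DD d ^ 270)⁻¹ ^ 2 ≤ 1 * (DD d ^ 80)⁻¹ := by
          refine mul_le_mul (inv_le_one_of_one_le₀ (one_le_pow₀ one_le_DD)) ?_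
            (pow_nonneg (inv_nonneg.2 (pow_nonneg DD_pos.le _)) 2) zero_le_one
          rw [inv_pow, ← pow_mul]
          exact inv_DD_pow_anti (by norm_num)
      _ = _ := one_mul _
  obtain ⟨Ω, -, -, hΩb, hmain⟩ := blockBL hO hl (hD.mono hKl) hC (le_refl 0) (le_refl N)
    (beta_nonneg _ _) (γ := 0) le_rfl (by simpa using hb1)
  have hR := RR_pos (d := d)
  have hΩ0 : Ω 0 < 1 := by
    have h := hΩb 0 0 le_rfl (by norm_num) (by simp) (by simp [hR.le])
    simp only [zero_smul, add_zero, gE_const] at h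
    refine lt_of_le_of_lt (h.trans (beta_le_small _ _)) ?_
    refine inv_lt_one_of_one_lt₀ (one_lt_pow₀ ?_ (by norm_num))
    linarith [DD_ge (d := d)]
  obtain ⟨w, hw, hst, -, -⟩ := hmain 0 (by simp [hR.le]) hΩ0
    ⟨0, by simp [hR.le], by simp [rootOwner], by
      rw [sub_zero]
      exact InZ.zero (pow_nonneg (DD_pos (d := d)).le 6)⟩
    0 (fun i _ => by
      simp only [Pi.zero_apply, abs_zero]
      linarith [alf_ge (d := d) hl])
    (fun _ => 0) (Adm.const 0) (fun _ => le_rfl) (fun u _ => by simp [gE_const])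
    (fun _ => 0) (Adm.const 0)
  refine ⟨fun i => if i < N then w i else 1, fun i => ?_, fun k hk => ?_⟩
  · by_cases hi : i < N
    · simpa [hi] using hw i (Finset.mem_Ico.2 ⟨Nat.zero_le i, hi⟩)
    · simp [hi]
  · have e : disp v 0 k (fun i => if i < N then w i else 1) = disp v 0 k w :=
      disp_congr fun i hi => if_pos ((Finset.mem_Ico.1 hi).2.trans_le hk)
    have h := hst k (Nat.zero_le k) hk
    rw [zero_add, sub_zero] at h
    rw [e]
    exact h.trans (Rg_le hl)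

lemma sum_fin_lt {E : Type*} [AddCommMonoid E] (g : ℕ → E) {N k : ℕ} (hk : k ≤ N) :
    ∑ i : Fin N with i.val < k, g i = ∑ i ∈ Finset.range k, g i := by
  rw [Finset.sum_filter, Fin.sum_univ_eq_sum_range (fun i => if i < k then g i else 0) N,
    ← Finset.sum_filter]
  refine Finset.sum_congr ?_ fun i _ => rfl
  ext i
  simp only [Finset.mem_filter, Finset.mem_range]
  omega

lemma RR_le_sqrt {d : ℕ} (hd : 1 ≤ d) :
    RR d + 1 ≤ 1080000 * √(d * Real.log (d + 1)) := by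
  have hd' : (1 : ℝ) ≤ d := by exact_mod_cast hd
  have hL : LL d ≤ 7 * Real.log ((d : ℝ) + 1) := by
    have h1 : (d : ℝ) + 100 ≤ ((d : ℝ) + 1) ^ 7 := by
      have h2 : (64 : ℝ) ≤ ((d : ℝ) + 1) ^ 6 := by
        calc (64 : ℝ) = (2 : ℝ) ^ 6 := by norm_num
          _ ≤ _ := pow_le_pow_left₀ (by norm_num) (by linarith) 6
      calc (d : ℝ) + 100 ≤ 64 * ((d : ℝ) + 1) := by linarith
        _ ≤ ((d : ℝ) + 1) ^ 6 * ((d : ℝ) + 1) := mul_le_mul_of_nonneg_right h2 (by linarith)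
        _ = _ := by ring
    rw [LL, DD]
    refine (Real.log_le_log (by linarith) h1).trans (le_of_eq ?_)
    rw [Real.log_pow]
    norm_num
  have hlog : 0 ≤ Real.log ((d : ℝ) + 1) := Real.log_nonneg (by linarith)
  have h : √(DD d * LL d) ≤ 27 * √(d * Real.log (d + 1)) := by
    rw [Real.sqrt_le_left (by positivity), mul_pow, Real.sq_sqrt (by positivity)]
    have h2 : DD d ≤ 101 * d := by rw [DD]; linarith
    calc DD d * LL d ≤ (101 * d) * (7 * Real.log ((d : ℝ) + 1)) :=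
          mul_le_mul h2 hL LL_pos.le (by positivity)
      _ ≤ _ := by nlinarith [mul_nonneg (show (0 : ℝ) ≤ d by linarith) hlog]
  have h1 : (1 : ℝ) ≤ RR d := le_trans (by norm_num) RR_ge
  have h3 : RR d = 20000 * √(DD d * LL d) := rfl
  linarith

/-- The bounds for signed prefixes and for zero-sum rearrangements. -/
theorem main_of_node
    (hrank : ∀ (d : ℕ), 1 ≤ d → ∀ (v : ℕ → V d) (s e), s ≤ e → rankOf v s e ≤ NR d)
    (hnode : ∀ (d : ℕ), 1 ≤ d → ∀ τ : ℝ, 0 < τ → τ ≤ 1 → OneStepProp d τ →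
      ∀ v : ℕ → V d, (∀ i, ‖v i‖ ≤ τ) → NodeP v (NR d)) :
    ∃ C : ℝ, 0 < C ∧ ∀ d : ℕ, 1 ≤ d →
      (∀ (N : ℕ) (v : Fin N → EuclideanSpace ℝ (Fin d)), (∀ i, ‖v i‖ ≤ 1) →
        ∃ ε : Fin N → ℝ, (∀ i, ε i = 1 ∨ ε i = -1) ∧
          ∀ k, k ≤ N → ‖∑ i : Fin N with i.val < k, ε i • v i‖ ≤ C * √(d * Real.log (d + 1))) ∧
      (∀ (N : ℕ) (v : Fin N → EuclideanSpace ℝ (Fin d)), (∀ i, ‖v i‖ ≤ 1) → ∑ i, v i = 0 →
        ∃ π : Equiv.Perm (Fin N),
          ∀ k, k ≤ N → ‖∑ i : Fin N with i.val < k, v (π i)‖ ≤ C * √(d * Real.log (d + 1))) := by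
  obtain ⟨τ, hτ0, hτ1, hone⟩ := oneStep
  refine ⟨1080000 / τ, by positivity, fun d hd => ?_⟩
  have hsign : ∀ (N : ℕ) (v : Fin N → EuclideanSpace ℝ (Fin d)), (∀ i, ‖v i‖ ≤ 1) →
      ∃ ε : Fin N → ℝ, (∀ i, ε i = 1 ∨ ε i = -1) ∧
        ∀ k, k ≤ N → ‖∑ i : Fin N with i.val < k, ε i • v i‖
          ≤ 1080000 / τ * √(d * Real.log (d + 1)) := by
    intro N v hv
    set u : ℕ → V d := fun i => if h : i < N then τ • v ⟨i, h⟩ else 0 with hu
    have hun : ∀ i, ‖u i‖ ≤ τ := fun i => by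
      by_cases h : i < N
      · simp only [hu, dif_pos h, norm_smul, Real.norm_eq_abs, abs_of_pos hτ0]
        exact mul_le_of_le_one_right hτ0.le (hv _)
      · simp [hu, h, hτ0.le]
    obtain ⟨w, hw, hwb⟩ := prefix_of_node hd u (hrank d hd u)
      (hnode d hd τ hτ0 hτ1 (hone d) u hun) N
    refine ⟨fun i => w i.val, fun i => hw i.val, fun k hk => ?_⟩
    have e : τ • ∑ i : Fin N with i.val < k, w i.val • v i = disp u 0 k w := by
      rw [disp, ← Finset.range_eq_Ico, ← sum_fin_lt (fun i => w i • u i) hk, Finset.smul_sum]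
      refine Finset.sum_congr rfl fun i _ => ?_
      rw [smul_comm τ]
      simp [hu, i.isLt]
    have h1 : τ * ‖∑ i : Fin N with i.val < k, w i.val • v i‖ ≤ RR d + 1 := by
      rw [← abs_of_pos hτ0, ← Real.norm_eq_abs, ← norm_smul, e]
      exact hwb k hk
    rw [div_mul_eq_mul_div, le_div_iff₀ hτ0, mul_comm]
    exact h1.trans (RR_le_sqrt hd)
  refine ⟨hsign, fun N v hv hsum => ?_⟩
  exact chobanyan v hsum _ fun π => hsign N (fun i => v (π i)) fun i => hv (π i)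

end Vale.Agent.P262
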