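import Mathlib
import Vale.Agent.P262.Design

/-!
P262, module (B1): greedy segmentation of an interval with respect to the design potential.
-/

namespace Vale.Agent.P262

/-- Greedy segmentation: every chunk is (a part of small potential) + one item, every chunk is
comparable with the whole interval, and the remainder is small. -/
theorem segmentation {d : ℕ} (v : ℕ → V d) (hd : 1 ≤ d) {ν ρ : ℝ} (hν : 0 < ν) (hρ : 0 < ρ)
    (hρ1 : ρ ≤ 1) {s e : ℕ} (hse : s ≤ e) :
    ∃ (m : ℕ) (p q : ℕ → ℕ), p 0 = s ∧ p m ≤ e ∧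
      (∀ j < m, p j ≤ q j ∧ q j + 1 = p (j + 1) ∧
        (q j = p j ∨ detPot v ν (p j) (q j) < ρ * detPot v ν s e) ∧
        ρ * detPot v ν s e ≤ detPot v ν (p j) (p (j + 1))) ∧
      (p m = e ∨ detPot v ν (p m) e < ρ * detPot v ν s e) := by
  classical
  have _ := hd
  have _ := hρ
  have _ := hρ1
  have _ := hν
  set T : ℝ := ρ * detPot v ν s e
  suffices H : ∀ r a, e - a ≤ r → a ≤ e →
      ∃ (m : ℕ) (p q : ℕ → ℕ), p 0 = a ∧ p m ≤ e ∧
        (∀ j < m, p j ≤ q j ∧ q j + 1 = p (j + 1) ∧
          (q j = p j ∨ detPot v ν (p j) (q j) < T) ∧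
          T ≤ detPot v ν (p j) (p (j + 1))) ∧
        (p m = e ∨ detPot v ν (p m) e < T) from H (e - s) s le_rfl hse
  intro r
  induction r with
  | zero =>
    intro a ha hae
    exact ⟨0, fun _ => a, fun _ => a, rfl, hae, by simp, Or.inl (show a = e by omega)⟩
  | succ r ih =>
    intro a ha hae
    by_cases hstop : a = e ∨ detPot v ν a e < T
    · exact ⟨0, fun _ => a, fun _ => a, rfl, hae, by simp, hstop⟩
    push Not at hstop
    have hex : ∃ k, a < k ∧ T ≤ detPot v ν a k := ⟨e, by omega, hstop.2⟩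
    set k := Nat.find hex
    have hk : a < k ∧ T ≤ detPot v ν a k := Nat.find_spec hex
    have hke : k ≤ e := Nat.find_min' hex ⟨by omega, hstop.2⟩
    obtain ⟨m, p, q, hp0, hpm, hseg, hend⟩ := ih k (by omega) hke
    refine ⟨m + 1, fun j => if j = 0 then a else p (j - 1),
      fun j => if j = 0 then k - 1 else q (j - 1), by simp, by simpa using hpm, ?_,
      by simpa using hend⟩
    intro j hj
    rcases Nat.eq_zero_or_pos j with rfl | hj0
    · have hsmall : k - 1 = a ∨ detPot v ν a (k - 1) < T := by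
        by_contra hcon
        push Not at hcon
        have := Nat.find_min' hex (m := k - 1) ⟨by omega, hcon.2⟩
        omega
      simp only [if_true, Nat.zero_add, Nat.one_ne_zero, if_false, Nat.sub_self, hp0]
      exact ⟨by omega, by omega, hsmall, hk.2⟩
    · obtain ⟨i, rfl⟩ : ∃ i, j = i + 1 := ⟨j - 1, by omega⟩
      simpa using hseg i (by omega)

end Vale.Agent.P262
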