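import Vale.Agent.P262.Junction
import Vale.Agent.P262.Kill
import Vale.Agent.P262.Seg

/-!
The induction on the rank.
-/

namespace Vale.Agent.P262

open Finset
open scoped RealInnerProductSpace

variable {d : ℕ} {v : ℕ → V d}

lemma beta_mono_right {t n n' : ℕ} (h : n ≤ n') : beta d t n ≤ beta d t n' := by
  unfold beta
  refine mul_le_mul_of_nonneg_left ?_ (inv_nonneg.2 (pow_nonneg DD_pos.le _))
  exact pow_le_pow_of_le_one (inv_nonneg.2 (pow_nonneg DD_pos.le _))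
    (inv_le_one_of_one_le₀ (one_le_pow₀ one_le_DD)) (by omega)

lemma mul_beta_le {t n : ℕ} (h : n ≤ t) {c : ℝ} (hc : c ≤ DD d ^ 268) :
    c * beta d t n ≤ beta d t (n + 1) / 100 := by
  rw [beta_succ (by omega)]
  have h1 := beta_nonneg (d := d) t (n + 1)
  have h2 : c * (DD d ^ 270)⁻¹ ≤ 1 / 100 := by
    have h3 : (DD d ^ 2)⁻¹ ≤ 1 / 100 := by
      rw [one_div]
      refine inv_anti₀ (by norm_num) ?_
      nlinarith [DD_ge (d := d)]
    refine le_trans ?_ h3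
    have := const_DD_div_le (d := d) (c := 1) (k := 0) (a := 268) (b := 270) (e := 2) (by norm_num)
      (by norm_num)
    rw [one_mul] at this
    exact (mul_le_mul_of_nonneg_right hc (inv_nonneg.2 (pow_nonneg DD_pos.le _))).trans this
  calc c * ((DD d ^ 270)⁻¹ * beta d t (n + 1)) = c * (DD d ^ 270)⁻¹ * beta d t (n + 1) := by ring
    _ ≤ 1 / 100 * beta d t (n + 1) := mul_le_mul_of_nonneg_right h2 h1
    _ = _ := by ring

lemma QQ_cast : (QQ d : ℝ) = DD d ^ 252 := by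
  rw [QQ, Nat.cast_mul, Q1_cast, Q2_cast, ← pow_add]

lemma QQ_pos : 0 < QQ d :=
  Nat.mul_pos (Nat.pow_pos (by omega)) (Nat.pow_pos (by omega))

lemma many_le {c : ℝ} (hc : c ≤ 100) : c * (QQ d : ℝ) ≤ DD d ^ 268 := by
  rw [QQ_cast]
  exact const_mul_DD_pow_le (k := 1) (by simpa using hc) (by norm_num)

lemma Kl_lev_le {n : ℕ} (h : n ≤ NR d) :
    0 ≤ Kl (lev n) ∧ Kl (lev n) + 50 ≤ DD d ^ 3 ∧ Kl (lev n) + 50 ≤ KP d ∧
      lev n + 10 ≤ 500 * (d + 100) := by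
  have hn : (n : ℝ) ≤ 77 * DD d := by rw [← NR_cast]; exact_mod_cast h
  have h0 : 0 ≤ Kl (lev n) := by unfold Kl; positivity
  have h2 : DD d ^ 3 ≤ KP d := DD_pow_mono (by norm_num)
  have h1 : Kl (lev n) + 50 ≤ DD d ^ 3 := by
    unfold Kl lev
    push_cast
    have := mul_le_mul_of_nonneg_left (DD_ge (d := d)) (DD_pos (d := d)).le
    nlinarith [DD_ge (d := d)]
  refine ⟨h0, h1, h1.trans h2, ?_⟩
  unfold lev NR at *
  omega

attribute [local irreducible] QQ Q1 Q2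

/-- Three consecutive small parts. -/
lemma chain_three {n : ℕ} (ih : NodeP v n) {O : Owner d} (hO : O.WF v) (hn : n < O.rk)
    (hnR : n ≤ NR d) {s a b e : ℕ} (hcs : O.cs ≤ s) (hsa : s ≤ a) (hab : a ≤ b) (hbe : b ≤ e)
    (hce : e ≤ O.ce) (h1 : a = s ∨ a = s + 1 ∨ rankOf v s a ≤ n)
    (h2 : b = a ∨ b = a + 1 ∨ rankOf v a b ≤ n) (h3 : e = b ∨ e = b + 1 ∨ rankOf v b e ≤ n) :
    ∃ Φ : V d →L[ℝ] V d, Disp v s e (Kl (lev n) + 2) Φ ∧
      Chain v O (lev n) s e Φ (3 * beta d O.rk n) (3 * beta d O.trk n) := by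
  obtain ⟨hK0, _, hKP, hl⟩ := Kl_lev_le (d := d) hnR
  obtain ⟨Φ₁, hD1, hC1⟩ := ih O hO hn s a hcs hsa (hab.trans (hbe.trans hce)) h1
  obtain ⟨Φ₂, hD2, hC2⟩ := ih O hO hn a b (hcs.trans hsa) hab (hbe.trans hce) h2
  obtain ⟨Φ₃, hD3, hC3⟩ := ih O hO hn b e (hcs.trans (hsa.trans hab)) hbe hce h3
  have h12 : Disp v s b (Kl (lev n) + 2) (Φ₂ ∘L Φ₁) :=
    (hD1.comp hK0 hD2).mono (max_le (by linarith) le_rfl)
  refine ⟨Φ₃ ∘L (Φ₂ ∘L Φ₁), (h12.comp hK0 hD3).mono (max_le le_rfl le_rfl), ?_⟩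
  have hc12 := Chain.concat (by omega) hK0 (by linarith) hD1 hC1 hC2
  have hc := Chain.concat (by omega) (by linarith) (by linarith) h12 hc12 hC3
  exact hc.mono le_rfl (le_of_eq (by ring)) (le_of_eq (by ring))

/-- Planned chunks for one owner. -/
lemma exists_family (hd : 1 ≤ d) {n : ℕ} (ih : NodeP v n) {O : Owner d} (hO : O.WF v)
    (hn : n < O.rk) (hnR : n ≤ NR d) {m : ℕ} {P A : ℕ → ℕ}
    (hcs : ∀ j < m, O.cs ≤ P j) (hce : ∀ j < m, P (j + 1) ≤ O.ce)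
    (hP : ∀ j < m, P j ≤ A j ∧ A j + 1 ≤ P (j + 1) ∧ (A j = P j ∨ rankOf v (P j) (A j) ≤ n) ∧
      (P (j + 1) = A j + 1 ∨ rankOf v (A j + 1) (P (j + 1)) ≤ n)) :
    ∃ Φs : ℕ → V d →L[ℝ] V d, ∀ j < m,
      Disp v (P j) (P (j + 1)) (Kl (lev n) + 3) (Φs j) ∧
      (∀ x, ‖(Φs j).adjoint x‖ ^ 2
        ≤ ‖x‖ ^ 2 - kap d * ⟪regOp v (nu d) (P j) (P (j + 1)) x, x⟫) ∧
      Chain v O (lev n + 1) (P j) (P (j + 1)) (Φs j) (3 * beta d O.rk n) (3 * beta d O.trk n) := by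
  have hν : 0 < nu d := inv_pos.2 (pow_pos DD_pos _)
  obtain ⟨hK0, _, _, _⟩ := Kl_lev_le (d := d) hnR
  have h : ∀ j, ∃ Φ : V d →L[ℝ] V d, j < m →
      Disp v (P j) (P (j + 1)) (Kl (lev n) + 3) Φ ∧
      (∀ x, ‖Φ.adjoint x‖ ^ 2 ≤ ‖x‖ ^ 2 - kap d * ⟪regOp v (nu d) (P j) (P (j + 1)) x, x⟫) ∧
      Chain v O (lev n + 1) (P j) (P (j + 1)) Φ (3 * beta d O.rk n) (3 * beta d O.trk n) := by
    intro j
    by_cases hj : j < m
    · obtain ⟨p1, p2, p3, p4⟩ := hP j hj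
      obtain ⟨Φ, hD, hC⟩ := chain_three ih hO hn hnR (hcs j hj) p1 (Nat.le_succ _) p2 (hce j hj)
        (p3.imp_right Or.inr) (Or.inr (Or.inl rfl)) (p4.imp_right Or.inr)
      have hse : P j ≤ P (j + 1) := by omega
      obtain ⟨hD', hdef⟩ := disp_plan (v := v) hd hν hse (by linarith) hD
      exact ⟨_, fun _ => ⟨hD'.mono (le_of_eq (by ring)), hdef,
        Chain.plan hd hν hse hC hD.contr⟩⟩
    · exact ⟨0, fun h => absurd h hj⟩
  choose Φs hΦs using h
  exact ⟨Φs, fun j hj => hΦs j hj⟩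

lemma compI_blocks (Φs : ℕ → V d →L[ℝ] V d) (bi : ℕ → ℕ) (h0 : bi 0 = 0) :
    ∀ j, (∀ i < j, bi i ≤ bi (i + 1)) →
      compI (fun i => compI Φs (bi i) (bi (i + 1) - bi i)) 0 j = compI Φs 0 (bi j) := by
  intro j
  induction j with
  | zero => intro _; simp [h0]
  | succ j ih =>
    intro h
    rw [compI_succ, Nat.zero_add, ih fun i hi => h i (by omega)]
    have := h j (by omega)
    conv_rhs => rw [show bi (j + 1) = bi j + (bi (j + 1) - bi j) by omega, compI_add, Nat.zero_add]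

lemma lowSq_hiSpan {b : OrthonormalBasis (Fin d) ℝ (V d)} {mu : Fin d → ℝ} {h : V d}
    (hh : h ∈ hiSpan b mu) : lowSq b mu (th2 d) h = 0 :=
  Finset.sum_eq_zero fun i hi => by
    rw [inner_eq_zero_of_mem_hiSpan b mu hh (not_lt.2 (Finset.mem_filter.1 hi).2)]
    simp

lemma few_chunks (hd : 1 ≤ d) {n : ℕ} (ih : NodeP v n) {O : Owner d} (hO : O.WF v)
    (hn : n + 1 < O.rk) {s e m : ℕ} {p q : ℕ → ℕ} (hcs : O.cs ≤ s) (hce : e ≤ O.ce)
    (hp0 : p 0 = s) (hpm : p m ≤ e) (hm : m < 3 * QQ d)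
    (hq : ∀ j < m, p j ≤ q j ∧ q j + 1 = p (j + 1) ∧ (q j = p j ∨ rankOf v (p j) (q j) ≤ n))
    (hend : p m = e ∨ rankOf v (p m) e ≤ n) :
    ∃ Φ : V d →L[ℝ] V d, Disp v s e (Kl (lev (n + 1))) Φ ∧
      Chain v O (lev (n + 1)) s e Φ (beta d O.rk (n + 1)) (beta d O.trk (n + 1)) := by
  have _ := hd
  have hr1 := hO.rk_le
  have hr2 := hO.trk_le
  have hnR : n ≤ NR d := by omega
  obtain ⟨hK0, _, hKP, hl⟩ := Kl_lev_le (d := d) hnR
  set P : ℕ → ℕ := fun j => if j ≤ m then p j else e with hP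
  have hstep : ∀ j < m, p j ≤ p (j + 1) := fun j hj => by
    obtain ⟨a, b, _⟩ := hq j hj; omega
  have hmono : ∀ i j, i ≤ j → j ≤ m → p i ≤ p j := by
    intro i j hij
    induction j, hij using Nat.le_induction with
    | base => exact fun _ => le_rfl
    | succ j _ ih => exact fun h => (ih (by omega)).trans (hstep j (by omega))
  have hpart : ∀ j, ∃ Φ : V d →L[ℝ] V d, j < m + 1 →
      Disp v (P j) (P (j + 1)) (Kl (lev n) + 2) Φ ∧
      Chain v O (lev n) (P j) (P (j + 1)) Φ (3 * beta d O.rk n) (3 * beta d O.trk n) := by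
    intro j
    by_cases hj : j < m
    · obtain ⟨a, b, c⟩ := hq j hj
      have h1 : s ≤ p j := hp0 ▸ hmono 0 j (Nat.zero_le _) hj.le
      have h2 : p (j + 1) ≤ e := (hmono (j + 1) m hj le_rfl).trans hpm
      obtain ⟨Φ, hD, hC⟩ := chain_three ih hO (by omega) hnR (hcs.trans h1) a
        (show q j ≤ p (j + 1) by omega) le_rfl (h2.trans hce) (c.imp_right Or.inr)
        (Or.inr (Or.inl b.symm)) (Or.inl rfl)
      refine ⟨Φ, fun _ => ?_⟩
      simp only [hP, if_pos hj.le, if_pos (show j + 1 ≤ m by omega)]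
      exact ⟨hD, hC⟩
    · by_cases hjm : j = m
      · subst hjm
        obtain ⟨Φ, hD, hC⟩ := chain_three ih hO (by omega) hnR
          (hcs.trans (hp0 ▸ hmono 0 j (Nat.zero_le _) le_rfl)) hpm le_rfl le_rfl hce
          (hend.elim (fun h => Or.inl h.symm) fun h => Or.inr (Or.inr h)) (Or.inl rfl) (Or.inl rfl)
        refine ⟨Φ, fun _ => ?_⟩
        simp only [hP, if_pos le_rfl, if_neg (show ¬ j + 1 ≤ j by omega)]
        exact ⟨hD, hC⟩
      · exact ⟨0, fun h => absurd h (by omega)⟩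
  choose Φs hΦs using hpart
  have hD := disp_compI (v := v) (p := P) (Φs := Φs) (i := 0) (n := m + 1)
    (K := Kl (lev n) + 2) (by linarith) fun j _ hj => (hΦs j (by omega)).1
  have hC := Chain.concatMany (v := v) (O := O) (l := lev n) (by omega) (K := Kl (lev n) + 2)
    (by linarith) (by linarith) (p := P) (Φs := Φs) 0 m (fun j _ hj => (hΦs j (by omega)).1)
    fun j _ hj => (hΦs j (by omega)).2
  have e0 : P 0 = s := by simp [hP, hp0]
  have e1 : P (0 + (m + 1)) = e := by simp [hP]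
  rw [e0, e1] at hD hC
  refine ⟨_, hD.mono ?_, hC.mono (by unfold lev; omega) ?_ ?_⟩
  · unfold Kl lev; push_cast; linarith
  all_goals
    have hm' : ((m + 1 : ℕ) : ℝ) * 3 ≤ DD d ^ 268 := by
      have h1 : ((m + 1 : ℕ) : ℝ) ≤ 3 * (QQ d : ℝ) := by exact_mod_cast (by omega)
      have := many_le (d := d) (c := 9) (by norm_num)
      linarith
    rw [← mul_assoc]
  · linarith [mul_beta_le (t := O.rk) (n := n) (by omega) hm', beta_nonneg (d := d) O.rk (n + 1)]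
  · linarith [mul_beta_le (t := O.trk) (n := n) (by omega) hm', beta_nonneg (d := d) O.trk (n + 1)]

lemma child_wf {O : Owner d} (hO : O.WF v) {n r e : ℕ} (hn : n + 1 < O.rk)
    {M : V d →L[ℝ] V d} {b : OrthonormalBasis (Fin d) ℝ (V d)} {mu : Fin d → ℝ}
    (hP : Pure v r e M b mu) (hk : Module.finrank ℝ (hiSpan b mu) ≤ Module.finrank ℝ O.H) :
    Owner.WF v
      { H := hiSpan b mu
        B := √(O.B ^ 2 + 4.5 * radW d ((O.trk - (n + 1)) + (O.tk - Module.finrank ℝ (hiSpan b mu)) + 1) ^ 2 + 3)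
        cs := r, ce := e, rk := n + 1, trk := O.rk, tk := Module.finrank ℝ O.H } := by
  refine ⟨Real.sqrt_nonneg _, hn.le, hO.rk_le.trans hO.trk_le, hk, hO.k_le.trans hO.tk_le, ?_,
    fun K y hK hy => hP.drift hK hy⟩
  set k' := Module.finrank ℝ (hiSpan b mu)
  have hr := hO.rk_le
  have hk2 := hO.k_le
  obtain ⟨_, hr2⟩ := radW_ge (d := d) (X := (O.trk - (n + 1)) + (O.tk - k') + 1) (by omega)
  have hL := LL_ge (d := d)
  rw [Real.sq_sqrt (by positivity), hr2]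
  have hinv := hO.inv
  have e1 : (((O.trk - (n + 1)) + (O.tk - k') + 1 : ℕ) : ℝ) + ((n + 1 + k' : ℕ) : ℝ)
      = ((O.trk + O.tk : ℕ) : ℝ) + 1 := by
    have h : O.trk - (n + 1) + (O.tk - k') + 1 + (n + 1 + k') = O.trk + O.tk + 1 := by omega
    exact_mod_cast h
  have hX2 : (2 : ℝ) ≤ (((O.trk - (n + 1)) + (O.tk - k') + 1 : ℕ) : ℝ) := by
    exact_mod_cast (by omega)
  generalize (((O.trk - (n + 1)) + (O.tk - k') + 1 : ℕ) : ℝ) = X at e1 hX2 ⊢
  simp only at hinv ⊢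
  nlinarith [mul_le_mul_of_nonneg_left hX2 (LL_pos (d := d)).le]

lemma pure_fam (hd : 1 ≤ d) {X0 X1 : ℕ} {M : V d →L[ℝ] V d}
    {b : OrthonormalBasis (Fin d) ℝ (V d)} {mu : Fin d → ℝ} (hP : Pure v X0 X1 M b mu)
    {K : ℝ} {p : ℕ → ℕ} {Φs : ℕ → V d →L[ℝ] V d} {m : ℕ}
    (hin : ∀ j < m, X0 ≤ p j ∧ p (j + 1) ≤ X1)
    (hdet : ∀ j < m, rho d * detPot v (nu d) X0 X1 ≤ detPot v (nu d) (p j) (p (j + 1)))
    (h : ∀ j < m, Disp v (p j) (p (j + 1)) K (Φs j) ∧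
      ∀ x, ‖(Φs j).adjoint x‖ ^ 2 ≤ ‖x‖ ^ 2 - kap d * ⟪regOp v (nu d) (p j) (p (j + 1)) x, x⟫) :
    ChunkFam v M (kap d) (DD d ^ 7)⁻¹ (nu d) K p Φs m := by
  refine ⟨fun j hj => (h j hj).1, fun j hj x => ?_⟩
  have h1 := (h j hj).2 x
  have h2 := chunk_deficit hd hP (hin j hj).1 (h j hj).1.le (hin j hj).2 (hdet j hj) x
  have := mul_le_mul_of_nonneg_left h2 (kap_small hd).1.le
  linarith

lemma kill_block (hd : 1 ≤ d) {r e : ℕ} {M : V d →L[ℝ] V d}
    {b : OrthonormalBasis (Fin d) ℝ (V d)} {mu : Fin d → ℝ} (hR : Pure v r e M b mu)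
    {K : ℝ} {p : ℕ → ℕ} {Φs : ℕ → V d →L[ℝ] V d} {m : ℕ}
    (fam : ChunkFam v M (kap d) (DD d ^ 7)⁻¹ (nu d) K p Φs m) (hK0 : 0 ≤ K)
    (hK : K + 2 ≤ DD d ^ 3) (h0 : r ≤ p 0) (h1 : p m ≤ e) {i k : ℕ} (hik : i + k ≤ m)
    (hk : QQ d ≤ k) {h : V d} (hh : h ∈ hiSpan b mu) :
    ‖(compI Φs i k).adjoint h‖ ≤ eta' d * ‖h‖ :=
  kill_hi hd hR fam hK0 hK h0 h1 hik hk
    (by rw [lowSq_hiSpan hh, Real.sqrt_zero]
        exact mul_nonneg (inv_nonneg.2 (pow_nonneg DD_pos.le _)) (norm_nonneg h))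

lemma block_index {m' : ℕ} (hm' : QQ d ≤ m') :
    ∃ (N : ℕ) (bi : ℕ → ℕ), bi 0 = 0 ∧ bi (N + 1) = m' ∧
      ∀ j < N + 1, bi j + QQ d ≤ bi (j + 1) ∧ bi (j + 1) ≤ bi j + 3 * QQ d ∧ bi (j + 1) ≤ m' := by
  have hQ := QQ_pos (d := d)
  obtain ⟨N, hN⟩ : ∃ N, m' / QQ d = N + 1 := ⟨m' / QQ d - 1, by
    have : 1 ≤ m' / QQ d := (Nat.one_le_div_iff hQ).2 hm'
    omega⟩
  refine ⟨N, fun j => if j ≤ N then j * QQ d else m', by simp, by simp, ?_⟩
  have h1 := Nat.div_add_mod m' (QQ d)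
  have h2 := Nat.mod_lt m' hQ
  rw [hN, mul_add, mul_one, mul_comm (QQ d) N] at h1
  intro j hj
  simp only [if_pos (show j ≤ N by omega)]
  have hjm : j * QQ d ≤ N * QQ d := Nat.mul_le_mul_right _ (by omega)
  by_cases hjN : j + 1 ≤ N
  · rw [if_pos hjN]
    have h3 : (j + 1) * QQ d ≤ N * QQ d := Nat.mul_le_mul_right _ hjN
    simp only [Nat.add_mul, one_mul] at h3 ⊢
    omega
  · rw [if_neg hjN]
    obtain rfl : j = N := by omega
    omega

lemma rest_blocks (hd : 1 ≤ d) {n : ℕ} (hnR : n ≤ NR d) {O' : Owner d} (hWF : O'.WF v)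
    (hrk : O'.rk = n + 1) (htrk : n + 1 < O'.trk) {r e : ℕ} {M : V d →L[ℝ] V d}
    {b : OrthonormalBasis (Fin d) ℝ (V d)} {mu : Fin d → ℝ} (hH : O'.H = hiSpan b mu)
    (hcs' : O'.cs = r) (hce' : O'.ce = e) (hR : Pure v r e M b mu)
    {P' : ℕ → ℕ} {m' : ℕ} (hP'0 : P' 0 = r) (hP'm : P' m' = e) (hm' : QQ d ≤ m')
    {Φn : ℕ → V d →L[ℝ] V d}
    (hfam' : ChunkFam v M (kap d) (DD d ^ 7)⁻¹ (nu d) (Kl (lev n) + 3) P' Φn m')
    (hC : ∀ j < m', Chain v O' (lev n + 1) (P' j) (P' (j + 1)) (Φn j)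
      (3 * beta d (n + 1) n) (3 * beta d O'.trk n)) :
    ∃ Ω' : V d → ℝ, Adm Ω' ∧ (∀ x, 0 ≤ Ω' x) ∧
      (∀ (σ : ℝ) (u : V d), 0 ≤ σ → σ ≤ 2 → ‖O'.H.starProjection u‖ ≤ 1 → ‖u‖ ≤ 2 * RR d →
        gE (fun g => Ω' (u + σ • g)) ≤ 9 * (QQ d : ℝ) * beta d O'.trk n) ∧
      ∀ y, ‖y‖ ≤ Rg d (lev n + 1) → ‖O'.Hᗮ.starProjection y‖ ≤ O'.B → Ω' y < 1 → ∀ a : ℕ → ℝ,
        (∀ i ∈ Finset.Ico r e, |a i| ≤ alf d (lev n + 1 + 2)) → ∀ f : V d → ℝ, Adm f →
        ∃ w : ℕ → ℝ, SignOn r e w ∧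
          (∀ k, r ≤ k → k ≤ e → ‖y + disp v r k (w - a)‖ ≤ Rg d (lev n + 1 + 2)) ∧
          f (y + disp v r e (w - a))
            ≤ gE (fun g => f (Tmap b mu (compI Φn 0 m') y + Amap b mu O'.sd g)) := by
  obtain ⟨hK0, hK3, hKP, hl⟩ := Kl_lev_le (d := d) hnR
  have hK5 : 0 ≤ Kl (lev n) + 3 := by linarith
  have hQ := QQ_pos (d := d)
  obtain ⟨N, bi, hb0, hbN, hblk⟩ := block_index (d := d) hm'
  set G : ℕ → V d →L[ℝ] V d := fun j => compI Φn (bi j) (bi (j + 1) - bi j) with hG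
  have hGD : ∀ j < N + 1, Disp v (P' (bi j)) (P' (bi (j + 1))) (Kl (lev n) + 5) (G j) := by
    intro j hj
    obtain ⟨h1, h2, h3⟩ := hblk j hj
    have := disp_compI (v := v) (p := P') (Φs := Φn) (i := bi j) (n := bi (j + 1) - bi j) hK5
      fun i _ hi => hfam'.disp i (by omega)
    rw [Nat.add_sub_cancel' (by omega)] at this
    exact this.mono (by linarith)
  have hGC : ∀ j < N + 1, Chain v O' (lev n + 1) (P' (bi j)) (P' (bi (j + 1))) (G j)
      (9 * (QQ d : ℝ) * beta d (n + 1) n) (9 * (QQ d : ℝ) * beta d O'.trk n) := by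
    intro j hj
    obtain ⟨h1, h2, h3⟩ := hblk j hj
    obtain ⟨k, hk⟩ : ∃ k, bi (j + 1) - bi j = k + 1 := ⟨bi (j + 1) - bi j - 1, by omega⟩
    have hc := Chain.concatMany (v := v) (O := O') (l := lev n + 1) (by omega)
      (K := Kl (lev n) + 3) hK5 (by linarith) (p := P') (Φs := Φn) (bi j) k
      (fun i _ hi => hfam'.disp i (by omega)) fun i _ hi => hC i (by omega)
    rw [show bi j + (k + 1) = bi (j + 1) by omega] at hc
    rw [← hk] at hc
    have hle : ((bi (j + 1) - bi j : ℕ) : ℝ) * 3 ≤ 9 * (QQ d : ℝ) := by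
      have : ((bi (j + 1) - bi j : ℕ) : ℝ) ≤ 3 * (QQ d : ℝ) := by exact_mod_cast (by omega)
      linarith
    refine hc.mono le_rfl ?_ ?_
    all_goals rw [← mul_assoc]
    · exact mul_le_mul_of_nonneg_right hle (beta_nonneg _ _)
    · exact mul_le_mul_of_nonneg_right hle (beta_nonneg _ _)
  have h9 : 9 * (QQ d : ℝ) ≤ DD d ^ 268 := many_le (by norm_num)
  have hβsmall : 9 * (QQ d : ℝ) * beta d (n + 1) n + 9 * (QQ d : ℝ) * beta d O'.trk n
      ≤ (DD d ^ 80)⁻¹ := by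
    have hb : ∀ t, n + 1 ≤ t → beta d t (n + 1) ≤ (DD d ^ 80)⁻¹ := fun t ht => by
      refine le_trans ?_ (inv_DD_pow_anti (show 80 ≤ 20 + 270 by norm_num))
      rw [pow_add, mul_inv]
      unfold beta
      refine mul_le_mul_of_nonneg_left ?_ (inv_nonneg.2 (pow_nonneg DD_pos.le _))
      calc ((DD d ^ 270)⁻¹) ^ (t + 1 - (n + 1)) ≤ ((DD d ^ 270)⁻¹) ^ 1 :=
            pow_le_pow_of_le_one (inv_nonneg.2 (pow_nonneg DD_pos.le _))
              (inv_le_one_of_one_le₀ (one_le_pow₀ one_le_DD)) (by omega)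
        _ = _ := pow_one _
    have h1 := mul_beta_le (t := n + 1) (n := n) (by omega) h9
    have h2 := mul_beta_le (t := O'.trk) (n := n) (by omega) h9
    linarith [hb (n + 1) le_rfl, hb O'.trk htrk.le, inv_nonneg.2 (pow_nonneg (DD_pos (d := d)).le 80)]
  obtain ⟨Ω', hΩA, hΩ0, hΩb, hgood⟩ := good_rest hd hWF hH hcs' hce' hR (N := N)
    (P := fun j => P' (bi j)) (by simp [hb0, hP'0]) (by simp [hbN, hP'm]) (G := G)
    (K := Kl (lev n) + 5) (by linarith) (by linarith) hGD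
    (fun j hj h hh => kill_block hd hR hfam' hK5 (by linarith) hP'0.ge hP'm.le
      (by have := hblk j hj; omega) (by have := hblk j hj; omega) hh)
    (lb := lev n + 1) (by omega) (mul_nonneg (by positivity) (beta_nonneg _ _))
    (mul_nonneg (by positivity) (beta_nonneg _ _)) hβsmall hGC
  refine ⟨Ω', hΩA, hΩ0, hΩb, ?_⟩
  have hGall : compI G 0 (N + 1) = compI Φn 0 m' := by
    rw [hG, compI_blocks Φn bi hb0 (N + 1) fun i hi => by have := hblk i hi; omega, hbN]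
  rwa [hGall] at hgood

lemma many_chunks (hd : 1 ≤ d) {n : ℕ} (ih : NodeP v n) {O : Owner d} (hO : O.WF v)
    (hn : n + 1 < O.rk) {s e m : ℕ} {P A : ℕ → ℕ} (hcs : O.cs ≤ s) (hce : e ≤ O.ce)
    (hP0 : P 0 = s) (hPm : P m = e) (hm : 3 * QQ d ≤ m)
    (hPA : ∀ j < m, P j ≤ A j ∧ A j + 1 ≤ P (j + 1) ∧ (A j = P j ∨ rankOf v (P j) (A j) ≤ n) ∧
      (P (j + 1) = A j + 1 ∨ rankOf v (A j + 1) (P (j + 1)) ≤ n))
    (hdet : ∀ j < m, rho d * detPot v (nu d) s e ≤ detPot v (nu d) (P j) (P (j + 1))) :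
    ∃ Φ : V d →L[ℝ] V d, Disp v s e (Kl (lev (n + 1))) Φ ∧
      Chain v O (lev (n + 1)) s e Φ (beta d O.rk (n + 1)) (beta d O.trk (n + 1)) := by
  have hr1 := hO.rk_le
  have hr2 := hO.trk_le
  have hnR : n ≤ NR d := by omega
  obtain ⟨hK0, hK3, hKP, hl⟩ := Kl_lev_le (d := d) hnR
  have hν : 0 < nu d := inv_pos.2 (pow_pos DD_pos _)
  have hQ := QQ_pos (d := d)
  have hPmono : ∀ i j, i ≤ j → j ≤ m → P i ≤ P j := by
    intro i j hij
    induction j, hij using Nat.le_induction with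
    | base => exact fun _ => le_rfl
    | succ j _ ih =>
      intro h
      obtain ⟨a, b, _⟩ := hPA j (by omega)
      exact (ih (by omega)).trans (by omega)
  have hin : ∀ j < m, s ≤ P j ∧ P (j + 1) ≤ e := fun j hj =>
    ⟨hP0 ▸ hPmono 0 j (Nat.zero_le _) hj.le, hPm ▸ hPmono (j + 1) m hj le_rfl⟩
  obtain ⟨Φo, hΦo⟩ := exists_family hd ih hO (by omega) hnR (P := P) (A := A) (m := m)
    (fun j hj => hcs.trans (hin j hj).1) (fun j hj => (hin j hj).2.trans hce) hPA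
  set r := P (QQ d) with hr
  have hsr : s ≤ r := hP0 ▸ hPmono 0 _ (Nat.zero_le _) (by omega)
  have hre : r ≤ e := hPm ▸ hPmono _ m (by omega) le_rfl
  have hK5 : 0 ≤ Kl (lev n) + 3 := by linarith
  -- geometry of the rest
  obtain ⟨M, b, mu, hR⟩ := exists_pure (v := v) hd hre
  obtain ⟨m', hm'⟩ : ∃ m', m = QQ d + m' := ⟨m - QQ d, by omega⟩
  set P' : ℕ → ℕ := fun j => P (QQ d + j) with hP'
  have hP'0 : P' 0 = r := by simp [hP', hr]
  have hP'm : P' m' = e := by simp only [hP', ← hm', hPm]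
  have hinR : ∀ j < m', r ≤ P' j ∧ P' (j + 1) ≤ e := fun j hj =>
    ⟨hPmono _ _ (Nat.le_add_right _ _) (by omega),
      le_of_le_of_eq (hPmono _ m (by omega) le_rfl) hPm⟩
  have hdetR : ∀ j < m',
      rho d * detPot v (nu d) r e ≤ detPot v (nu d) (P' j) (P' (j + 1)) := fun j hj => by
    refine le_trans ?_ (hdet (QQ d + j) (by omega))
    exact mul_le_mul_of_nonneg_left (detPot_mono hν hsr hre le_rfl)
      (inv_nonneg.2 (pow_nonneg DD_pos.le _))
  have hgap : ∀ i, mu i ≤ th2 d ∨ thHi d ≤ mu i := by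
    refine gap hd hR (pure_fam hd hR (Φs := fun j => Φo (QQ d + j)) hinR hdetR fun j hj =>
      ⟨(hΦo (QQ d + j) (by omega)).1, (hΦo (QQ d + j) (by omega)).2.1⟩) hK5 (by linarith)
      hP'0 hP'm ?_
    have h1 : Q1 d * 1 ≤ QQ d := by
      unfold QQ
      exact Nat.mul_le_mul_left _ (by unfold Q2; exact Nat.pow_pos (by omega))
    omega
  -- the expanded part
  obtain ⟨M₀, b₀, mu₀, hI⟩ := exists_pure (v := v) hd (hsr.trans hre)
  have hkillE : ∀ h ∈ hiSpan b mu, ‖(compI Φo 0 (QQ d)).adjoint h‖ ≤ eta' d * ‖h‖ := fun h hh =>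
    kill_hi hd hI (pure_fam hd hI (m := QQ d) (fun j hj => hin j (by omega))
      (fun j hj => hdet j (by omega))
      fun j hj => ⟨(hΦo j (by omega)).1, (hΦo j (by omega)).2.1⟩) hK5 (by linarith) hP0.ge hre
      (i := 0) (n := QQ d) (by omega) le_rfl
      (low_of_realise hd hI hsr hre le_rfl (hR.hi_realise hgap hh))
  -- the child owner
  have hcsr : O.cs ≤ r := hcs.trans hsr
  have hkle : ∀ x ∈ hiSpan b mu, ‖O.Hᗮ.starProjection x‖ ≤ (DD d ^ 80)⁻¹ * ‖x‖ := by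
    intro x hx
    have h1 := hO.drift _ _ (by have := DD_pos (d := d); positivity)
      (InZ.extend hcsr hre hce (by have := DD_pos (d := d); positivity) (hR.hi_realise hgap hx))
    refine h1.trans ?_
    have h2 := const_DD_div_le (d := d) (c := 1) (k := 0) (a := 7) (b := 90) (e := 80) (by norm_num)
      (by norm_num)
    calc DD d ^ 7 * ‖x‖ * eta d = 1 * DD d ^ 7 * (DD d ^ 90)⁻¹ * ‖x‖ := by unfold eta; ring
      _ ≤ _ := mul_le_mul_of_nonneg_right h2 (norm_nonneg x)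
  have hk : Module.finrank ℝ (hiSpan b mu) ≤ Module.finrank ℝ O.H := by
    rw [← finrank_free (inv_lt_one_of_one_lt₀ (one_lt_pow₀ (by linarith [DD_ge (d := d)])
      (by norm_num))) hkle]
    exact Nat.le_add_right _ _
  set O' : Owner d :=
    { H := hiSpan b mu
      B := √(O.B ^ 2 + 4.5 * radW d ((O.trk - (n + 1)) + (O.tk - Module.finrank ℝ (hiSpan b mu)) + 1) ^ 2 + 3)
      cs := r, ce := e, rk := n + 1, trk := O.rk, tk := Module.finrank ℝ O.H } with hO'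
  have hWF : O'.WF v := child_wf hO hn hR hk
  obtain ⟨Φn, hΦn⟩ := exists_family hd ih hWF (Nat.lt_succ_self n) hnR (P := P')
    (A := fun j => A (QQ d + j)) (m := m')
    (fun j hj => (hinR j hj).1) (fun j hj => (hinR j hj).2)
    (fun j hj => hPA (QQ d + j) (by omega))
  have hfam' := pure_fam hd hR hinR hdetR fun j hj => ⟨(hΦn j hj).1, (hΦn j hj).2.1⟩
  obtain ⟨Ω', hΩA, hΩ0, hΩb, hgood⟩ := rest_blocks hd hnR hWF rfl hn rfl rfl rfl hR hP'0 hP'm
    (by omega) hfam' fun j hj => (hΦn j hj).2.2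
  have hΦr : Disp v r e (Kl (lev n) + 5) (compI Φn 0 m') := by
    have := disp_compI (v := v) (p := P') (Φs := Φn) (i := 0) (n := m') hK5
      fun i _ hi => (hΦn i (by omega)).1
    rw [Nat.zero_add, hP'm] at this
    exact this.mono (by linarith)
  have hsd : O'.sd + (DD d ^ 3)⁻¹ ≤ O.sd := by
    simp only [hO', Owner.sd, sig, Nat.add_sub_cancel]
    have h1 : ((n : ℝ) + 1) ≤ ((O.rk - 1 : ℕ) : ℝ) := by exact_mod_cast (by omega)
    have h2 := div_le_div_of_nonneg_right h1 (pow_nonneg (DD_pos (d := d)).le 3)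
    rw [add_div, one_div] at h2
    linarith
  obtain ⟨hs1, hs2⟩ := sd_bounds hWF
  obtain ⟨hT, hdom⟩ := hR.domination hd hgap (compI Φn 0 m') (hΦr.mono (by linarith))
    (fun h hh => kill_block hd hR hfam' hK5 (by linarith) hP'0.ge hP'm.le (by omega) (by omega) hh) (σO := O.sd) (σ1 := O'.sd) (by linarith) hsd
    (by linarith [(sd_bounds hO).2])
  have hΦe : Disp v s r (Kl (lev n) + 5) (compI Φo 0 (QQ d)) := by
    have := disp_compI (v := v) (p := P) (Φs := Φo) (i := 0) (n := QQ d) hK5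
      fun i _ hi => (hΦo i (by omega)).1
    rw [Nat.zero_add, hP0] at this
    exact this.mono (by linarith)
  have hCe : Chain v O (lev n + 1) s r (compI Φo 0 (QQ d))
      ((QQ d : ℝ) * (3 * beta d O.rk n)) ((QQ d : ℝ) * (3 * beta d O.trk n)) := by
    obtain ⟨k, hk⟩ : ∃ k, QQ d = k + 1 := ⟨QQ d - 1, by omega⟩
    have hc := Chain.concatMany (v := v) (O := O) (l := lev n + 1) (by omega)
      (K := Kl (lev n) + 3) hK5 (by linarith) (p := P) (Φs := Φo) 0 k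
      (fun i _ hi => (hΦo i (by omega)).1) fun i _ hi => (hΦo i (by omega)).2.2
    rw [Nat.zero_add, ← hk, hP0] at hc
    exact hc
  have hT' : ∀ x, ‖Tmap b mu (compI Φn 0 m') x‖ ≤ ‖x‖ := hT
  have hlb : lev n + 1 + 3 = lev (n + 1) := by unfold lev; omega
  have hC := chain_junction hd hO (O' := O') (n := n) (s := s) (r := r) (e := e)
    (fun h1 h2 => ⟨h1, h2, hn, hkle, rfl⟩) rfl hR (lb := lev n + 1) (by omega)
    (Ke := Kl (lev n) + 5) (by linarith) (by linarith) hΦe hCe hkillE (Kr := Kl (lev n) + 5)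
    (by linarith) (by linarith) hΦr hT' hdom hΩA hΩ0 hΩb hgood
  rw [hlb] at hC
  refine ⟨_, (hΦe.comp (by linarith) (disp_Tmap hd hR (by linarith) hΦr hT')).mono ?_,
    hC.mono le_rfl ?_ ?_⟩
  · refine max_le ?_ ?_ <;> (unfold Kl lev; push_cast; linarith)
  · have h1 := mul_beta_le (t := O.rk) (n := n) (by omega) (many_le (d := d) (c := 12) (by norm_num))
    linarith [beta_nonneg (d := d) O.rk (n + 1)]
  · have h1 := mul_beta_le (t := O.trk) (n := n) (by omega) (many_le (d := d) (c := 3) (by norm_num))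
    linarith [beta_nonneg (d := d) O.trk (n + 1)]

/-- The induction on the rank. -/
theorem nodeP (hd : 1 ≤ d) {τ : ℝ} (hτ : τ ≤ 1) (h1 : OneStepProp d τ) (hv : ∀ i, ‖v i‖ ≤ τ) :
    ∀ n, NodeP v n := by
  intro n
  induction n with
  | zero =>
    intro O hO _ s e hcs hse hce hcase
    have hb0 : beta d O.trk 0 ≤ beta d O.rk 0 := beta_anti hO.rk_le
    rcases hcase with rfl | rfl | h
    · exact ⟨_, Disp.id le_rfl (by unfold Kl; positivity),
        (chain_empty hO _ _).mono le_rfl hb0 le_rfl⟩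
    · exact ⟨_, Disp.id (Nat.le_succ s) (by unfold Kl; positivity),
        (chain_item hO hτ h1 hv _ _).mono le_rfl hb0 le_rfl⟩
    · exact absurd h (by unfold rankOf; omega)
  | succ n ih =>
    intro O hO hn s e hcs hse hce hcase
    by_cases hsmall : e = s ∨ e = s + 1 ∨ rankOf v s e ≤ n
    · obtain ⟨Φ, hD, hC⟩ := ih O hO (by omega) s e hcs hse hce hsmall
      refine ⟨Φ, hD.mono ?_, hC.mono (by unfold lev; omega)
        (beta_mono_right (Nat.le_succ n)) (beta_mono_right (Nat.le_succ n))⟩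
      unfold Kl lev; push_cast; linarith
    have hrk : rankOf v s e ≤ n + 1 :=
      hcase.resolve_left (fun h => hsmall (Or.inl h))
        |>.resolve_left (fun h => hsmall (Or.inr (Or.inl h)))
    obtain ⟨m, p, q, hp0, hpm, hseg, hend⟩ := segmentation v hd (ν := nu d) (ρ := rho d)
      (inv_pos.2 (pow_pos DD_pos _)) (inv_pos.2 (pow_pos DD_pos _))
      (inv_le_one_of_one_le₀ (one_le_pow₀ one_le_DD)) hse
    have hq : ∀ j < m, p j ≤ q j ∧ q j + 1 = p (j + 1) ∧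
        (q j = p j ∨ rankOf v (p j) (q j) ≤ n) := fun j hj => by
      obtain ⟨a, b, c, _⟩ := hseg j hj
      exact ⟨a, b, c.imp_right fun h => by have := rankOf_lt v hd h; omega⟩
    have hend' : p m = e ∨ rankOf v (p m) e ≤ n :=
      hend.imp_right fun h => by have := rankOf_lt v hd h; omega
    rcases lt_or_ge m (3 * QQ d) with hm | hm
    · exact few_chunks hd ih hO hn hcs hce hp0 hpm hm hq hend'
    have hQ := QQ_pos (d := d)
    refine many_chunks hd ih hO hn (P := fun j => if j < m then p j else e) (A := q) hcs hce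
      (by simp [hp0, show 0 < m by omega]) (by simp) hm (fun j hj => ?_) fun j hj => ?_
    · obtain ⟨a, b, c⟩ := hq j hj
      simp only [if_pos hj]
      refine ⟨a, ?_, c, ?_⟩
      · split
        · omega
        · have : j + 1 = m := by omega
          rw [this] at b; omega
      · split
        · exact Or.inl b.symm
        · have : j + 1 = m := by omega
          rw [this] at b
          rw [b]
          exact hend'.elim (fun h => Or.inl h.symm) Or.inr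
    · obtain ⟨a, b, _, hd'⟩ := hseg j hj
      simp only [if_pos hj]
      refine hd'.trans ?_
      split
      · exact le_rfl
      · have : j + 1 = m := by omega
        rw [this] at b ⊢
        exact detPot_mono (inv_pos.2 (pow_pos DD_pos _)) le_rfl (by omega) hpm

end Vale.Agent.P262
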